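import Vale.Agent.P218F.Ring

/-! Evaluation of differential polynomials near the truncations of a formal arc. -/

open Complex Metric Filter Topology Asymptotics

namespace Vale.Agent.P218F.NA

open Vale.Agent.Lib.RealArc

set_option linter.unusedSectionVars false

variable {ι : Type} [Fintype ι] [DecidableEq ι] {α : Type}

theorem poly_O {q : Polynomial ℝ} {L : ℕ}
    (h : (PowerSeries.X : PowerSeries ℝ) ^ L ∣ (q : PowerSeries ℝ)) :
    (fun t : ℂ => Polynomial.aeval t q) =O[𝓝 0] fun t => ‖t‖ ^ L := by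
  have h1 : Polynomial.X ^ L ∣ q := Polynomial.X_pow_dvd_iff.2 fun d hd => by
    simpa using PowerSeries.X_pow_dvd_iff.1 h d hd
  obtain ⟨r, rfl⟩ := h1
  have h2 : (fun t : ℂ => Polynomial.aeval t r) =O[𝓝 0] fun _ => (1 : ℝ) :=
    (r.continuous_aeval.continuousAt (x := (0 : ℂ))).isBigO_one ℝ
  have h3 : (fun t : ℂ => t ^ L) =O[𝓝 0] fun t => ‖t‖ ^ L :=
    IsBigO.of_bound 1 (Eventually.of_forall fun t => by simp)
  simpa using h3.mul h2

theorem mv_bdd {l : Filter α} {x : α → ι → ℂ} (hx : x =O[l] fun _ => (1 : ℝ))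
    (q : MvPolynomial ι ℝ) : (fun a => MvPolynomial.aeval (x a) q) =O[l] fun _ => (1 : ℝ) := by
  induction q using MvPolynomial.induction_on with
  | C c => simpa using isBigO_const_one ℝ (c : ℂ) l
  | add p q hp hq => simpa using hp.add hq
  | mul_X p i hp => simpa using hp.mul (isBigO_pi.1 hx i)

theorem mv_lip {l : Filter α} {x y : α → ι → ℂ} (hx : x =O[l] fun _ => (1 : ℝ))
    (hy : y =O[l] fun _ => (1 : ℝ)) (q : MvPolynomial ι ℝ) :
    (fun a => MvPolynomial.aeval (x a) q - MvPolynomial.aeval (y a) q) =O[l]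
      fun a => ‖x a - y a‖ := by
  induction q using MvPolynomial.induction_on with
  | C c => simpa using isBigO_zero _ _
  | add p q hp hq => exact (hp.add hq).congr_left fun a => by simp; ring
  | mul_X p i hp =>
    have h1 := hp.mul (isBigO_pi.1 hx i)
    have h2 : (fun a => x a i - y a i) =O[l] fun a => ‖x a - y a‖ :=
      IsBigO.of_bound 1 (Eventually.of_forall fun a => by
        simpa using norm_le_pi_norm (x a - y a) i)
    have h3 := (mv_bdd hy p).mul h2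
    simp only [mul_one, one_mul] at h1 h3
    exact (h1.add h3).congr_left fun a => by simp; ring

theorem dvd_aeval_trunc (γ : ι → PowerSeries ℝ) (L : ℕ) (q : MvPolynomial ι ℝ) :
    (PowerSeries.X : PowerSeries ℝ) ^ L ∣ MvPolynomial.aeval γ q -
      ((MvPolynomial.aeval (fun i => PowerSeries.trunc L (γ i)) q : Polynomial ℝ) :
        PowerSeries ℝ) := by
  induction q using MvPolynomial.induction_on with
  | C c => simp
  | add p q hp hq =>
    convert dvd_add hp hq using 1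
    simp; ring
  | mul_X p i hp =>
    have h1 : (PowerSeries.X : PowerSeries ℝ) ^ L ∣
        γ i - (PowerSeries.trunc L (γ i) : PowerSeries ℝ) :=
      PowerSeries.X_pow_dvd_iff.2 fun m hm => by simp [PowerSeries.coeff_trunc, hm]
    convert dvd_add (hp.mul_right (γ i)) (h1.mul_left
      ((MvPolynomial.aeval (fun i => PowerSeries.trunc L (γ i)) p : Polynomial ℝ) :
        PowerSeries ℝ)) using 1
    simp; ring

theorem pow_O {l : Filter α} {t : α → ℂ} (ht : Tendsto t l (𝓝 0)) {m n : ℕ} (h : n ≤ m) :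
    (fun a => ‖t a‖ ^ m) =O[l] fun a => ‖t a‖ ^ n := by
  refine IsBigO.of_bound 1 ?_
  filter_upwards [ht.eventually (closedBall_mem_nhds 0 one_pos)] with a ha
  rw [dist_zero_right] at ha
  simpa using pow_le_pow_of_le_one (norm_nonneg _) ha h

theorem exp_flat {p : ℕ} (hp : 1 ≤ p) {m : ℝ} (hm : 0 < m) (n : ℕ) :
    ∃ C : ℝ, 0 ≤ C ∧ ∀ s : ℝ, 0 < s → s ≤ 1 → Real.exp (-(m / s ^ p)) ≤ C * s ^ n := by
  obtain ⟨C, hC, h⟩ := pow_mul_exp_le n hm
  refine ⟨C, hC, fun s hs h1 => ?_⟩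
  have h2 := h (1 / s ^ p) (by positivity)
  rw [mul_one_div] at h2
  have h3 : 1 ≤ (1 / s ^ p + 1) * s := by
    have : s ^ p ≤ s := by simpa using pow_le_pow_of_le_one hs.le h1 hp
    have h4 : 1 ≤ 1 / s ^ p * s := by
      rw [one_div_mul_eq_div, le_div_iff₀ (by positivity)]; linarith
    nlinarith
  have h4 : 1 ≤ (1 / s ^ p + 1) ^ n * s ^ n := by
    rw [← mul_pow]; exact one_le_pow₀ h3
  have h5 := Real.exp_pos (-(m / s ^ p))
  have h6 : 0 < s ^ n := by positivity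
  nlinarith [mul_le_mul_of_nonneg_right h2 h6.le]

theorem ev_small (C : ℝ) {ε : ℝ} (hε : 0 < ε) : ∀ᶠ t : ℂ in 𝓝 0, C * ‖t‖ < ε := by
  have : Tendsto (fun t : ℂ => C * ‖t‖) (𝓝 0) (𝓝 (C * ‖(0 : ℂ)‖)) :=
    (continuous_const.mul continuous_norm).tendsto 0
  exact this.eventually (gt_mem_nhds (by simpa using hε))

namespace ArcD

variable (A : ArcD ι)

/-- truncations of the arc -/
noncomputable def arcT (L : ℕ) (t : ℂ) : ι → ℂ :=
  fun i => Polynomial.aeval t (PowerSeries.trunc L (A.γ i))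

/-- the ball on which the patches live -/
def U (t : ℂ) : Set (ι → ℂ) := ball (A.arcT (A.p + 2) t) (‖t‖ ^ (A.p + 1))

/-- the smaller ball -/
def Uq (t : ℂ) : Set (ι → ℂ) := ball (A.arcT (A.p + 2) t) (‖t‖ ^ (A.p + 1) / 4)

/-- the truncation number -/
noncomputable def Rt (t : ℂ) : ℕ := ⌊A.k1 / ‖t‖ ^ A.p⌋₊

theorem Uq_subset (t : ℂ) : A.Uq t ⊆ A.U t :=
  ball_subset_ball (by have : 0 ≤ ‖t‖ ^ (A.p + 1) := by positivity
                       linarith)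

theorem differentiable_arcT (L : ℕ) : Differentiable ℂ (A.arcT L) :=
  differentiable_pi.2 fun _ => Polynomial.differentiable_aeval _

theorem arcT_sub {n L L' : ℕ} (h : n ≤ L) (h' : n ≤ L') :
    (fun t => A.arcT L t - A.arcT L' t) =O[𝓝 0] fun t => ‖t‖ ^ n := by
  refine isBigO_pi.2 fun i => ?_
  have := poly_O (q := PowerSeries.trunc L (A.γ i) - PowerSeries.trunc L' (A.γ i)) (L := n)
    (PowerSeries.X_pow_dvd_iff.2 fun m hm => by
      simp [PowerSeries.coeff_trunc, hm.trans_le h, hm.trans_le h'])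
  simpa [arcT] using this

theorem arcT_O (L : ℕ) : A.arcT L =O[𝓝 0] fun t => ‖t‖ := by
  refine isBigO_pi.2 fun i => ?_
  have := poly_O (q := PowerSeries.trunc L (A.γ i)) (L := 1)
    (PowerSeries.X_pow_dvd_iff.2 fun m hm => by
      have : m = 0 := by omega
      simp [PowerSeries.coeff_trunc, this, A.h0 i])
  simpa [arcT] using this

theorem arcT_I {L : ℕ} (h : A.p + 1 ≤ L) {i : ι} (hi : i ∈ A.P.I) :
    (fun t : ℂ => A.arcT L t i - (PowerSeries.coeff A.p (A.γ i) : ℝ) * t ^ A.p) =O[𝓝 0]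
      fun t => ‖t‖ ^ (A.p + 1) := by
  have := poly_O (q := PowerSeries.trunc L (A.γ i) -
    Polynomial.C (PowerSeries.coeff A.p (A.γ i)) * Polynomial.X ^ A.p) (L := A.p + 1)
    (PowerSeries.X_pow_dvd_iff.2 fun m hm => by
      have h1 := PowerSeries.X_pow_dvd_iff.1 (A.hI i hi) m
      rw [Polynomial.coeff_coe, Polynomial.coeff_sub, Polynomial.coeff_C_mul,
        Polynomial.coeff_X_pow, PowerSeries.coeff_trunc, if_pos (hm.trans_le h)]
      split_ifs with h2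
      · rw [h2, mul_one, sub_self]
      · rw [h1 (by omega), mul_zero, sub_zero])
  simpa [arcT] using this

theorem U_norm : ∃ C : ℝ, 0 ≤ C ∧ ∀ᶠ t in 𝓝 (0 : ℂ), ∀ y ∈ A.U t, ‖y‖ ≤ C * ‖t‖ := by
  obtain ⟨C, hC, h⟩ := (A.arcT_O (A.p + 2)).exists_nonneg
  refine ⟨C + 1, by positivity, ?_⟩
  filter_upwards [h.bound, closedBall_mem_nhds 0 one_pos] with t h1 h2 y hy
  rw [mem_closedBall_zero_iff] at h2
  have h3 : ‖y - A.arcT (A.p + 2) t‖ < ‖t‖ ^ (A.p + 1) := mem_ball_iff_norm.1 hy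
  have h4 : ‖t‖ ^ (A.p + 1) ≤ ‖t‖ := by
    simpa using pow_le_pow_of_le_one (norm_nonneg t) h2 (by omega : 1 ≤ A.p + 1)
  have h5 : ‖y‖ ≤ ‖A.arcT (A.p + 2) t‖ + ‖y - A.arcT (A.p + 2) t‖ := by
    simpa using norm_add_le (A.arcT (A.p + 2) t) (y - A.arcT (A.p + 2) t)
  rw [norm_norm] at h1
  linarith

theorem U_I : ∃ C : ℝ, 0 ≤ C ∧ ∀ᶠ t in 𝓝 (0 : ℂ), ∀ y ∈ A.U t, ∀ i ∈ A.P.I,
    ‖y i - (PowerSeries.coeff A.p (A.γ i) : ℝ) * t ^ A.p‖ ≤ C * ‖t‖ ^ (A.p + 1) := by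
  have h0 : (fun t : ℂ => fun i => if i ∈ A.P.I then
      A.arcT (A.p + 2) t i - (PowerSeries.coeff A.p (A.γ i) : ℝ) * t ^ A.p else 0) =O[𝓝 0]
      fun t => ‖t‖ ^ (A.p + 1) := by
    refine isBigO_pi.2 fun i => ?_
    by_cases hi : i ∈ A.P.I
    · simpa [hi] using A.arcT_I (L := A.p + 2) (by omega) hi
    · simpa [hi] using isBigO_zero _ _
  obtain ⟨C, hC, h⟩ := h0.exists_nonneg
  refine ⟨C + 1, by positivity, ?_⟩
  filter_upwards [h.bound] with t h1 y hy i hi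
  have h2 := (norm_le_pi_norm _ i).trans h1
  simp only [hi, if_true, norm_pow, norm_norm] at h2
  have h3 : ‖y - A.arcT (A.p + 2) t‖ < ‖t‖ ^ (A.p + 1) := mem_ball_iff_norm.1 hy
  have h4 := norm_le_pi_norm (y - A.arcT (A.p + 2) t) i
  have h5 := norm_add_le (y i - A.arcT (A.p + 2) t i)
    (A.arcT (A.p + 2) t i - (PowerSeries.coeff A.p (A.γ i) : ℝ) * t ^ A.p)
  rw [sub_add_sub_cancel] at h5
  rw [Pi.sub_apply] at h4
  linarith

theorem U_dom : ∀ᶠ t in 𝓝 (0 : ℂ), ∀ R : ℕ, 1 ≤ R → R * ‖t‖ ^ A.p ≤ 3 * A.k1 →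
    A.U t ⊆ A.P.dom (1 / 2) R := by
  obtain ⟨C, hC, h⟩ := A.U_norm
  obtain ⟨C', hC', h'⟩ := A.U_I
  have hr := A.P.hr
  filter_upwards [h, h', ev_small C (by positivity : 0 < 1 / 2 * A.P.r), ev_small C' one_pos]
    with t h1 h2 h3 h4 R hR hR' y hy
  refine ⟨(h1 y hy).trans_lt h3, fun i hi => ?_⟩
  have a1 : (0 : ℝ) < R := by exact_mod_cast hR
  have a2 := h2 y hy i hi
  have a3 := norm_add_le (y i - (PowerSeries.coeff A.p (A.γ i) : ℝ) * t ^ A.p)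
    ((PowerSeries.coeff A.p (A.γ i) : ℝ) * t ^ A.p)
  rw [sub_add_cancel, norm_mul, norm_pow, Complex.norm_real, Real.norm_eq_abs] at a3
  have a4 := A.hkc i hi
  have a5 : 0 ≤ ‖t‖ ^ A.p := by positivity
  have a6 : ‖y i‖ ≤ (|PowerSeries.coeff A.p (A.γ i)| + 1) * ‖t‖ ^ A.p := by
    rw [pow_succ] at a2
    nlinarith
  rw [lt_div_iff₀ a1]
  have a7 := abs_nonneg (PowerSeries.coeff A.p (A.γ i))
  have a8 := A.hk
  have a9 : ‖y i‖ * R ≤ (|PowerSeries.coeff A.p (A.γ i)| + 1) * (3 * A.k1) := by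
    calc ‖y i‖ * R ≤ (|PowerSeries.coeff A.p (A.γ i)| + 1) * ‖t‖ ^ A.p * R := by gcongr
      _ = (|PowerSeries.coeff A.p (A.γ i)| + 1) * (R * ‖t‖ ^ A.p) := by ring
      _ ≤ _ := by gcongr
  nlinarith

theorem Rt_le (t : ℂ) (ht : t ≠ 0) : A.Rt t * ‖t‖ ^ A.p ≤ A.k1 := by
  have h : 0 < ‖t‖ ^ A.p := by positivity
  rw [← le_div_iff₀ h]
  exact Nat.floor_le (div_nonneg A.hk.le h.le)

theorem le_Rt : ∀ᶠ t in 𝓝[≠] (0 : ℂ), A.P.R0 ≤ A.Rt t ∧ A.k1 / 2 / ‖t‖ ^ A.p ≤ A.Rt t := by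
  have hk := A.hk
  filter_upwards [self_mem_nhdsWithin, nhdsWithin_le_nhds (ev_small (A.P.R0 + 2) hk),
    nhdsWithin_le_nhds (ev_small 1 one_pos)] with t h0 h1 h2
  have a0 : 0 < ‖t‖ := norm_pos_iff.2 h0
  have a1 : ‖t‖ ^ A.p ≤ ‖t‖ := by
    simpa using pow_le_pow_of_le_one a0.le (by linarith) A.hp
  have a2 : 0 < ‖t‖ ^ A.p := by positivity
  have a3 : (A.P.R0 : ℝ) + 2 ≤ A.k1 / ‖t‖ ^ A.p := by
    rw [le_div_iff₀ a2]
    have : (0 : ℝ) ≤ A.P.R0 + 2 := by positivity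
    nlinarith
  have a4 := Nat.lt_floor_add_one (A.k1 / ‖t‖ ^ A.p)
  have a5 : (0 : ℝ) ≤ A.P.R0 := by positivity
  refine ⟨Nat.le_floor (by linarith), ?_⟩
  have : A.k1 / 2 / ‖t‖ ^ A.p = A.k1 / ‖t‖ ^ A.p / 2 := by ring
  unfold Rt
  linarith

theorem U_dom_Rt : ∀ᶠ t in 𝓝[≠] (0 : ℂ), A.U t ⊆ A.P.dom (1 / 2) (A.Rt t) := by
  filter_upwards [self_mem_nhdsWithin, nhdsWithin_le_nhds A.U_dom, A.le_Rt] with t h0 h1 h2
  exact h1 _ (A.P.hR.trans h2.1) ((A.Rt_le t h0).trans (by linarith [A.hk]))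

theorem exp_Rt (n : ℕ) : (fun t => Real.exp (-(1 / 2 * A.P.κ * A.Rt t))) =O[𝓝[≠] (0 : ℂ)]
    fun t => ‖t‖ ^ n := by
  have hκ := A.P.hκ
  have hk := A.hk
  obtain ⟨C, hC, h⟩ := exp_flat A.hp (m := 1 / 2 * A.P.κ * (A.k1 / 2)) (by positivity) n
  refine IsBigO.of_bound C ?_
  filter_upwards [self_mem_nhdsWithin, nhdsWithin_le_nhds (ev_small 1 one_pos), A.le_Rt]
    with t h0 h1 h2
  rw [Real.norm_of_nonneg (Real.exp_pos _).le, Real.norm_of_nonneg (by positivity)]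
  refine le_trans (Real.exp_le_exp.2 ?_) (h _ (norm_pos_iff.2 h0) (by linarith))
  rw [neg_le_neg_iff, mul_div_assoc]
  exact mul_le_mul_of_nonneg_left h2.2 (by positivity)

/-- families of patches -/
structure Good (l : Filter α) (t : α → ℂ) (H : α → (ι → ℂ) → ℂ) : Prop where
  lim : Tendsto t l (𝓝[≠] 0)
  diff : ∀ᶠ a in l, DifferentiableOn ℂ (H a) (A.U (t a))
  flat : ∀ n : ℕ, ∃ C : ℝ, ∀ᶠ a in l, ∀ y ∈ A.U (t a),
    ‖H a y - A.F (A.Rt (t a)) y‖ ≤ C * ‖t a‖ ^ n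

variable {A} {l : Filter α} {t : α → ℂ} {H H' : α → (ι → ℂ) → ℂ}

theorem Good.comp {β : Type} (h : A.Good l t H) {l' : Filter β} {f : β → α} (hf : Tendsto f l' l) :
    A.Good l' (fun b => t (f b)) fun b => H (f b) :=
  ⟨h.lim.comp hf, hf.eventually h.diff, fun n => (h.flat n).imp fun _ hC => hf.eventually hC⟩

theorem Good.lim0 (h : A.Good l t H) : Tendsto t l (𝓝 0) := h.lim.mono_right nhdsWithin_le_nhds

theorem Good.pos (h : A.Good l t H) : ∀ᶠ a in l, 0 < ‖t a‖ :=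
  (h.lim.eventually self_mem_nhdsWithin).mono fun _ ha => norm_pos_iff.2 ha

theorem Good.small (h : A.Good l t H) (C : ℝ) {ε : ℝ} (hε : 0 < ε) : ∀ᶠ a in l, C * ‖t a‖ < ε :=
  h.lim0.eventually (ev_small C hε)

theorem good_F (ht : Tendsto t l (𝓝[≠] 0)) : A.Good l t fun a => A.F (A.Rt (t a)) := by
  refine ⟨ht, ?_, fun n => ⟨0, Eventually.of_forall fun a y _ => by simp⟩⟩
  filter_upwards [ht.eventually A.U_dom_Rt, ht.eventually A.le_Rt] with a h1 h2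
  exact (A.hF.diff _ h2.1).mono (h1.trans (A.P.dom_mono zero_le_one (by norm_num)
    (A.P.hR.trans h2.1) le_rfl))

theorem Good.bdd (h : A.Good l t H) :
    ∃ M : ℝ, ∀ᶠ a in l, ∀ y ∈ A.U (t a), ‖H a y‖ ≤ M ∧ ‖y‖ ≤ M := by
  obtain ⟨C, hC, h1⟩ := A.hF.pair (θ := 1 / 2) (by norm_num) (by norm_num)
  obtain ⟨C', h2⟩ := h.flat 0
  obtain ⟨C'', -, h3⟩ := A.U_norm
  refine ⟨C + |C'| + 1, ?_⟩
  filter_upwards [h2, h.lim0.eventually h3, h.small C'' one_pos, h.lim.eventually A.U_dom_Rt,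
    h.lim.eventually A.le_Rt] with a a1 a2 a3 a4 a5 y hy
  have b1 := a1 y hy
  have b2 := (h1 _ a5.1).1 y (a4 hy)
  have b3 := norm_add_le (H a y - A.F (A.Rt (t a)) y) (A.F (A.Rt (t a)) y)
  rw [sub_add_cancel] at b3
  rw [pow_zero, mul_one] at b1
  have b4 := le_abs_self C'
  have b5 := abs_nonneg C'
  have b6 := a2 y hy
  constructor <;> linarith

theorem lip_pair (z : A.D0) : ∃ k : ℕ, ∀ {α : Type} {l : Filter α} {t : α → ℂ}
    {H H' : α → (ι → ℂ) → ℂ} {μ : α → ℝ}, A.Good l t H → A.Good l t H' →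
    (∀ᶠ a in l, ∀ y ∈ A.U (t a), ‖H a y - H' a y‖ ≤ μ a) →
    ∃ C : ℝ, 0 ≤ C ∧ ∀ᶠ a in l, ∀ y ∈ A.Uq (t a), ∀ y' ∈ A.Uq (t a),
      ‖A.ev (H a) y z - A.ev (H' a) y' z‖ ≤ C * (μ a + ‖y - y'‖) / ‖t a‖ ^ k := by
  obtain ⟨k, hk⟩ := (adm z).lip
  refine ⟨(A.p + 1) * k, fun {α l t H H' μ} h h' hc => ?_⟩
  obtain ⟨M, hM⟩ := h.bdd
  obtain ⟨M', hM'⟩ := h'.bdd
  obtain ⟨C, hC, e⟩ := hk (max M M')
  refine ⟨C, hC, ?_⟩
  filter_upwards [hM, hM', hc, h.diff, h'.diff, h.pos, h.small 1 one_pos]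
    with a a1 a2 a3 a4 a5 a6 a7 y hy y' hy'
  have b1 : 0 < ‖t a‖ ^ (A.p + 1) := by positivity
  rw [pow_mul]
  exact e _ _ _ y y' _ _ b1 (pow_le_one₀ a6.le (by linarith))
    ((a1 _ (mem_ball_self b1)).2.trans (le_max_left _ _))
    ⟨a4, a5, fun w hw => (a1 w hw).1.trans (le_max_left _ _),
      fun w hw => (a2 w hw).1.trans (le_max_right _ _), a3⟩ hy hy'

theorem Good.pt_O (h : A.Good l t H) {ξ : α → ι → ℂ} (hξ : ∀ᶠ a in l, ξ a ∈ A.U (t a)) :
    ξ =O[l] fun a => ‖t a‖ := by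
  obtain ⟨C, -, h1⟩ := A.U_norm
  refine IsBigO.of_bound C ?_
  filter_upwards [hξ, h.lim0.eventually h1] with a a1 a2
  simpa using a2 _ a1

theorem Good.t_O (h : A.Good l t H) : (fun a => ‖t a‖) =O[l] fun _ => (1 : ℝ) := by
  simpa using pow_O h.lim0 (Nat.zero_le 1)

/-- evaluation near the arc -/
theorem Good.ev (h : A.Good l t H) {ξ : α → ι → ℂ} (hξ : ∀ᶠ a in l, ξ a ∈ A.Uq (t a)) {L : ℕ}
    (hL : (fun a => ξ a - A.arcT L (t a)) =O[l] fun a => ‖t a‖ ^ L) (z : A.D0)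
    {w : Polynomial ℝ} (hw : (PowerSeries.X : PowerSeries ℝ) ^ L ∣ A.G z - w) :
    (fun a => A.ev (H a) (ξ a) z - Polynomial.aeval (t a) w) =O[l] fun a => ‖t a‖ ^ L := by
  set q : MvPolynomial ι ℝ := MvPowerSeries.truncTotal L z.1.2 with hq
  have hU : ∀ᶠ a in l, ξ a ∈ A.U (t a) := hξ.mono fun a ha => A.Uq_subset _ ha
  have e1 : (fun a => A.ev (H a) (ξ a) z - A.ev (A.F (A.Rt (t a))) (ξ a) z) =O[l]
      fun a => ‖t a‖ ^ L := by
    obtain ⟨k, hk⟩ := lip_pair z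
    obtain ⟨C', h1⟩ := h.flat (L + k)
    obtain ⟨C, hC, h2⟩ := hk h (good_F h.lim) h1
    refine IsBigO.of_bound (C * C') ?_
    filter_upwards [h2, hξ, h.pos] with a a1 a2 a3
    refine (a1 _ a2 _ a2).trans (le_of_eq ?_)
    rw [sub_self, norm_zero, add_zero, Real.norm_of_nonneg (by positivity), pow_add]
    field_simp
  have e2 : (fun a => A.ev (A.F (A.Rt (t a))) (ξ a) z - MvPolynomial.aeval (ξ a) q) =O[l]
      fun a => ‖t a‖ ^ L := by
    obtain ⟨C, hC, h1⟩ := asym z L (1 / 2) (by norm_num) (by norm_num)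
    have h2 : (fun a => A.ev (A.F (A.Rt (t a))) (ξ a) z - MvPolynomial.aeval (ξ a) q) =O[l]
        fun a => ‖ξ a‖ ^ L + Real.exp (-(1 / 2 * A.P.κ * A.Rt (t a))) := by
      refine IsBigO.of_bound C ?_
      filter_upwards [hU, h.lim.eventually A.U_dom_Rt, h.lim.eventually A.le_Rt] with a a1 a2 a3
      rw [Real.norm_of_nonneg (by positivity)]
      exact h1 _ a3.1 _ (a2 a1)
    exact h2.trans (((h.pt_O hU).norm_left.pow L).add ((A.exp_Rt L).comp_tendsto h.lim))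
  have e3 := (mv_lip ((h.pt_O hU).trans h.t_O)
    (((A.arcT_O L).comp_tendsto h.lim0).trans h.t_O) q).trans hL.norm_left
  have e4 : (fun s : ℂ => MvPolynomial.aeval (A.arcT L s) q - Polynomial.aeval s w) =O[𝓝 0]
      fun s => ‖s‖ ^ L := by
    have b1 := dvd_aeval_trunc A.γ L q
    have b2 := X_pow_dvd_subst A.h0 (order_sub_truncTotal z.1.2 L)
    rw [map_sub, arcHom_coe, ← A.G_apply, ← hq] at b2
    have b3 := poly_O (q := MvPolynomial.aeval (fun i => PowerSeries.trunc L (A.γ i)) q - w)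
      (L := L) (by
        convert dvd_sub (dvd_sub hw b2) b1 using 1
        simp)
    refine b3.congr_left fun s => ?_
    rw [map_sub, ← AlgHom.comp_apply, MvPolynomial.comp_aeval]
    rfl
  exact (((e1.add e2).add e3).add (e4.comp_tendsto h.lim0)).congr_left fun a => by
    simp only [Function.comp]; ring

end ArcD

end Vale.Agent.P218F.NA
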