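import Vale.Agent.P218F.GF

/-! The formal series of a family of truncations; statements of the two halves of block F. -/

namespace Vale.Agent.P218F

variable {ι : Type} [Fintype ι] [DecidableEq ι]

/-- `φ` is the formal series of the family `F`. -/
def Asym (P : Par ι) (F : ℕ → (ι → ℂ) → ℂ) (φ : MvPowerSeries ι ℝ) : Prop :=
  ∀ (K : ℕ) (θ : ℝ), 0 < θ → θ < 1 → ∃ C : ℝ, 0 ≤ C ∧ ∀ R, P.R0 ≤ R → ∀ ξ ∈ P.dom θ R,
    ‖F R ξ - MvPolynomial.aeval ξ (MvPowerSeries.truncTotal K φ)‖ ≤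
      C * (‖ξ‖ ^ K + Real.exp (-(θ * P.κ * R)))

/-- There is no real formal arc of critical points of `φ` leaving the locus `ξ_I = 0`. -/
def NoArc (I : Finset ι) (φ : MvPowerSeries ι ℝ) : Prop :=
  ∀ γ : ι → PowerSeries ℝ, (∀ i, PowerSeries.constantCoeff (γ i) = 0) →
    (∀ j, MvPowerSeries.subst (τ := Unit) (S := ℝ) γ (MvPowerSeries.pderiv ℝ j φ) = 0) →
      ∀ i ∈ I, γ i = 0

/-- Calculus of formal series of families. -/
def AsymCalc : Prop :=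
  ∀ (ι : Type) [Fintype ι] [DecidableEq ι] (P : Par ι),
    (∀ F, GFo P F → IsRealFam P.I P.c P.r P.R0 F → ∃ φ, Asym P F φ) ∧
    (∀ a : ℝ, Asym P (fun _ _ => (a : ℂ)) (MvPowerSeries.C a)) ∧
    (∀ i : ι, Asym P (fun _ ξ => ξ i) (MvPowerSeries.X i)) ∧
    (∀ F G φ ψ, Asym P F φ → Asym P G ψ → Asym P (fun R ξ => F R ξ + G R ξ) (φ + ψ)) ∧
    (∀ F φ, Asym P F φ → Asym P (fun R ξ => -F R ξ) (-φ)) ∧
    (∀ F G φ ψ, Asym P F φ → Asym P G ψ → Asym P (fun R ξ => F R ξ * G R ξ) (φ * ψ)) ∧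
    (∀ F φ j, GFo P F → Asym P F φ → Asym P (fun R => D j (F R)) (MvPowerSeries.pderiv ℝ j φ))

/-- First half of block F. -/
def ConclOfNoArc : Prop :=
  ∀ (ι : Type) [Fintype ι] [DecidableEq ι] (I : Finset ι) (c r κ : ℝ) (R0 : ℕ)
    (F : ℕ → (ι → ℂ) → ℂ) (h : IsGF I c r κ R0 F) (φ : MvPowerSeries ι ℝ),
    IsRealFam I c r R0 F → Asym h.par F φ → NoArc I φ → Concl I c R0 F

/-- Second half of block F. -/
def NoArcOfStokes : Prop :=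
  ∀ (ι : Type) [Fintype ι] [DecidableEq ι] (I : Finset ι) (c r κ : ℝ) (R0 : ℕ)
    (F : ℕ → (ι → ℂ) → ℂ) (h : IsGF I c r κ R0 F) (φ : MvPowerSeries ι ℝ),
    Asym h.par F φ → StokesHyp I c r R0 F → NoArc I φ

theorem blockF_of (h0 : AsymCalc) (h1 : ConclOfNoArc) (h2 : NoArcOfStokes) : BlockF := by
  intro ι _ _ I c r κ R0 F h hr hs
  obtain ⟨φ, hφ⟩ := (h0 ι h.par).1 F h.gfo hr
  exact h1 ι I c r κ R0 F h φ hr hφ (h2 ι I c r κ R0 F h φ hφ hs)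

end Vale.Agent.P218F
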