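import Vale.Agent.P218F.Expand

/-! The calculus of the formal series of families of truncations. -/

open Complex Metric Filter Topology

namespace Vale.Agent.P218F

set_option linter.unusedSectionVars false

variable {ι : Type} [Fintype ι] [DecidableEq ι]

theorem norm_re2c (x : ι → ℝ) : ‖re2c x‖ = ‖x‖ := by
  simp [Pi.norm_def, re2c]

theorem aeval_re2c (x : ι → ℝ) (p : MvPolynomial ι ℝ) :
    MvPolynomial.aeval (re2c x) p = ((MvPolynomial.eval x p : ℝ) : ℂ) :=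
  MvPolynomial.aeval_algebraMap_apply ℂ x p

theorem differentiable_aeval (p : MvPolynomial ι ℝ) :
    Differentiable ℂ fun ξ : ι → ℂ => MvPolynomial.aeval ξ p := by
  induction p using MvPolynomial.induction_on with
  | C a => simp
  | add p q hp hq =>
    simp only [map_add]
    exact hp.add hq
  | mul_X p i hp =>
    simp only [map_mul, MvPolynomial.aeval_X]
    exact hp.mul (differentiable_apply i)

theorem D_aeval (p : MvPolynomial ι ℝ) (j : ι) (ξ : ι → ℂ) :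
    D j (fun ξ => MvPolynomial.aeval ξ p) ξ = MvPolynomial.aeval ξ (MvPolynomial.pderiv j p) := by
  induction p using MvPolynomial.induction_on with
  | C a => simp [D]
  | add p q hp hq =>
    simp only [D, map_add] at hp hq ⊢
    rw [fderiv_fun_add (differentiable_aeval p ξ) (differentiable_aeval q ξ),
      ContinuousLinearMap.add_apply, hp, hq]
  | mul_X p i hp =>
    simp only [D, map_mul, MvPolynomial.aeval_X] at hp ⊢
    rw [fderiv_fun_mul (differentiable_aeval p ξ) (differentiable_apply i ξ),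
      ContinuousLinearMap.add_apply, ContinuousLinearMap.smul_apply,
      ContinuousLinearMap.smul_apply, hp, (hasFDerivAt_apply i ξ).fderiv,
      MvPolynomial.pderiv_mul, MvPolynomial.pderiv_X]
    by_cases h : i = j
    · subst h
      simp
      ring
    · simp [h, Ne.symm h, mul_comm]

/-- The coefficients of degree below `K` vanish. -/
def Low (K : ℕ) (p : MvPolynomial ι ℝ) : Prop := ∀ d : ι →₀ ℕ, d.degree < K → p.coeff d = 0

theorem Low.bound {K : ℕ} {p : MvPolynomial ι ℝ} (h : Low K p) {r : ℝ} (hr : 0 ≤ r) :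
    ∃ C : ℝ, 0 ≤ C ∧ ∀ ξ : ι → ℂ, ‖ξ‖ ≤ r → ‖MvPolynomial.aeval ξ p‖ ≤ C * ‖ξ‖ ^ K := by
  refine ⟨∑ d ∈ p.support, |p.coeff d| * r ^ (d.degree - K),
    Finset.sum_nonneg fun _ _ => by positivity, fun ξ hξ => ?_⟩
  rw [MvPolynomial.aeval_def, MvPolynomial.eval₂_eq, Finset.sum_mul]
  refine (norm_sum_le _ _).trans (Finset.sum_le_sum fun d hd => ?_)
  have hk : K ≤ d.degree := not_lt.1 fun hc => MvPolynomial.mem_support_iff.1 hd (h d hc)
  rw [norm_mul, coe_algebraMap, norm_real, Real.norm_eq_abs, mul_assoc]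
  refine mul_le_mul_of_nonneg_left ((P218N.F.norm_prod_le ξ d).trans ?_) (abs_nonneg _)
  conv_lhs => rw [← Nat.sub_add_cancel hk, pow_add]
  gcongr

theorem Apx.congr {P : Par ι} {F : ℕ → (ι → ℂ) → ℂ} {K : ℕ} {T T' : (ι → ℂ) → ℂ}
    (h : Apx P Finset.univ F K T) {C' : ℝ} (hC' : 0 ≤ C')
    (h' : ∀ ξ : ι → ℂ, ‖ξ‖ ≤ P.r → ‖T ξ - T' ξ‖ ≤ C' * ‖ξ‖ ^ K) : Apx P Finset.univ F K T' := by
  intro θ h0 h1
  obtain ⟨C, hC, e⟩ := h θ h0 h1
  refine ⟨C + C', by positivity, fun R hR ξ hξ => ?_⟩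
  have h2 := e R hR ξ hξ
  have h3 := h' ξ (P.norm_lt h1.le hξ).le
  have h4 := mul_nonneg hC' (Real.exp_pos (-(θ * P.κ * R))).le
  rw [prj_univ] at h2 ⊢
  calc ‖F R ξ - T' ξ‖ = ‖(F R ξ - T ξ) + (T ξ - T' ξ)‖ := by congr 1; ring
    _ ≤ _ := (norm_add_le _ _).trans (by linarith)

theorem Apx.congr_low {P : Par ι} {F : ℕ → (ι → ℂ) → ℂ} {K : ℕ} {p q : MvPolynomial ι ℝ}
    (h : Apx P Finset.univ F K fun ξ => MvPolynomial.aeval ξ p) (h' : Low K (p - q)) :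
    Apx P Finset.univ F K fun ξ => MvPolynomial.aeval ξ q := by
  obtain ⟨C, hC, e⟩ := h'.bound P.hr.le
  exact h.congr hC fun ξ hξ => by simpa only [map_sub] using e ξ hξ

theorem Apx.drop_im {P : Par ι} {F : ℕ → (ι → ℂ) → ℂ} {K : ℕ} {a b : MvPolynomial ι ℝ}
    (h : Apx P Finset.univ F K fun ξ => MvPolynomial.aeval ξ a + I * MvPolynomial.aeval ξ b)
    (h' : Low K b) : Apx P Finset.univ F K fun ξ => MvPolynomial.aeval ξ a := by
  obtain ⟨C, hC, e⟩ := h'.bound P.hr.le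
  exact h.congr hC fun ξ hξ => by simpa using e ξ hξ

theorem asym_iff {P : Par ι} {F : ℕ → (ι → ℂ) → ℂ} {φ : MvPowerSeries ι ℝ} : Asym P F φ ↔
    ∀ K, Apx P Finset.univ F K fun ξ => MvPolynomial.aeval ξ (MvPowerSeries.truncTotal K φ) := by
  simp only [Asym, Apx, prj_univ]

/-- The estimate in terms of the scale. -/
theorem Apx.scale {P : Par ι} {J : Finset ι} {F : ℕ → (ι → ℂ) → ℂ} {K : ℕ} {T : (ι → ℂ) → ℂ}
    (h : Apx P J F K T) {θ : ℝ} (h0 : 0 < θ) (h1 : θ < 1) {a : ℝ} (ha : 0 ≤ a) :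
    ∃ C : ℝ, 0 ≤ C ∧ ∀ R, P.R0 ≤ R → ∀ ξ ∈ P.dom θ R, ‖prj J ξ‖ ≤ a / R →
      ‖F R ξ - T ξ‖ ≤ C / (R : ℝ) ^ K := by
  obtain ⟨C, hC, e⟩ := h θ h0 h1
  obtain ⟨C', hC', e'⟩ := exp_le_inv_pow (mul_pos h0 P.hκ) K
  refine ⟨C * (a ^ K + C'), by positivity, fun R hR ξ hξ h2 => (e R hR ξ hξ).trans ?_⟩
  rw [mul_div_assoc, add_div, ← div_pow]
  gcongr
  exact e' R (P.hR.trans hR)

/-- The estimate for the derivatives in terms of the scale. -/
theorem Apx.scale_D {P : Par ι} {J : Finset ι} {F : ℕ → (ι → ℂ) → ℂ} {K : ℕ} {T : (ι → ℂ) → ℂ}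
    (h : Apx P J F (K + 1) T) (hF : GFo P F) (hT : DifferentiableOn ℂ T (ball 0 P.r)) {a : ℝ}
    (ha : 0 ≤ a) : ∃ C : ℝ, 0 ≤ C ∧ ∀ R, P.R0 ≤ R → ∀ ξ ∈ P.dom (1 / 2) R, ‖prj J ξ‖ ≤ a / R →
      ∀ j, ‖D j (F R) ξ - D j T ξ‖ ≤ C / (R : ℝ) ^ K := by
  obtain ⟨C, hC, e⟩ := h.scale (θ := 3 / 4) (by norm_num) (by norm_num) (a := a + 1) (by linarith)
  have hm := P.m_pos
  refine ⟨4 * C / P.m, by positivity, fun R hR ξ hξ h2 j => ?_⟩
  have hR1 := P.hR.trans hR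
  have hR2 : (0 : ℝ) < R := by exact_mod_cast hR1
  have s1 := P.ball_subset (θ' := 3 / 4) (by norm_num) hR1 hξ
  have s2 : P.dom (3 / 4) R ⊆ P.dom 1 R := P.dom_mono zero_le_one (by norm_num) hR1 le_rfl
  have hρ := P.rad_pos (θ := 1 / 2) (θ' := 3 / 4) (by norm_num) hR1
  have d1 := (hF.diff R hR).mono (s1.trans s2)
  have d2 := hT.mono fun y hy => mem_ball_zero_iff.2 (P.norm_lt (by norm_num) (s1 hy))
  rw [← D_sub (d1.differentiableAt (ball_mem_nhds ξ hρ)) (d2.differentiableAt (ball_mem_nhds ξ hρ))]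
  refine (norm_D_le_of_ball hρ (d1.sub d2) (fun y hy => e R hR y (s1 hy) ?_) j).trans (le_of_eq ?_)
  · have h3 : prj J y = prj J ξ + prj J (y - ξ) := by
      funext i
      by_cases hi : i ∈ J <;> simp [prj, hi]
    have h4 : ‖y - ξ‖ ≤ 1 / R := by
      rw [mem_ball, dist_eq_norm] at hy
      refine hy.le.trans ?_
      gcongr
      have := P.m_le_one
      linarith
    rw [h3, add_div]
    exact (norm_add_le _ _).trans (add_le_add h2 ((norm_prj_le J _).trans h4))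
  · rw [pow_succ]
    field_simp
    norm_num

theorem Par.small_le (P : Par ι) {R : ℕ} (hR : P.R0 ≤ R) {ξ : ι → ℂ} (h : ‖ξ‖ < 1 / 2 * P.m / R) :
    ξ ∈ P.dom (1 / 2) R ∧ ‖prj Finset.univ ξ‖ ≤ 1 / R := by
  refine ⟨P.small_mem (by norm_num) (P.hR.trans hR) h, ?_⟩
  rw [prj_univ]
  refine h.le.trans ?_
  gcongr
  have := P.m_le_one
  linarith

theorem low_of_small (P : Par ι) {K : ℕ} {a : MvPolynomial ι ℝ} {C : ℝ} (hC : 0 ≤ C)
    (h : ∀ R, P.R0 ≤ R → ∀ x : ι → ℝ, ‖re2c x‖ < 1 / 2 * P.m / R →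
      |MvPolynomial.eval x a| ≤ C / (R : ℝ) ^ K) : Low K a := by
  have hm : 0 < 1 / 2 * P.m := by have := P.m_pos; positivity
  refine P218N.F.coeff_eq_zero_of_isBigO
    (Asymptotics.IsBigO.of_bound (C * (2 / (1 / 2 * P.m)) ^ K) ?_)
  have h0 : (0 : ℝ) < P.R0 := by exact_mod_cast P.hR
  filter_upwards [ball_mem_nhds (0 : ι → ℝ) (div_pos hm h0)] with x hx
  rw [Real.norm_eq_abs, norm_pow, norm_norm]
  exact bound_of_scales hm P.hR K (norm_nonneg _) (mem_ball_zero_iff.1 hx) hC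
    fun R hR h1 => h R hR x (by rwa [norm_re2c])

theorem low_of_small' (P : Par ι) {K : ℕ} {a b : MvPolynomial ι ℝ} {C : ℝ} (hC : 0 ≤ C)
    (h : ∀ R, P.R0 ≤ R → ∀ ξ : ι → ℂ, ‖ξ‖ < 1 / 2 * P.m / R →
      ‖MvPolynomial.aeval ξ a + I * MvPolynomial.aeval ξ b‖ ≤ C / (R : ℝ) ^ K) :
    Low K a ∧ Low K b := by
  refine ⟨low_of_small P hC fun R hR x hx => le_trans ?_ (h R hR _ hx),
    low_of_small P hC fun R hR x hx => le_trans ?_ (h R hR _ hx)⟩
  · refine le_trans (le_of_eq ?_) (abs_re_le_norm _)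
    simp [aeval_re2c]
  · refine le_trans (le_of_eq ?_) (abs_im_le_norm _)
    simp [aeval_re2c]

theorem GFo.exists_real_poly {P : Par ι} {F : ℕ → (ι → ℂ) → ℂ} (hF : GFo P F)
    (hr : IsRealFam P.I P.c P.r P.R0 F) (K : ℕ) :
    ∃ a : MvPolynomial ι ℝ, Apx P Finset.univ F K fun ξ => MvPolynomial.aeval ξ a := by
  obtain ⟨a, b, h⟩ := hF.exists_poly K
  obtain ⟨C, hC, e⟩ := h.scale (θ := 1 / 2) (by norm_num) (by norm_num) zero_le_one
  refine ⟨a, h.drop_im (low_of_small P hC fun R hR x hx => ?_)⟩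
  obtain ⟨h1, h2⟩ := P.small_le hR hx
  refine le_trans (le_of_eq ?_) ((abs_im_le_norm _).trans (e R hR _ h1 h2))
  have h3 := hr R hR x (by
    rw [← P.dom_one]
    exact P.dom_mono zero_le_one (by norm_num) (P.hR.trans hR) le_rfl h1)
  simp [aeval_re2c, h3]

theorem Apx.low_sub {P : Par ι} {F : ℕ → (ι → ℂ) → ℂ} {K K' : ℕ} {a a' : MvPolynomial ι ℝ}
    (h : Apx P Finset.univ F K fun ξ => MvPolynomial.aeval ξ a)
    (h' : Apx P Finset.univ F K' fun ξ => MvPolynomial.aeval ξ a') (hK : K ≤ K') :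
    Low K (a - a') := by
  obtain ⟨C, hC, e⟩ := h.scale (θ := 1 / 2) (by norm_num) (by norm_num) zero_le_one
  obtain ⟨C', hC', e'⟩ := h'.scale (θ := 1 / 2) (by norm_num) (by norm_num) zero_le_one
  refine (low_of_small' P (b := 0) (add_nonneg hC' hC) fun R hR ξ hξ => ?_).1
  obtain ⟨h1, h2⟩ := P.small_le hR hξ
  have h3 : (1 : ℝ) ≤ R := by exact_mod_cast P.hR.trans hR
  have h4 : C' / (R : ℝ) ^ K' ≤ C' / (R : ℝ) ^ K := by gcongr
  rw [map_zero, mul_zero, add_zero, map_sub, add_div]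
  calc _ = ‖(F R ξ - MvPolynomial.aeval ξ a') - (F R ξ - MvPolynomial.aeval ξ a)‖ := by
        congr 1; ring
    _ ≤ _ := (norm_sub_le _ _).trans (add_le_add ((e' R hR ξ h1 h2).trans h4) (e R hR ξ h1 h2))

theorem GFo.exists_asym {P : Par ι} {F : ℕ → (ι → ℂ) → ℂ} (hF : GFo P F)
    (hr : IsRealFam P.I P.c P.r P.R0 F) : ∃ φ, Asym P F φ := by
  choose a ha using hF.exists_real_poly hr
  obtain ⟨φ, hφ⟩ : ∃ φ : MvPowerSeries ι ℝ,
      ∀ d, MvPowerSeries.coeff d φ = (a (d.degree + 1)).coeff d :=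
    ⟨fun d => (a (d.degree + 1)).coeff d, fun _ => rfl⟩
  refine ⟨φ, asym_iff.2 fun K => (ha K).congr_low fun d hd => ?_⟩
  have h1 := (ha (d.degree + 1)).low_sub (ha K) hd d (Nat.lt_succ_self _)
  rw [MvPolynomial.coeff_sub, sub_eq_zero] at h1 ⊢
  rw [MvPowerSeries.coeff_truncTotal _ hd, ← h1, hφ]

theorem asym_poly (P : Par ι) (p : MvPolynomial ι ℝ) :
    Asym P (fun _ ξ => MvPolynomial.aeval ξ p) (p : MvPowerSeries ι ℝ) := by
  refine asym_iff.2 fun K => Apx.congr_low (p := p) (fun θ _ _ => ⟨0, le_rfl, by simp⟩)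
    fun d hd => ?_
  rw [MvPolynomial.coeff_sub, MvPowerSeries.coeff_truncTotal _ hd, MvPolynomial.coeff_coe, sub_self]

theorem Asym.add {P : Par ι} {F G : ℕ → (ι → ℂ) → ℂ} {φ ψ : MvPowerSeries ι ℝ} (h : Asym P F φ)
    (h' : Asym P G ψ) : Asym P (fun R ξ => F R ξ + G R ξ) (φ + ψ) := by
  intro K θ h0 h1
  obtain ⟨C, hC, e⟩ := h K θ h0 h1
  obtain ⟨C', hC', e'⟩ := h' K θ h0 h1
  refine ⟨C + C', by positivity, fun R hR ξ hξ => ?_⟩
  rw [map_add, map_add, add_sub_add_comm, add_mul]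
  exact (norm_add_le _ _).trans (add_le_add (e R hR ξ hξ) (e' R hR ξ hξ))

theorem Asym.neg {P : Par ι} {F : ℕ → (ι → ℂ) → ℂ} {φ : MvPowerSeries ι ℝ} (h : Asym P F φ) :
    Asym P (fun R ξ => -F R ξ) (-φ) := by
  intro K θ h0 h1
  obtain ⟨C, hC, e⟩ := h K θ h0 h1
  refine ⟨C, hC, fun R hR ξ hξ => ?_⟩
  rw [map_neg, map_neg, neg_sub_neg, norm_sub_rev]
  exact e R hR ξ hξ

theorem Asym.mul {P : Par ι} {F G : ℕ → (ι → ℂ) → ℂ} {φ ψ : MvPowerSeries ι ℝ} (h : Asym P F φ)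
    (h' : Asym P G ψ) : Asym P (fun R ξ => F R ξ * G R ξ) (φ * ψ) := by
  refine asym_iff.2 fun K => Apx.congr_low
    (p := MvPowerSeries.truncTotal K φ * MvPowerSeries.truncTotal K ψ) (fun θ h0 h1 => ?_)
    fun d hd => ?_
  · obtain ⟨C, hC, e⟩ := h K θ h0 h1
    obtain ⟨C', hC', e'⟩ := h' K θ h0 h1
    obtain ⟨C1, hC1, e1⟩ := h' 0 θ h0 h1
    obtain ⟨C2, hC2, e2⟩ := Low.bound (K := 0) (p := MvPowerSeries.truncTotal K φ)
      (fun d hd => absurd hd (Nat.not_lt_zero _)) P.hr.le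
    refine ⟨C * (C1 * 2) + C2 * C', by positivity, fun R hR ξ hξ => ?_⟩
    have h2 : MvPowerSeries.truncTotal 0 ψ = 0 :=
      MvPolynomial.ext _ _ fun d => MvPowerSeries.coeff_truncTotal_eq_zero _ (Nat.zero_le _)
    have h3 := e1 R hR ξ hξ
    have h4 := e2 ξ (P.norm_lt h1.le hξ).le
    rw [h2, map_zero, sub_zero, pow_zero] at h3
    rw [pow_zero, mul_one] at h4
    have h5 : Real.exp (-(θ * P.κ * R)) ≤ 1 := Real.exp_le_one_iff.2 (by
      have := P.hκ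
      have : 0 ≤ θ * P.κ * R := by positivity
      linarith)
    have h6 : ‖G R ξ‖ ≤ C1 * 2 := h3.trans (by gcongr; linarith)
    have h7 := e R hR ξ hξ
    have h8 := e' R hR ξ hξ
    simp only [prj_univ, map_mul]
    set p := MvPolynomial.aeval ξ (MvPowerSeries.truncTotal K φ)
    set q := MvPolynomial.aeval ξ (MvPowerSeries.truncTotal K ψ)
    set B := ‖ξ‖ ^ K + Real.exp (-(θ * P.κ * R))
    calc ‖F R ξ * G R ξ - p * q‖ = ‖(F R ξ - p) * G R ξ + p * (G R ξ - q)‖ := by congr 1; ring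
      _ ≤ ‖F R ξ - p‖ * ‖G R ξ‖ + ‖p‖ * ‖G R ξ - q‖ := by
        rw [← norm_mul, ← norm_mul]; exact norm_add_le _ _
      _ ≤ C * B * (C1 * 2) + C2 * (C' * B) := by gcongr
      _ = _ := by ring
  · rw [MvPolynomial.coeff_sub, MvPowerSeries.coeff_truncTotal _ hd,
      MvPowerSeries.coeff_truncTotal_mul_truncTotal_eq_coeff_mul _ _ hd, sub_self]

theorem Asym.D {P : Par ι} {F : ℕ → (ι → ℂ) → ℂ} {φ : MvPowerSeries ι ℝ} (hF : GFo P F)
    (h : Asym P F φ) (j : ι) : Asym P (fun R => D j (F R)) (MvPowerSeries.pderiv ℝ j φ) := by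
  refine asym_iff.2 fun K => ?_
  obtain ⟨a, b, h1⟩ := (hF.D j).exists_poly K
  obtain ⟨C, hC, e⟩ := h1.scale (θ := 1 / 2) (by norm_num) (by norm_num) zero_le_one
  obtain ⟨C', hC', e'⟩ := (asym_iff.1 h (K + 1)).scale_D hF
    (differentiable_aeval _).differentiableOn zero_le_one
  obtain ⟨h2, h3⟩ := low_of_small' P (K := K)
    (a := a - MvPolynomial.pderiv j (MvPowerSeries.truncTotal (K + 1) φ)) (b := b)
    (add_nonneg hC' hC) fun R hR ξ hξ => by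
      obtain ⟨h4, h5⟩ := P.small_le hR hξ
      have h6 := e' R hR ξ h4 h5 j
      rw [D_aeval] at h6
      rw [map_sub, add_div]
      refine le_trans (le_of_eq ?_) ((norm_sub_le _ _).trans (add_le_add h6 (e R hR ξ h4 h5)))
      congr 1
      ring
  refine (h1.drop_im h3).congr_low fun d hd => ?_
  have h4 := h2 d hd
  rw [MvPolynomial.coeff_sub, sub_eq_zero] at h4 ⊢
  rw [h4, MvPowerSeries.coeff_truncTotal _ hd, MvPowerSeries.coeff_pderiv,
    MvPolynomial.coeff_pderiv, MvPowerSeries.coeff_truncTotal _ (by simpa using hd)]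

theorem asymCalc : AsymCalc := fun _ _ _ P =>
  ⟨fun _ => GFo.exists_asym, fun a => by simpa using asym_poly P (MvPolynomial.C a),
    fun i => by simpa using asym_poly P (MvPolynomial.X i), fun _ _ _ _ => Asym.add,
    fun _ _ => Asym.neg, fun _ _ _ _ => Asym.mul, fun _ _ j hF h => h.D hF j⟩

end Vale.Agent.P218F
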