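import Vale.Agent.P218F.AsymCalc
import Vale.Agent.Lib.RealArc.Ana

/-! No real formal arc of critical points implies the gradient inequalities. -/

open Complex Metric Filter Topology Asymptotics

namespace Vale.Agent.P218F

open Vale.Agent.Lib.RealArc

set_option linter.unusedSectionVars false

variable {ι : Type} [Fintype ι] [DecidableEq ι]

/-- `V` is a function which is exponentially close to all members of the family. -/
def IsVal (P : Par ι) (H : ℕ → (ι → ℂ) → ℂ) (V : (ι → ℂ) → ℂ) : Prop :=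
  ∃ C : ℝ, 0 ≤ C ∧ ∀ R, P.R0 ≤ R → ∀ ξ ∈ P.dom (1 / 2) R,
    ‖H R ξ - V ξ‖ ≤ C * Real.exp (-(1 / 2 * P.κ * R))

theorem GFo.exists_val {P : Par ι} {H : ℕ → (ι → ℂ) → ℂ} (h : GFo P H) : ∃ V, IsVal P H V := by
  classical
  obtain ⟨C, hC, e⟩ := h.pair (θ := 1 / 2) (by norm_num) (by norm_num)
  have key : ∀ ξ : ι → ℂ, ∃ v : ℂ, ∀ R, P.R0 ≤ R → ξ ∈ P.dom (1 / 2) R →
      ‖H R ξ - v‖ ≤ C * Real.exp (-(1 / 2 * P.κ * R)) := by
    intro ξ
    by_cases h1 : ∀ R, P.R0 ≤ R → ξ ∈ P.dom (1 / 2) R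
    · exact ⟨_, fun R hR _ => norm_sub_lim_le (u := fun R => H R ξ)
        (tendsto_exp_neg (mul_pos one_half_pos P.hκ) C)
        (fun R hR R' hR' => (e R hR).2 R' hR' ξ (h1 R' (hR.trans hR'))) hR⟩
    · push Not at h1
      obtain ⟨R1, h1, h2⟩ := h1
      refine ⟨H (Nat.findGreatest (fun R => ξ ∈ P.dom (1 / 2) R) R1) ξ, fun R hR hξ => ?_⟩
      have h3 : R ≤ R1 := by
        by_contra hc
        exact h2 (P.dom_mono (by norm_num) le_rfl (P.hR.trans h1) (not_le.1 hc).le hξ)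
      rw [norm_sub_rev]
      exact (e R hR).2 _ (Nat.le_findGreatest h3 hξ) ξ
        (Nat.findGreatest_spec (P := fun R => ξ ∈ P.dom (1 / 2) R) h3 hξ)
  choose V hV using key
  exact ⟨V, C, hC, fun R hR ξ hξ => hV ξ R hR hξ⟩

theorem IsVal.isBigO {P : Par ι} {H : ℕ → (ι → ℂ) → ℂ} {V T : (ι → ℂ) → ℂ} (hV : IsVal P H V)
    {J : Finset ι} (hJ : P.I ⊆ J) {K : ℕ} {C : ℝ} (hC : 0 ≤ C)
    (h : ∀ R, P.R0 ≤ R → ∀ ξ ∈ P.dom (1 / 2) R, ‖prj J ξ‖ ≤ 1 / 2 * P.c / R →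
      ‖H R ξ - T ξ‖ ≤ C / (R : ℝ) ^ K) :
    (fun x : ι → ℝ => (V (re2c x)).re - (T (re2c x)).re) =O[𝓝 0]
      fun x => ‖prj J (re2c x)‖ ^ K := by
  obtain ⟨C1, hC1, e1⟩ := hV
  obtain ⟨C2, hC2, e2⟩ := exp_le_inv_pow (mul_pos one_half_pos P.hκ) K
  have hc : 0 < 1 / 2 * P.c := mul_pos one_half_pos P.hc
  refine IsBigO.of_bound ((C + C1 * C2) * (2 / (1 / 2 * P.c)) ^ K) ?_
  filter_upwards [ball_mem_nhds (0 : ι → ℝ) (P.scale_pos one_half_pos P.hR),
    ball_mem_nhds (0 : ι → ℝ) (mul_pos one_half_pos P.hr)] with x h1 h2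
  rw [mem_ball_zero_iff, ← norm_re2c] at h1 h2
  rw [norm_pow, norm_norm, ← sub_re, Real.norm_eq_abs]
  refine (abs_re_le_norm _).trans (bound_of_scales hc P.hR K (norm_nonneg _)
    ((norm_prj_le J _).trans_lt h1) (by positivity) fun R hR h3 => ?_)
  have h4 : re2c x ∈ P.dom (1 / 2) R := ⟨h2, fun i hi => (norm_le_norm_prj _ (hJ hi)).trans_lt h3⟩
  have h5 := mul_le_mul_of_nonneg_left (e2 R (P.hR.trans hR)) hC1
  rw [add_div, mul_div_assoc]
  calc _ = ‖(H R (re2c x) - T (re2c x)) - (H R (re2c x) - V (re2c x))‖ := by congr 1; ring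
    _ ≤ _ := (norm_sub_le _ _).trans (add_le_add (h R hR _ h4 h3.le) ((e1 R hR _ h4).trans h5))

theorem IsVal.isBigO_apx {P : Par ι} {H : ℕ → (ι → ℂ) → ℂ} {V T : (ι → ℂ) → ℂ} (hV : IsVal P H V)
    {J : Finset ι} (hJ : P.I ⊆ J) {K : ℕ} (h : Apx P J H K T) :
    (fun x : ι → ℝ => (V (re2c x)).re - (T (re2c x)).re) =O[𝓝 0]
      fun x => ‖prj J (re2c x)‖ ^ K := by
  obtain ⟨C, hC, e⟩ := h.scale (θ := 1 / 2) (by norm_num) (by norm_num)
    (mul_pos one_half_pos P.hc).le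
  exact hV.isBigO hJ hC e

/-- the inclusion of the real points -/
noncomputable def re2cL (ι : Type) : (ι → ℝ) →L[ℝ] (ι → ℂ) :=
  ContinuousLinearMap.pi fun i => ofRealCLM.comp (ContinuousLinearMap.proj i)

theorem re2cL_apply (x : ι → ℝ) : re2cL ι x = re2c x := rfl

theorem re2c_zero : re2c (0 : ι → ℝ) = 0 := map_zero (re2cL ι)

theorem analyticAt_re {T : (ι → ℂ) → ℂ} {r : ℝ} (hr : 0 < r)
    (hT : DifferentiableOn ℂ T (ball 0 r)) : AnalyticAt ℝ (fun x : ι → ℝ => (T (re2c x)).re) 0 := by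
  have h1 : AnalyticAt ℝ T (re2cL ι 0) := by
    rw [map_zero]
    exact (Vale.Agent.P274.HolOs.analyticAt_of_differentiableOn isOpen_ball hT
      (mem_ball_self hr)).restrictScalars
  exact (reCLM.analyticAt _).comp (h1.comp ((re2cL ι).analyticAt 0))

theorem norm_fderiv_re_le {T : (ι → ℂ) → ℂ} {x : ι → ℝ} (hT : DifferentiableAt ℂ T (re2c x)) :
    ‖fderiv ℝ (fun x : ι → ℝ => (T (re2c x)).re) x‖ ≤ ∑ j, |(D j T (re2c x)).re| := by
  have h1 : HasFDerivAt (fun x : ι → ℝ => (T (re2c x)).re) (reCLM.comp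
      (((fderiv ℂ T (re2c x)).restrictScalars ℝ).comp (re2cL ι))) x :=
    reCLM.hasFDerivAt.comp x ((hT.hasFDerivAt.restrictScalars ℝ).comp x (re2cL ι).hasFDerivAt)
  rw [h1.fderiv]
  refine ContinuousLinearMap.opNorm_le_bound _ (Finset.sum_nonneg fun _ _ => abs_nonneg _)
    fun v => ?_
  change |(fderiv ℂ T (re2c x) (re2c v)).re| ≤ _
  rw [fderiv_apply_eq_sum, re_sum, Finset.sum_mul]
  refine (Finset.abs_sum_le_sum_abs _ _).trans (Finset.sum_le_sum fun j _ => ?_)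
  rw [re2c, re_ofReal_mul, abs_mul, mul_comm]
  exact mul_le_mul_of_nonneg_left (norm_le_pi_norm v j) (abs_nonneg _)

theorem norm_prj_sq_le (I : Finset ι) (x : ι → ℝ) : ‖prj I (re2c x)‖ ^ 2 ≤ ∑ i ∈ I, x i ^ 2 := by
  have h0 : 0 ≤ ∑ i ∈ I, x i ^ 2 := Finset.sum_nonneg fun _ _ => sq_nonneg _
  refine (Real.le_sqrt (norm_nonneg _) h0).1
    ((pi_norm_le_iff_of_nonneg (Real.sqrt_nonneg _)).2 fun i => ?_)
  by_cases hi : i ∈ I
  · simp only [prj, hi, if_true, re2c, norm_real, Real.norm_eq_abs]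
    exact Real.abs_le_sqrt (Finset.single_le_sum (fun _ _ => sq_nonneg _) hi)
  · simp [prj, hi]

theorem norm_sub_re_le {z : ℂ} (hz : z.im = 0) (w : ℂ) : ‖z - (w.re : ℂ)‖ ≤ ‖z - w‖ := by
  have : z - (w.re : ℂ) = ((z - w).re : ℂ) := Complex.ext (by simp) (by simp [hz])
  rw [this, norm_real]
  exact abs_re_le_norm _

theorem ineq_of_noArc {P : Par ι} {F : ℕ → (ι → ℂ) → ℂ} (hF : GFo P F) {φ : MvPowerSeries ι ℝ}
    (hφ : Asym P F φ) (hno : NoArc P.I φ) {V : (ι → ℂ) → ℂ} (hV : IsVal P F V)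
    {W : ι → (ι → ℂ) → ℂ} (hW : ∀ j, IsVal P (fun R => D j (F R)) (W j)) :
    ∃ (N : ℕ) (θ C : ℝ), 1 / 2 ≤ θ ∧ θ < 1 ∧ 0 < C ∧ ∀ᶠ x in 𝓝 (0 : ι → ℝ),
      ‖prj P.I (re2c x)‖ ^ N ≤ C * ∑ j, |(W j (re2c x)).re| ∧
      |(V (re2c x)).re - (V 0).re| ^ θ ≤ C * ∑ j, |(W j (re2c x)).re| := by
  obtain ⟨N, C, hN, hC, h1⟩ := pow_le_of_no_arc P.I (G := fun j x => (W j (re2c x)).re)
    (G' := fun j => MvPowerSeries.pderiv ℝ j φ) (fun j k => by
      simpa only [prj_univ, norm_re2c, aeval_re2c, ofReal_re] using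
        (hW j).isBigO_apx (Finset.subset_univ _) (asym_iff.1 (hφ.D hF j) k))
    (fun j M => by
      obtain ⟨T, h1, h2⟩ := (hF.D j).exists_holo (2 * M)
      refine ⟨_, analyticAt_re P.hr h1, ((hW j).isBigO_apx Finset.Subset.rfl h2).trans
        (IsBigO.of_bound' (Eventually.of_forall fun x => ?_))⟩
      rw [norm_pow, norm_norm, pow_mul]
      exact (pow_le_pow_left₀ (sq_nonneg _) (norm_prj_sq_le _ x) M).trans (le_abs_self _)) hno
  set n : (ι → ℝ) → ℝ := fun x => ‖prj P.I (re2c x)‖ with hn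
  set g : (ι → ℝ) → ℝ := fun x => ∑ j, |(W j (re2c x)).re| with hg
  have hn0 : ∀ x, 0 ≤ n x := fun x => norm_nonneg _
  have hg0 : ∀ x, 0 ≤ g x := fun x => Finset.sum_nonneg fun _ _ => abs_nonneg _
  have hn1 : ∀ᶠ x in 𝓝 (0 : ι → ℝ), n x ≤ 1 := by
    filter_upwards [ball_mem_nhds (0 : ι → ℝ) one_pos] with x hx
    exact (norm_prj_le _ _).trans ((norm_re2c x).trans_le (mem_ball_zero_iff.1 hx).le)
  have h2 : ∀ᶠ x in 𝓝 (0 : ι → ℝ), n x ^ N ≤ √C * g x := h1.mono fun x hx => by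
    refine (pow_le_pow_iff_left₀ (pow_nonneg (hn0 x) N) (mul_nonneg (Real.sqrt_nonneg _) (hg0 x))
      two_ne_zero).1 ?_
    rw [← pow_mul, mul_comm N, pow_mul, mul_pow, Real.sq_sqrt hC.le]
    refine (pow_le_pow_left₀ (sq_nonneg _) (norm_prj_sq_le _ x) N).trans (hx.trans ?_)
    refine mul_le_mul_of_nonneg_left (le_trans (le_of_eq ?_)
      (Finset.sum_sq_le_sq_sum_of_nonneg fun _ _ => abs_nonneg _)) hC.le
    simp only [sq_abs]
  have h3 : ∀ {a b : ℕ}, a ≤ b → (fun x => n x ^ b) =O[𝓝 0] fun x => n x ^ a := fun hab =>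
    IsBigO.of_bound' (hn1.mono fun x hx => by
      rw [norm_pow, norm_pow, Real.norm_of_nonneg (hn0 x)]
      exact pow_le_pow_of_le_one (hn0 x) hx hab)
  obtain ⟨T, hT1, hT2⟩ := hF.exists_holo (2 * N + 1)
  have h4 : (fun x => (V (re2c x)).re - (T (re2c x)).re) =O[𝓝 0] fun x => (n x ^ N) ^ 2 := by
    simpa only [← pow_mul] using
      (hV.isBigO_apx Finset.Subset.rfl hT2).trans (h3 (by omega : N * 2 ≤ 2 * N + 1))
  obtain ⟨C1, hC1, e1⟩ := hT2.scale_D hF hT1 (mul_pos one_half_pos P.hc).le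
  have h5 : ∀ j, (fun x => (W j (re2c x)).re - (D j T (re2c x)).re) =O[𝓝 0] fun x => n x ^ N :=
    fun j => ((hW j).isBigO Finset.Subset.rfl hC1 fun R hR ξ hξ h => e1 R hR ξ hξ h j).trans
      (h3 (by omega))
  obtain ⟨θ, t1, t2, C2, hC2, h6⟩ := loja_of_approx (f := fun x => (V (re2c x)).re)
    (p := fun x => n x ^ N) (g := g) (analyticAt_re P.hr hT1)
    (by
      have h7 : n 0 = 0 := le_antisymm ((norm_prj_le _ _).trans (by simp [re2c_zero])) (hn0 0)
      exact (sub_eq_zero.1 (h4.eq_zero_imp.self_of_nhds (by simp [h7, hN.ne']))).symm)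
    (hn1.mono fun x hx => ⟨pow_nonneg (hn0 x) N, pow_le_one₀ (hn0 x) hx⟩)
    (IsBigO.of_bound √C (h2.mono fun x hx => by
      rwa [Real.norm_of_nonneg (pow_nonneg (hn0 x) N), Real.norm_of_nonneg (hg0 x)])) h4
    (by
      have h7 : ∀ j, (fun x => |(D j T (re2c x)).re|) =O[𝓝 0] fun x => |g x| + n x ^ N := by
        intro j
        have h8 : (fun x => (W j (re2c x)).re) =O[𝓝 0] fun x => |g x| + n x ^ N :=
          IsBigO.of_bound' (Eventually.of_forall fun x => by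
            have h9 : |(W j (re2c x)).re| ≤ g x := Finset.single_le_sum
              (f := fun j => |(W j (re2c x)).re|) (fun _ _ => abs_nonneg _) (Finset.mem_univ j)
            have := pow_nonneg (hn0 x) N
            exact (h9.trans (by linarith [le_abs_self (g x)])).trans (le_abs_self _))
        have h9 : (fun x => n x ^ N) =O[𝓝 0] fun x => |g x| + n x ^ N :=
          IsBigO.of_bound' (Eventually.of_forall fun x => by
            rw [Real.norm_of_nonneg (pow_nonneg (hn0 x) N)]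
            exact (le_add_of_nonneg_left (abs_nonneg _)).trans (le_abs_self _))
        simpa only [sub_sub_cancel] using (h8.sub ((h5 j).trans h9)).abs_left
      refine IsBigO.trans (IsBigO.of_bound' ?_) (IsBigO.fun_sum fun j (_ : j ∈ Finset.univ) => h7 j)
      filter_upwards [ball_mem_nhds (0 : ι → ℝ) P.hr] with x hx
      rw [mem_ball_zero_iff, ← norm_re2c, ← mem_ball_zero_iff] at hx
      exact (norm_fderiv_re_le (hT1.differentiableAt (isOpen_ball.mem_nhds hx))).trans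
        (le_abs_self _))
  refine ⟨N, θ, √C + C2, t1, t2, by positivity, ?_⟩
  filter_upwards [h2, h6] with x a1 a2
  rw [re2c_zero, abs_of_nonneg (hg0 x)] at a2
  have a3 := mul_nonneg (Real.sqrt_nonneg C) (hg0 x)
  have a4 := mul_nonneg hC2.le (hg0 x)
  exact ⟨a1.trans (by linarith), a2.trans (by linarith)⟩

theorem GFo.concl {P : Par ι} {F : ℕ → (ι → ℂ) → ℂ} (hF : GFo P F)
    (hr : IsRealFam P.I P.c P.r P.R0 F) {φ : MvPowerSeries ι ℝ} (hφ : Asym P F φ)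
    (hno : NoArc P.I φ) : Concl P.I P.c P.R0 F := by
  obtain ⟨V, hV⟩ := hF.exists_val
  choose W hW using fun j => (hF.D j).exists_val
  obtain ⟨N, θ, C, t1, t2, hC, h⟩ := ineq_of_noArc hF hφ hno hV hW
  obtain ⟨ρ, hρ, h⟩ := Metric.eventually_nhds_iff_ball.1 h
  obtain ⟨C1, hC1, e1⟩ := hV
  choose C2 hC2 e2 using hW
  have hS : 0 ≤ ∑ j, C2 j := Finset.sum_nonneg fun j _ => hC2 j
  have hκ := P.hκ
  have e3 : ∀ R, P.R0 ≤ R → ∀ x : ι → ℝ, re2c x ∈ P.dom (1 / 2) R →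
      ‖F R (re2c x) - (V (re2c x)).re‖ ≤ C1 * Real.exp (-(1 / 2 * P.κ * R)) := fun R hR x hx =>
    (norm_sub_re_le (hr R hR x (by
      rw [← P.dom_one]
      exact P.dom_mono zero_le_one (by norm_num) (P.hR.trans hR) le_rfl hx)) _).trans (e1 R hR _ hx)
  have hθ : 0 ≤ θ := by linarith
  have hC3 : 0 ≤ C1 ^ θ := Real.rpow_nonneg hC1 θ
  refine ⟨(V 0).re, θ, C * (Fintype.card ι + ∑ j, C2 j + 1) + C1 ^ θ, min ρ (1 / 2 * P.r),
    1 / 4 * P.κ, N, t1, t2, by positivity, lt_min hρ (mul_pos one_half_pos P.hr), by positivity,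
    ?_, fun R hR x hx => ?_⟩
  · rw [tendsto_iff_norm_sub_tendsto_zero]
    refine squeeze_zero' (Eventually.of_forall fun _ => norm_nonneg _)
      ((eventually_ge_atTop P.R0).mono fun R hR => ?_)
      (tendsto_exp_neg (mul_pos one_half_pos hκ) C1)
    have := e3 R hR 0 (P.small_mem one_half_pos (P.hR.trans hR) (by
      simpa [re2c_zero] using P.rad_pos (θ := 0) one_half_pos (P.hR.trans hR)))
    rwa [re2c_zero] at this
  · have h1 : re2c x ∈ P.dom (1 / 2) R := ⟨hx.1.trans_le (min_le_right _ _), fun i hi =>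
      (hx.2 i hi).trans_eq (by ring)⟩
    obtain ⟨h2, h3⟩ := h x (mem_ball_zero_iff.2
      ((norm_re2c x).symm.trans_lt (hx.1.trans_le (min_le_left _ _))))
    set E := Real.exp (-(1 / 2 * P.κ * R)) with hE
    set E' := Real.exp (-(1 / 4 * P.κ * R)) with hE'
    set d := ‖fderiv ℂ (F R) (re2c x)‖
    have hd : 0 ≤ d := norm_nonneg _
    have hE0 : 0 < E := Real.exp_pos _
    have hκR : 0 ≤ P.κ * R := by positivity
    have hE1 : E ≤ E' := Real.exp_le_exp.2 (by linarith)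
    have hE2 : E ^ θ ≤ E' := by
      rw [hE, ← Real.exp_mul]
      exact Real.exp_le_exp.2 (by nlinarith)
    have h4 : ∑ j, |(W j (re2c x)).re| ≤ (Fintype.card ι + ∑ j, C2 j + 1) * (d + E') := by
      have h5 : ∀ j, |(W j (re2c x)).re| ≤ d + C2 j * E := fun j => by
        refine (abs_re_le_norm _).trans (le_trans (le_of_eq ?_) ((norm_sub_le _ _).trans
          (add_le_add (norm_D_le j (F R) _) (e2 j R hR _ h1))))
        rw [sub_sub_cancel]
      have h6 := Finset.sum_le_sum fun j (_ : j ∈ Finset.univ) => h5 j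
      rw [Finset.sum_add_distrib, ← Finset.sum_mul, Finset.sum_const, Finset.card_univ,
        nsmul_eq_mul] at h6
      have h7 : (0 : ℝ) ≤ Fintype.card ι := Nat.cast_nonneg _
      nlinarith [mul_le_mul_of_nonneg_left hE1 hS, mul_nonneg hS hd, mul_nonneg h7 (hE0.le.trans hE1)]
    have h5 := mul_le_mul_of_nonneg_left h4 hC.le
    have h6 := mul_nonneg hC3 hd
    have h7 := mul_nonneg hC3 (hE0.le.trans hE1)
    refine ⟨fun i hi => ?_, ?_⟩
    · have h8 : |x i| ≤ ‖prj P.I (re2c x)‖ := by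
        simpa [re2c] using norm_le_norm_prj (re2c x) hi
      refine (pow_le_pow_left₀ (abs_nonneg _) h8 N).trans (h2.trans ?_)
      linarith
    · have h8 : ‖F R (re2c x) - (V 0).re‖ ≤ C1 * E + |(V (re2c x)).re - (V 0).re| := by
        refine le_trans (le_of_eq ?_) ((norm_add_le _ (((V (re2c x)).re - (V 0).re : ℝ) : ℂ)).trans
          (add_le_add (e3 R hR x h1) (norm_real _).le))
        congr 1
        push_cast
        ring
      refine (Real.rpow_le_rpow (norm_nonneg _) h8 hθ).trans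
        ((Real.rpow_add_le_add_rpow (by positivity) (abs_nonneg _) hθ t2.le).trans ?_)
      rw [Real.mul_rpow hC1 hE0.le]
      have h9 := mul_le_mul_of_nonneg_left hE2 hC3
      linarith

theorem conclOfNoArc : ConclOfNoArc := fun _ _ _ _ _ _ _ _ _ h _ hr hφ hno =>
  h.gfo.concl hr hφ hno

end Vale.Agent.P218F
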