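import Vale.Agent.P218F.Stokes
import Vale.Agent.P218F.AsymCalc
import Vale.Agent.P218F.Concl

/-! The theorem of block F. -/

namespace Vale.Agent.P218F

theorem blockFV : BlockFV := NA.blockFV_of asymCalc conclOfNoArc

end Vale.Agent.P218F
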