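import Vale.Agent.P218F.Patch

/-! Exponential decay of flat patch families and of two patch families across a Stokes line. -/

open Complex Metric

namespace Vale.Agent.P218F

theorem re_sub_le_dist (u v : ℂ) : |v.re - u.re| ≤ dist v u := by
  rw [dist_eq_norm, ← sub_re]
  exact abs_re_le_norm _

theorem im_sub_le_dist (u v : ℂ) : |v.im - u.im| ≤ dist v u := by
  rw [dist_eq_norm, ← sub_im]
  exact abs_im_le_norm _

/-- Changing the constant and the exponent in an exponential bound. -/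
theorem le_exp_mono {x C D a b : ℝ} (h : x ≤ C * Real.exp a) (hC : |C| ≤ D) (hab : a ≤ b) :
    x ≤ D * Real.exp b :=
  h.trans (mul_le_mul ((le_abs_self C).trans hC) (Real.exp_le_exp.2 hab) (Real.exp_pos a).le
    ((abs_nonneg C).trans hC))

theorem mul_exp_le {x C D a b c : ℝ} (h : x ≤ C * Real.exp a) (hC : |C| ≤ D) (hab : a + c ≤ b) :
    x * Real.exp c ≤ D * Real.exp b := by
  refine le_exp_mono (C := C) (a := a + c) ?_ hC hab
  rw [Real.exp_add, ← mul_assoc]
  exact mul_le_mul_of_nonneg_right h (Real.exp_pos c).le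

theorem flatDecay : FlatDecay := by
  rintro κ r L V hκ hr hd ⟨C0, hC0⟩ hflat
  obtain ⟨ρ, hρ, hρr, hρ'⟩ : ∃ ρ : ℝ, 0 < ρ ∧ ρ < r ∧ ρ ≤ 1 / 2 :=
    ⟨min (r / 2) (1 / 2), by positivity, (min_le_left _ _).trans_lt (by linarith), min_le_right _ _⟩
  obtain ⟨K, hK, hpatch⟩ := patch (κ := κ / 2) L (by positivity) hρ hρ'
  obtain ⟨C1, hC1⟩ := hflat 0
  simp only [Nat.cast_zero, zero_mul, neg_zero] at hC1
  obtain ⟨C2, hC2⟩ : ∃ C2, C2 = |C0| + |C1| + 1 := ⟨_, rfl⟩
  have a0 := abs_nonneg C0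
  have a1 := abs_nonneg C1
  have hC2pos : 0 < C2 := by linarith
  obtain ⟨κ', hκ'⟩ : ∃ κ', κ' = κ / 4 * Real.exp (-1) := ⟨_, rfl⟩
  have hκ'0 : 0 < κ' := by rw [hκ']; positivity
  refine ⟨κ', K * C2 + |C1| * Real.exp (κ' * Real.exp (L + 1)), hκ'0, fun w hw => ?_⟩
  have p1 : 0 ≤ K * C2 * Real.exp (-(κ' * Real.exp w.re)) := by positivity
  have p2 : 0 ≤ |C1| * Real.exp (κ' * Real.exp (L + 1)) * Real.exp (-(κ' * Real.exp w.re)) := by
    positivity
  rw [add_mul]
  rcases le_total w.re (L + 1) with hw1 | hw1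
  · have h1 : ‖V w w‖ ≤ |C1| * Real.exp (κ' * Real.exp (L + 1) + -(κ' * Real.exp w.re)) :=
      le_exp_mono (hC1 w hw) le_rfl (by
        linarith [mul_le_mul_of_nonneg_left (Real.exp_le_exp.2 hw1) hκ'0.le])
    rw [Real.exp_add, ← mul_assoc] at h1
    linarith
  obtain ⟨a, ha⟩ : ∃ a, a = κ / 2 * Real.exp (w.re - 1) := ⟨_, rfl⟩
  have ha0 : 0 < a := by rw [ha]; positivity
  have ha2 : κ' * Real.exp w.re = a / 2 := by
    rw [hκ', ha, sub_eq_add_neg, Real.exp_add]
    ring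
  obtain ⟨B, hB⟩ : ∃ B, B = C2 * Real.exp (-(a / 2)) := ⟨_, rfl⟩
  have hB0 : 0 < B := by rw [hB]; positivity
  obtain ⟨n, hn⟩ := exists_nat_ge (a + 1)
  obtain ⟨Cn, hCn⟩ := hflat n
  obtain ⟨D, hD⟩ : ∃ D, D = |Cn| * Real.exp (-((n - a) * (w.re - 1)) - a * w.re) := ⟨_, rfl⟩
  have hD0 : 0 ≤ D := by rw [hD]; positivity
  have hre : ∀ u : ℂ, ((a : ℂ) * (u - w.re)).re = a * (u.re - w.re) := fun u => by simp
  have hfar : ∀ u : ℂ, w.re - 1 ≤ u.re → ‖V u u‖ * Real.exp (a * (u.re - w.re)) ≤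
      D * Real.exp (-(u.re - (w.re - 1))) := fun u hu => by
    rw [hD, mul_assoc, ← Real.exp_add]
    refine mul_exp_le (hCn u (by linarith)) le_rfl ?_
    nlinarith
  have := hpatch {u | w.re - 1 ≤ u.re} V (fun u => a * (u - w.re)) B (w.re - 1 + D / B)
    (by fun_prop) hB0.le (fun u hu => le_trans (by linarith) hu)
    ⟨D, fun u hu => by
      rw [hre]
      refine (hfar u hu).trans (mul_le_of_le_one_right hD0 (Real.exp_le_one_iff.2 ?_))
      have : w.re - 1 ≤ u.re := hu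
      linarith⟩ (fun u hu => ?_) w (by simp)
  · rw [hre, sub_self, mul_zero, Real.exp_zero, mul_one, hB, ← ha2, ← mul_assoc] at this
    linarith
  have hu' : w.re - 1 ≤ u.re := hu
  simp only [hre]
  by_cases h1 : u.re ≤ w.re - 1 / 2
  · left
    rw [hB]
    refine mul_exp_le (hC1 u (by linarith)) (by linarith) ?_
    nlinarith
  by_cases h2 : w.re - 1 + D / B ≤ u.re
  · left
    refine (hfar u hu').trans ?_
    rw [Real.exp_neg, ← div_eq_mul_inv, div_le_iff₀ (Real.exp_pos _), ← div_le_iff₀' hB0]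
    linarith [Real.add_one_le_exp (u.re - (w.re - 1))]
  have hball : ∀ v ∈ closedBall u ρ, w.re - 1 ≤ v.re := fun v hv => by
    have := (abs_le.1 ((re_sub_le_dist u v).trans (mem_closedBall.1 hv))).1
    linarith
  refine Or.inr ⟨by linarith, hball, (hd u (by linarith)).mono (closedBall_subset_ball hρr),
    fun v hv => ?_⟩
  have hv1 := hball v (sphere_subset_closedBall hv)
  rw [hB, mul_assoc, ← Real.exp_add]
  refine mul_exp_le (hC0 u v (by linarith) (by linarith) ((mem_sphere.1 hv).trans_lt hρr))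
    (by linarith) ?_
  have e : κ / 2 * Real.exp v.re = a * Real.exp (v.re - (w.re - 1)) := by
    rw [ha, mul_assoc, ← Real.exp_add]
    congr 2
    ring
  have := mul_le_mul_of_nonneg_left (Real.add_one_le_exp (v.re - (w.re - 1))) ha0.le
  linarith

theorem cos_le_cos_of_abs_le {θ β : ℝ} (h : |θ| ≤ β) (hβ : β ≤ Real.pi) :
    Real.cos β ≤ Real.cos θ := by
  rw [← Real.cos_abs θ]
  exact Real.cos_le_cos_of_nonneg_of_le_pi (abs_nonneg _) hβ h

/-- The Phragmen-Lindelöf principle for patches on a half strip. -/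
theorem strip_decay {κ ρ L a b β A : ℝ} {V : ℂ → ℂ → ℂ} {H : ℂ → ℂ} (hκ : 0 < κ) (hρ : 0 < ρ)
    (hρ' : ρ ≤ 1 / 2) (hβ0 : 0 < β) (hβ : β < Real.pi / 2) (ha : -β ≤ a) (hb : b ≤ β)
    (hH : Differentiable ℂ H) (hA0 : 0 ≤ A) (hA : ∀ u, (H u).re ≤ A * Real.exp u.re)
    (hd : ∀ u ∈ Strip L a b, DifferentiableOn ℂ (V u) (closedBall u ρ))
    (hbd : ∃ C : ℝ, ∀ u ∈ Strip L a b, ‖V u u‖ ≤ C)
    (hgl : ∃ C : ℝ, ∀ u ∈ Strip L a b, ∀ v ∈ Strip L a b, dist v u ≤ ρ →
      ‖V u v - V v v‖ ≤ C * Real.exp (-((H v).re + κ * Real.exp v.re)))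
    (hs : ∃ C : ℝ, ∀ u ∈ Strip L a b, u.im ≤ a + ρ ∨ b - ρ ≤ u.im →
      ‖V u u‖ ≤ C * Real.exp (-(H u).re)) :
    ∃ C : ℝ, ∀ u ∈ Strip L a b, ‖V u u‖ ≤ C * Real.exp (-(H u).re) := by
  obtain ⟨Cb, hCb⟩ := hbd
  obtain ⟨Cg, hCg⟩ := hgl
  obtain ⟨Cs, hCs⟩ := hs
  obtain ⟨K, hK, hpatch⟩ := patch L hκ hρ hρ'
  obtain ⟨p, hp1, hp2⟩ : ∃ p : ℝ, 1 < p ∧ p * β < Real.pi / 2 := by
    refine ⟨(β + Real.pi / 2) / (2 * β), ?_, ?_⟩
    · rw [one_lt_div (by positivity)]
      linarith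
    · have : (β + Real.pi / 2) / (2 * β) * β = (β + Real.pi / 2) / 2 := by field_simp
      linarith
  have hpβ : 0 < p * β := by positivity
  have hc : 0 < Real.cos (p * β) := Real.cos_pos_of_mem_Ioo ⟨by linarith, hp2⟩
  have hT : ∀ u ∈ Strip L a b, Real.cos (p * β) * Real.exp (p * u.re) ≤ (exp (p * u)).re := by
    intro u hu
    rw [exp_re, re_ofReal_mul, im_ofReal_mul, mul_comm]
    refine mul_le_mul_of_nonneg_left (cos_le_cos_of_abs_le ?_ (by linarith)) (Real.exp_pos _).le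
    rw [abs_mul, abs_of_pos (by linarith : 0 < p)]
    exact mul_le_mul_of_nonneg_left (abs_le.2 ⟨by linarith [hu.2.1], by linarith [hu.2.2]⟩)
      (by linarith)
  have hT0 : ∀ u ∈ Strip L a b, 0 < (exp (p * u)).re := fun u hu =>
    lt_of_lt_of_le (by positivity) (hT u hu)
  obtain ⟨B, hB⟩ : ∃ B, B = |Cb| * Real.exp (A * Real.exp (L + 1)) + |Cg| + |Cs| := ⟨_, rfl⟩
  have b1 : 0 ≤ |Cb| * Real.exp (A * Real.exp (L + 1)) := by positivity
  have b2 : |Cb| ≤ |Cb| * Real.exp (A * Real.exp (L + 1)) :=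
    le_mul_of_one_le_right (abs_nonneg _) (Real.one_le_exp (by positivity))
  have b3 := abs_nonneg Cg
  have b4 := abs_nonneg Cs
  have hCb' : ∀ u ∈ Strip L a b, ‖V u u‖ ≤ Cb * Real.exp 0 := fun u hu => by
    rw [Real.exp_zero, mul_one]; exact hCb u hu
  have key : ∀ η : ℝ, 0 < η → ∀ u ∈ Strip L a b,
      ‖V u u‖ * Real.exp ((H u).re - η * (exp (p * u)).re) ≤ K * B := by
    intro η hη
    have hre : ∀ u : ℂ, (H u - η * exp (p * u)).re = (H u).re - η * (exp (p * u)).re := fun u => by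
      rw [sub_re, re_ofReal_mul]
    have hη0 : ∀ u ∈ Strip L a b, 0 ≤ η * (exp (p * u)).re := fun u hu =>
      (mul_pos hη (hT0 u hu)).le
    obtain ⟨X, hX⟩ : ∃ X, X = A / (η * Real.cos (p * β) * (p - 1)) := ⟨_, rfl⟩
    have hfar : ∀ u ∈ Strip L a b, X ≤ u.re → (H u).re - η * (exp (p * u)).re ≤ 0 := by
      intro u hu hx
      rw [hX, div_le_iff₀ (mul_pos (by positivity) (by linarith))] at hx
      have h1 : Real.exp u.re * ((p - 1) * u.re) ≤ Real.exp (p * u.re) := by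
        rw [show p * u.re = u.re + (p - 1) * u.re by ring, Real.exp_add]
        exact mul_le_mul_of_nonneg_left (by linarith [Real.add_one_le_exp ((p - 1) * u.re)])
          (Real.exp_pos _).le
      have h2 := mul_le_mul_of_nonneg_left h1 (mul_pos hη hc).le
      have h3 := mul_le_mul_of_nonneg_left (hT u hu) hη.le
      have h4 := mul_le_mul_of_nonneg_right hx (Real.exp_pos u.re).le
      linarith [hA u]
    have hnear : ∀ Y, ∀ u ∈ Strip L a b, u.re ≤ Y →
        ‖V u u‖ * Real.exp ((H u).re - η * (exp (p * u)).re) ≤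
          |Cb| * Real.exp (A * Real.exp Y) := fun Y u hu hx =>
      mul_exp_le (hCb' u hu) le_rfl (by
        linarith [hA u, hη0 u hu, mul_le_mul_of_nonneg_left (Real.exp_le_exp.2 hx) hA0])
    have := hpatch (Strip L a b) V (fun u => H u - η * exp (p * u)) B X (by fun_prop)
      (by linarith) (fun u hu => hu.1) ⟨|Cb| * Real.exp (A * Real.exp X), fun u hu => ?_⟩
      (fun u hu => ?_)
    · simpa only [hre] using this
    · rw [hre]
      rcases le_total u.re X with hx | hx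
      · exact hnear X u hu hx
      · exact mul_exp_le (hCb' u hu) le_rfl (by
          linarith [hfar u hu hx, mul_nonneg hA0 (Real.exp_pos X).le])
    simp only [hre]
    by_cases h1 : u.re ≤ L + 1
    · exact Or.inl ((hnear _ u hu h1).trans (by linarith))
    by_cases h2 : X ≤ u.re
    · left
      have := mul_exp_le (b := 0) (c := (H u).re - η * (exp (p * u)).re) (hCb' u hu) le_rfl
        (by linarith [hfar u hu h2])
      rw [Real.exp_zero, mul_one] at this
      linarith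
    by_cases h3 : u.im ≤ a + ρ ∨ b - ρ ≤ u.im
    · left
      have := mul_exp_le (b := 0) (c := (H u).re - η * (exp (p * u)).re) (hCs u hu h3) le_rfl
        (by linarith [hη0 u hu])
      rw [Real.exp_zero, mul_one] at this
      linarith
    push Not at h3
    have hball : closedBall u ρ ⊆ Strip L a b := fun v hv => by
      have h4 := abs_le.1 ((re_sub_le_dist u v).trans (mem_closedBall.1 hv))
      have h5 := abs_le.1 ((im_sub_le_dist u v).trans (mem_closedBall.1 hv))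
      exact ⟨by linarith [h4.1], by linarith [h5.1, h3.1], by linarith [h5.2, h3.2]⟩
    refine Or.inr ⟨by linarith, hball, hd u hu, fun v hv => ?_⟩
    have hv1 := hball (sphere_subset_closedBall hv)
    exact mul_exp_le (hCg u hu v hv1 (mem_sphere.1 hv).le) (by linarith) (by linarith [hη0 v hv1])
  refine ⟨K * B * Real.exp 1, fun u hu => ?_⟩
  have h1 := key (1 / (exp (p * u)).re) (one_div_pos.2 (hT0 u hu)) u hu
  rw [one_div_mul_cancel (hT0 u hu).ne'] at h1
  rw [mul_assoc, ← Real.exp_add, show 1 + -(H u).re = -((H u).re - 1) by ring, Real.exp_neg,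
    ← div_eq_mul_inv, le_div_iff₀ (Real.exp_pos _)]
  exact h1

theorem re_exp_le (u : ℂ) : |(exp u).re| ≤ Real.exp u.re := by
  rw [← norm_exp]
  exact abs_re_le_norm _

/-- One family of patches reaching slightly beyond the Stokes line. -/
theorem side_decay {e κ ρ L a b β δ σ : ℝ} {V : ℂ → ℂ → ℂ} (he : 0 < e) (hκ : 0 < κ) (hρ : 0 < ρ)
    (hρ' : ρ ≤ 1 / 2) (hβ0 : 0 < β) (hβ : β < Real.pi / 2) (ha : -β ≤ a) (hb : b ≤ β)
    (hδ : 0 < δ) (hδβ : δ ≤ β) (hσ : σ = 1 ∨ σ = -1)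
    (hd : ∀ u ∈ Strip L a b, DifferentiableOn ℂ (V u) (closedBall u ρ))
    (hbd : ∃ C : ℝ, ∀ u ∈ Strip L a b, ‖V u u‖ ≤ C)
    (hgl : ∃ C : ℝ, ∀ u ∈ Strip L a b, ∀ v ∈ Strip L a b, dist v u ≤ ρ →
      ‖V u v - V v v‖ ≤ C * Real.exp (-(e * (exp v).re + κ * Real.exp v.re)))
    (hs : ∀ ε : ℝ, 0 < ε → ∃ C : ℝ, ∀ u ∈ Strip L a b, u.im ≤ a + ρ ∨ b - ρ ≤ u.im →
      ‖V u u‖ ≤ C * Real.exp (-(e * (exp u).re + κ * Real.exp u.re)) ∨
        (3 * δ / 4 ≤ σ * u.im ∧ σ * u.im ≤ δ ∧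
          ‖V u u‖ ≤ C * Real.exp (-(e * (exp u).re) + ε * Real.exp u.re))) :
    ∃ C : ℝ, ∀ u ∈ Strip L a b, |u.im| ≤ δ / 4 → ‖V u u‖ ≤
      C * Real.exp (-(e * (exp u).re + κ / 2 * Real.sin (δ / 4) * Real.exp u.re)) := by
  have hpi := Real.pi_pos
  have hsin : 0 < Real.sin (δ / 4) := Real.sin_pos_of_pos_of_lt_pi (by linarith) (by linarith)
  have hmono : ∀ t, δ / 4 ≤ t → t ≤ δ → Real.sin (δ / 4) ≤ Real.sin t := fun t h1 h2 =>
    Real.sin_le_sin_of_le_of_le_pi_div_two (by linarith) (by linarith) h1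
  set H : ℂ → ℂ := fun v => e * exp v + (σ * (κ / 2) : ℝ) * (exp (v - (σ * (δ / 2) : ℝ) * I) * I)
    with hH
  have hre : ∀ v, (H v).re =
      e * (exp v).re + κ / 2 * Real.sin (δ / 2 - σ * v.im) * Real.exp v.re := fun v => by
    rw [hH, add_re, re_ofReal_mul, re_ofReal_mul, mul_I_re, exp_im]
    simp only [sub_re, sub_im, mul_re, mul_im, ofReal_re, ofReal_im, I_re, I_im, mul_zero, mul_one,
      sub_zero, add_zero]
    rcases hσ with rfl | rfl
    · rw [show δ / 2 - 1 * v.im = -(v.im - 1 * (δ / 2)) by ring, Real.sin_neg]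
      ring
    · rw [show δ / 2 - -1 * v.im = v.im - -1 * (δ / 2) by ring]
      ring
  have hup : ∀ v : ℂ, κ / 2 * Real.sin (δ / 2 - σ * v.im) * Real.exp v.re ≤
      κ / 2 * Real.exp v.re := fun v =>
    mul_le_mul_of_nonneg_right (mul_le_of_le_one_right (by positivity) (Real.sin_le_one _))
      (Real.exp_pos _).le
  obtain ⟨Cg, hCg⟩ := hgl
  obtain ⟨Cs, hCs⟩ := hs (κ / 2 * Real.sin (δ / 4)) (by positivity)
  obtain ⟨C, hC⟩ := strip_decay (κ := κ / 2) (A := e + κ / 2) (H := H) (by positivity) hρ hρ' hβ0 hβ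
    ha hb (by rw [hH]; fun_prop) (by positivity) (fun u => by
      have := mul_le_mul_of_nonneg_left ((le_abs_self _).trans (re_exp_le u)) he.le
      rw [hre]
      linarith [hup u]) hd hbd
    ⟨|Cg|, fun u hu v hv huv => le_exp_mono (hCg u hu v hv huv) le_rfl (by
      rw [hre]
      linarith [hup v])⟩
    ⟨|Cs|, fun u hu h => by
      rw [hre]
      rcases hCs u hu h with h1 | ⟨h1, h2, h3⟩
      · refine le_exp_mono h1 le_rfl ?_
        linarith [hup u, mul_pos hκ (Real.exp_pos u.re)]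
      · refine le_exp_mono h3 le_rfl ?_
        have h4 := hmono (σ * u.im - δ / 2) (by linarith) (by linarith)
        rw [show δ / 2 - σ * u.im = -(σ * u.im - δ / 2) by ring, Real.sin_neg]
        have h5 := mul_le_mul_of_nonneg_left h4 (by positivity : 0 ≤ κ / 2 * Real.exp u.re)
        linarith⟩
  refine ⟨|C|, fun u hu h => le_exp_mono (hC u hu) le_rfl ?_⟩
  have h1 := abs_le.1 h
  have h2 := hmono (δ / 2 - σ * u.im) (by rcases hσ with rfl | rfl <;> linarith [h1.1, h1.2])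
    (by rcases hσ with rfl | rfl <;> linarith [h1.1, h1.2])
  have h3 := mul_le_mul_of_nonneg_left h2 (by positivity : 0 ≤ κ / 2 * Real.exp u.re)
  rw [hre]
  linarith

theorem stokesDecay : StokesDecay := by
  rintro e κ β δ r L Vp Vm he hκ hβ0 hβ hδ hδβ hr hdp hdm ⟨Cp, hCp⟩ ⟨Cm, hCm⟩ hj ⟨Bp, hBp⟩ ⟨Bm, hBm⟩
    ⟨Sp, hSp⟩ ⟨Sm, hSm⟩
  obtain ⟨ρ, hρ, hρr, hρ', hρδ, hρβ⟩ :
      ∃ ρ : ℝ, 0 < ρ ∧ ρ < r ∧ ρ ≤ 1 / 2 ∧ ρ ≤ δ / 4 ∧ ρ < β :=
    ⟨min (min (r / 2) (1 / 2)) (δ / 4), by positivity,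
      ((min_le_left _ _).trans (min_le_left _ _)).trans_lt (by linarith),
      (min_le_left _ _).trans (min_le_right _ _), min_le_right _ _,
      (min_le_right _ _).trans_lt (by linarith)⟩
  have hpi := Real.pi_pos
  have hc : 0 < Real.cos β := Real.cos_pos_of_mem_Ioo ⟨by linarith, hβ⟩
  have hlow : ∀ u ∈ Strip L (-β) β, Real.cos β * Real.exp u.re ≤ (exp u).re := fun u hu => by
    rw [exp_re, mul_comm]
    exact mul_le_mul_of_nonneg_left (cos_le_cos_of_abs_le (abs_le.2 hu.2) (by linarith))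
      (Real.exp_pos _).le
  have hpos : ∀ u ∈ Strip L (-β) β, 0 ≤ (exp u).re := fun u hu =>
    le_trans (by positivity) (hlow u hu)
  set W : ℂ → ℂ → ℂ := fun u => if u.im ≤ 0 then Vp u else Vm u with hW
  have hWp : ∀ u : ℂ, u.im ≤ 0 → W u = Vp u := fun u h => if_pos h
  have hWm : ∀ u : ℂ, 0 < u.im → W u = Vm u := fun u h => if_neg (not_le.2 h)
  have mp : ∀ u ∈ Strip L (-β) β, u.im ≤ δ → u ∈ Strip L (-β) δ := fun u hu h => ⟨hu.1, hu.2.1, h⟩
  have mm : ∀ u ∈ Strip L (-β) β, -δ ≤ u.im → u ∈ Strip L (-δ) β := fun u hu h => ⟨hu.1, h, hu.2.2⟩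
  -- first step: decay with every exponent below `e`
  have step1 : ∀ ε : ℝ, 0 < ε → ∃ C : ℝ, ∀ u ∈ Strip L (-β) β,
      ‖W u u‖ ≤ C * Real.exp (-(e * (exp u).re) + ε * Real.exp u.re) := by
    intro ε hε
    obtain ⟨Cj, hCj⟩ := hj (ε * Real.cos β / 2) (by positivity)
    obtain ⟨κ1, hκ1, h1, h2⟩ : ∃ κ1 : ℝ, 0 < κ1 ∧ κ1 ≤ κ ∧ κ1 ≤ ε * Real.cos β / 2 :=
      ⟨min κ (ε * Real.cos β / 2), by positivity, min_le_left _ _, min_le_right _ _⟩
    have hre : ∀ u : ℂ, (((e - ε : ℝ) : ℂ) * exp u).re = (e - ε) * (exp u).re := fun u =>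
      re_ofReal_mul _ _
    have x1 : ∀ v ∈ Strip L (-β) β, -(e * (exp v).re + κ * Real.exp v.re) ≤
        -((e - ε) * (exp v).re + κ1 * Real.exp v.re) := fun v hv => by
      linarith [mul_nonneg hε.le (hpos v hv), mul_le_mul_of_nonneg_right h1 (Real.exp_pos v.re).le]
    have x2 : ∀ v ∈ Strip L (-β) β, -(e * (exp v).re) + ε * Real.cos β / 2 * Real.exp v.re ≤
        -((e - ε) * (exp v).re + κ1 * Real.exp v.re) := fun v hv => by
      linarith [mul_le_mul_of_nonneg_left (hlow v hv) hε.le,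
        mul_le_mul_of_nonneg_right h2 (Real.exp_pos v.re).le]
    obtain ⟨C, hC⟩ := strip_decay (κ := κ1) (A := |e - ε|) (L := L) (V := W)
      (H := fun u => ((e - ε : ℝ) : ℂ) * exp u) hκ1 hρ hρ' hβ0 hβ le_rfl le_rfl (by fun_prop)
      (abs_nonneg _) (fun u => by
        rw [hre]
        refine (le_abs_self _).trans ?_
        rw [abs_mul]
        exact mul_le_mul_of_nonneg_left (re_exp_le u) (abs_nonneg _))
      (fun u hu => by
        rcases le_or_gt u.im 0 with h | h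
        · rw [hWp u h]
          exact (hdp u (mp u hu (by linarith))).mono (closedBall_subset_ball hρr)
        · rw [hWm u h]
          exact (hdm u (mm u hu (by linarith))).mono (closedBall_subset_ball hρr))
      ⟨max Bp Bm, fun u hu => by
        rcases le_or_gt u.im 0 with h | h
        · rw [hWp u h]
          exact (hBp u (mp u hu (by linarith))).trans (le_max_left _ _)
        · rw [hWm u h]
          exact (hBm u (mm u hu (by linarith))).trans (le_max_right _ _)⟩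
      ⟨|Cp| + |Cm| + |Cj|, fun u hu v hv huv => by
        have h3 := abs_le.1 ((im_sub_le_dist u v).trans huv)
        have p1 := abs_nonneg Cp
        have p2 := abs_nonneg Cm
        have p3 := abs_nonneg Cj
        simp only [hre]
        have pe := Real.exp_pos (-((e - ε) * (exp v).re + κ1 * Real.exp v.re))
        rcases le_or_gt u.im 0 with h | h <;> rcases le_or_gt v.im 0 with h' | h'
        · rw [hWp u h, hWp v h']
          exact le_exp_mono (hCp u (mp u hu (by linarith)) v (mp v hv (by linarith))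
            (huv.trans_lt hρr)) (by linarith) (x1 v hv)
        · rw [hWp u h, hWm v h']
          have q1 := le_exp_mono (hCp u (mp u hu (by linarith)) v (mp v hv (by linarith [h3.2]))
            (huv.trans_lt hρr)) le_rfl (x1 v hv)
          have q2 := le_exp_mono (hCj v ⟨hv.1, by linarith, by linarith [h3.2]⟩) le_rfl (x2 v hv)
          have q3 := norm_sub_le_norm_sub_add_norm_sub (Vp u v) (Vp v v) (Vm v v)
          nlinarith
        · rw [hWm u h, hWp v h']
          have q1 := le_exp_mono (hCm u (mm u hu (by linarith)) v (mm v hv (by linarith [h3.1]))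
            (huv.trans_lt hρr)) le_rfl (x1 v hv)
          have q2 := le_exp_mono (hCj v ⟨hv.1, by linarith [h3.1], by linarith⟩) le_rfl (x2 v hv)
          have q3 := norm_sub_le_norm_sub_add_norm_sub (Vm u v) (Vm v v) (Vp v v)
          rw [norm_sub_rev (Vm v v)] at q3
          nlinarith
        · rw [hWm u h, hWm v h']
          exact le_exp_mono (hCm u (mm u hu (by linarith)) v (mm v hv (by linarith))
            (huv.trans_lt hρr)) (by linarith) (x1 v hv)⟩
      ⟨|Sp| + |Sm|, fun u hu h => by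
        have p1 := abs_nonneg Sp
        have p2 := abs_nonneg Sm
        have x3 : -(e * (exp u).re + κ * Real.exp u.re) ≤ -((e - ε) * (exp u).re) := by
          linarith [x1 u hu, mul_pos hκ1 (Real.exp_pos u.re)]
        simp only [hre]
        rcases h with h | h
        · rw [hWp u (by linarith)]
          exact le_exp_mono (hSp u ⟨hu.1, hu.2.1, by linarith⟩) (by linarith) x3
        · rw [hWm u (by linarith)]
          exact le_exp_mono (hSm u ⟨hu.1, by linarith, hu.2.2⟩) (by linarith) x3⟩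
    refine ⟨|C|, fun u hu => le_exp_mono (hC u hu) le_rfl ?_⟩
    rw [hre]
    linarith [mul_le_mul_of_nonneg_left ((le_abs_self _).trans (re_exp_le u)) hε.le]
  have step2 : ∀ ε : ℝ, 0 < ε → ∃ C : ℝ, ∀ u ∈ Strip L (-δ) δ,
      ‖Vp u u‖ ≤ C * Real.exp (-(e * (exp u).re) + ε * Real.exp u.re) ∧
      ‖Vm u u‖ ≤ C * Real.exp (-(e * (exp u).re) + ε * Real.exp u.re) := by
    intro ε hε
    obtain ⟨C, hC⟩ := step1 ε hε
    obtain ⟨Cj, hCj⟩ := hj ε hε
    refine ⟨|C| + |Cj|, fun u hu => ?_⟩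
    have q1 := le_exp_mono (hC u ⟨hu.1, by linarith [hu.2.1], by linarith [hu.2.2]⟩) le_rfl le_rfl
    have q2 := le_exp_mono (hCj u hu) le_rfl le_rfl
    have q3 := norm_sub_norm_le (Vp u u) (Vm u u)
    have q4 := norm_sub_norm_le (Vm u u) (Vp u u)
    rw [norm_sub_rev] at q4
    have q5 := norm_nonneg (Vp u u - Vm u u)
    rw [add_mul]
    rcases le_or_gt u.im 0 with h | h
    · rw [hWp u h] at q1
      constructor <;> linarith
    · rw [hWm u h] at q1
      constructor <;> linarith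
  obtain ⟨C1, hC1⟩ := side_decay (σ := 1) (L := L) (V := Vp) he hκ hρ hρ' hβ0 hβ le_rfl hδβ hδ hδβ
    (Or.inl rfl) (fun u hu => (hdp u hu).mono (closedBall_subset_ball hρr)) ⟨Bp, hBp⟩
    ⟨Cp, fun u hu v hv h => hCp u hu v hv (h.trans_lt hρr)⟩ (fun ε hε => by
      obtain ⟨C, hC⟩ := step2 ε hε
      refine ⟨|Sp| + |C|, fun u hu h => ?_⟩
      have p1 := abs_nonneg Sp
      have p2 := abs_nonneg C
      rcases h with h | h
      · exact Or.inl (le_exp_mono (hSp u ⟨hu.1, hu.2.1, by linarith⟩) (by linarith) le_rfl)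
      · exact Or.inr ⟨by linarith, by linarith [hu.2.2],
          le_exp_mono (hC u ⟨hu.1, by linarith, hu.2.2⟩).1 (by linarith) le_rfl⟩)
  obtain ⟨C2, hC2⟩ := side_decay (σ := -1) (L := L) (V := Vm) he hκ hρ hρ' hβ0 hβ
    (neg_le_neg hδβ) le_rfl hδ hδβ
    (Or.inr rfl) (fun u hu => (hdm u hu).mono (closedBall_subset_ball hρr)) ⟨Bm, hBm⟩
    ⟨Cm, fun u hu v hv h => hCm u hu v hv (h.trans_lt hρr)⟩ (fun ε hε => by
      obtain ⟨C, hC⟩ := step2 ε hε
      refine ⟨|Sm| + |C|, fun u hu h => ?_⟩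
      have p1 := abs_nonneg Sm
      have p2 := abs_nonneg C
      rcases h with h | h
      · exact Or.inr ⟨by linarith, by linarith [hu.2.1],
          le_exp_mono (hC u ⟨hu.1, hu.2.1, by linarith⟩).2 (by linarith) le_rfl⟩
      · exact Or.inl (le_exp_mono (hSm u ⟨hu.1, by linarith, hu.2.2⟩) (by linarith) le_rfl))
  have hsin : 0 < Real.sin (δ / 4) := Real.sin_pos_of_pos_of_lt_pi (by linarith) (by linarith)
  refine ⟨κ / 2 * Real.sin (δ / 4), |C1| + |C2|, by positivity, fun u hu => ?_⟩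
  have p1 := abs_nonneg C1
  have p2 := abs_nonneg C2
  exact ⟨le_exp_mono (hC1 u ⟨hu.1, by linarith [hu.2.1], by linarith [hu.2.2]⟩ (abs_le.2 hu.2))
      (by linarith) le_rfl,
    le_exp_mono (hC2 u ⟨hu.1, by linarith [hu.2.1], by linarith [hu.2.2]⟩ (abs_le.2 hu.2))
      (by linarith) le_rfl⟩

end Vale.Agent.P218F
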