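import Mathlib

/-! Block F of P218: interface between the end solver (block E) and the static estimate (block D).
Parameters `ξ : ι → ℂ`; the coordinates `i ∈ I` are the end parameters `α_i`. -/

open Complex

namespace Vale.Agent.P218F

variable {ι : Type} [Fintype ι] [DecidableEq ι]

/-- real points -/
def re2c (x : ι → ℝ) : ι → ℂ := fun i => (x i : ℂ)

/-- The polydisc on which the truncation number `R` lives. -/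
def Dom (I : Finset ι) (c r : ℝ) (R : ℕ) : Set (ι → ℂ) :=
  {ξ | ‖ξ‖ < r ∧ ∀ i ∈ I, ‖ξ i‖ < c / R}

/-- A family of truncations `F R`, holomorphic on shrinking polydiscs, exponentially close to each
other. -/
structure IsGF (I : Finset ι) (c r κ : ℝ) (R0 : ℕ) (F : ℕ → (ι → ℂ) → ℂ) : Prop where
  c_pos : 0 < c
  r_pos : 0 < r
  κ_pos : 0 < κ
  R0_pos : 1 ≤ R0
  diff : ∀ R, R0 ≤ R → DifferentiableOn ℂ (F R) (Dom I c r R)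
  bdd : ∃ C : ℝ, ∀ ξ ∈ Dom I c r R0, ‖F R0 ξ‖ ≤ C
  step : ∃ C : ℝ, ∀ R, R0 ≤ R → ∀ ξ ∈ Dom I c r (R + 1),
    ‖F (R + 1) ξ - F R ξ‖ ≤ C * Real.exp (-(κ * R))

/-- The family is real at real points. -/
def IsRealFam (I : Finset ι) (c r : ℝ) (R0 : ℕ) (F : ℕ → (ι → ℂ) → ℂ) : Prop :=
  ∀ R, R0 ≤ R → ∀ x : ι → ℝ, re2c x ∈ Dom I c r R → (F R (re2c x)).im = 0

/-- The box of parameters with `α ≈ a τ`. -/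
def Box (I : Finset ι) (a : ι → ℝ) (K : ℕ) (η : ℝ) (τ : ℂ) : Set (ι → ℂ) :=
  {ξ | ‖ξ‖ ^ K < η * ‖τ‖ ∧ ∀ i ∈ I, ‖ξ i - a i * τ‖ < η * ‖τ‖}

/-- polar coordinates -/
noncomputable def pol (ρ φ : ℝ) : ℂ := (ρ : ℂ) * exp ((φ : ℂ) * Complex.I)

/-- One family of continuations `G ρ φ`, one for each `τ = ρ e^{i s φ}` with `0 < ρ < η` and
`φ ∈ [-δ, β]` (`s = 1` or `s = -1`). The number `e` is the Stokes exponent. -/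
structure SecFam (I : Finset ι) (c r : ℝ) (R0 : ℕ) (F : ℕ → (ι → ℂ) → ℂ) (a : ι → ℝ) (K : ℕ)
    (κ0 e κ δ β η s : ℝ) (G : ℝ → ℝ → (ι → ℂ) → ℂ) : Prop where
  diff : ∀ ρ ∈ Set.Ioo 0 η, ∀ φ ∈ Set.Icc (-δ) β,
    DifferentiableOn ℂ (G ρ φ) (Box I a K η (pol ρ (s * φ)))
  near : ∃ C : ℝ, ∀ ρ ∈ Set.Ioo 0 η, ∀ φ ∈ Set.Icc (-δ) β,
    ∀ ξ ∈ Box I a K η (pol ρ (s * φ)), ∃ R, R0 ≤ R ∧ κ0 ≤ R * ρ ∧ ξ ∈ Dom I c r R ∧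
      ‖G ρ φ ξ - F R ξ‖ ≤ C * Real.exp (-(min κ0 (e * Real.cos φ + κ) / ρ))
  glue : ∃ C : ℝ, ∀ ρ ∈ Set.Ioo 0 η, ∀ φ ∈ Set.Icc (-δ) β,
    ∀ ρ' ∈ Set.Ioo 0 η, ∀ φ' ∈ Set.Icc (-δ) β, |ρ' - ρ| < η * ρ → |φ' - φ| < η →
    ∀ ξ ∈ Box I a K η (pol ρ (s * φ)) ∩ Box I a K η (pol ρ' (s * φ')),
      ‖G ρ φ ξ - G ρ' φ' ξ‖ ≤ C * Real.exp (-((e * Real.cos φ + κ) / ρ))

/-- The sum of the Stokes terms of the active ends. -/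
noncomputable def stokesSum (I : Finset ι) (a : ι → ℝ) (P A : ι → MvPolynomial ι ℝ) (w : ι → ℝ)
    (ξ : ι → ℂ) : ℂ :=
  ∑ i ∈ I.filter (fun i => a i < 0),
    (w i : ℂ) * exp (MvPolynomial.aeval ξ (P i) / MvPolynomial.aeval ξ (A i))

/-- The sum of the absolute values of the Stokes terms. -/
noncomputable def stokesAbs (I : Finset ι) (a : ι → ℝ) (P A : ι → MvPolynomial ι ℝ) (w : ι → ℝ)
    (ξ : ι → ℂ) : ℝ :=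
  ∑ i ∈ I.filter (fun i => a i < 0),
    w i * ‖exp (MvPolynomial.aeval ξ (P i) / MvPolynomial.aeval ξ (A i))‖

/-- The Stokes jump between the two continuations in the direction `0`: either for the values or
for the derivatives. -/
def Jump (I : Finset ι) (a : ι → ℝ) (K : ℕ) (P A : ι → MvPolynomial ι ℝ) (e κ η : ℝ)
    (Gp Gm : ℝ → (ι → ℂ) → ℂ) : Prop :=
  ∃ (w : ι → ℝ) (k : ℕ) (B : ℝ → ℂ) (C : ℝ), (∀ i ∈ I, a i < 0 → 0 < w i) ∧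
    (∀ ρ ∈ Set.Ioo 0 η, ρ ^ k ≤ C * ‖B ρ‖ ∧ ‖B ρ‖ * ρ ^ k ≤ C) ∧
    ((∀ ρ ∈ Set.Ioo 0 η, ∀ ξ ∈ Box I a K η ρ,
        ‖Gp ρ ξ - Gm ρ ξ - B ρ * stokesSum I a P A w ξ‖ ≤
          1 / 2 * ‖B ρ‖ * stokesAbs I a P A w ξ + C * Real.exp (-((e + κ) / ρ))) ∨
     (∀ ρ ∈ Set.Ioo 0 η, ∀ ξ ∈ Box I a K η ρ, ∀ v ∈ Box I a K η ρ,
        ‖fderiv ℂ (Gp ρ) ξ v - fderiv ℂ (Gm ρ) ξ v - B ρ * stokesSum I a P A w ξ‖ ≤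
          1 / 2 * ‖B ρ‖ * stokesAbs I a P A w ξ + C * Real.exp (-((e + κ) / ρ))))

/-- What the end solver has to deliver. -/
def StokesHyp (I : Finset ι) (c r : ℝ) (R0 : ℕ) (F : ℕ → (ι → ℂ) → ℂ) : Prop :=
  ∀ K : ℕ, 2 ≤ K → ∃ (P : ι → MvPolynomial ι ℝ) (m : ι → ι → MvPolynomial ι ℝ),
    (∀ i ∈ I, 0 < MvPolynomial.constantCoeff (P i)) ∧
    (∀ i ∈ I, ∀ j ∈ I, MvPolynomial.constantCoeff (m i j) = 0) ∧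
    ∀ (a : ι → ℝ) (e : ℝ),
      IsLeast {x | ∃ i ∈ I, a i < 0 ∧ x = MvPolynomial.constantCoeff (P i) / |a i|} e →
      ∃ κ0 : ℝ, 0 < κ0 ∧ ∀ β ∈ Set.Ioo 0 (Real.pi / 2), ∃ κ δ η : ℝ, 0 < κ ∧ 0 < δ ∧ 0 < η ∧
        ∃ Gp Gm : ℝ → ℝ → (ι → ℂ) → ℂ,
          SecFam I c r R0 F a K κ0 e κ δ β η 1 Gp ∧ SecFam I c r R0 F a K κ0 e κ δ β η (-1) Gm ∧
          Jump I a K P (fun i => MvPolynomial.X i + ∑ j ∈ I, m i j * MvPolynomial.X j) e κ η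
            (fun ρ => Gp ρ 0) (fun ρ => Gm ρ 0)

/-- What the static estimate gets back. -/
def Concl (I : Finset ι) (c : ℝ) (R0 : ℕ) (F : ℕ → (ι → ℂ) → ℂ) : Prop :=
  ∃ (f0 θ C ρ κ' : ℝ) (N : ℕ), 1 / 2 ≤ θ ∧ θ < 1 ∧ 0 < C ∧ 0 < ρ ∧ 0 < κ' ∧
    Filter.Tendsto (fun R => F R 0) Filter.atTop (nhds (f0 : ℂ)) ∧
    ∀ R, R0 ≤ R → ∀ x : ι → ℝ, re2c x ∈ Dom I (c / 2) ρ R →
      (∀ i ∈ I, |x i| ^ N ≤ C * (‖fderiv ℂ (F R) (re2c x)‖ + Real.exp (-(κ' * R)))) ∧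
      ‖F R (re2c x) - f0‖ ^ θ ≤ C * (‖fderiv ℂ (F R) (re2c x)‖ + Real.exp (-(κ' * R)))

/-- Statement of the theorem of block F. -/
def BlockF : Prop :=
  ∀ (ι : Type) [Fintype ι] [DecidableEq ι] (I : Finset ι) (c r κ : ℝ) (R0 : ℕ)
    (F : ℕ → (ι → ℂ) → ℂ), IsGF I c r κ R0 F → IsRealFam I c r R0 F → StokesHyp I c r R0 F →
      Concl I c R0 F

end Vale.Agent.P218F
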