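import Vale.Agent.P218F.Defs

/-! Block F of P218: the form of the Stokes hypothesis with a jump of the values, required only
for directions `a` whose dominant end is active. -/

open Complex

namespace Vale.Agent.P218F

variable {ι : Type} [Fintype ι] [DecidableEq ι]

/-- The Stokes jump between the values of the two continuations in the direction `0`. -/
def JumpV (I : Finset ι) (a : ι → ℝ) (K : ℕ) (P A : ι → MvPolynomial ι ℝ) (e κ η : ℝ)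
    (Gp Gm : ℝ → (ι → ℂ) → ℂ) : Prop :=
  ∃ (w : ι → ℝ) (k : ℕ) (B : ℝ → ℂ) (C : ℝ), (∀ i ∈ I, a i < 0 → 0 < w i) ∧
    (∀ ρ ∈ Set.Ioo 0 η, ρ ^ k ≤ C * ‖B ρ‖ ∧ ‖B ρ‖ * ρ ^ k ≤ C) ∧
    ∀ ρ ∈ Set.Ioo 0 η, ∀ ξ ∈ Box I a K η ρ,
      ‖Gp ρ ξ - Gm ρ ξ - B ρ * stokesSum I a P A w ξ‖ ≤
        1 / 2 * ‖B ρ‖ * stokesAbs I a P A w ξ + C * Real.exp (-((e + κ) / ρ))

/-- What the end solver has to deliver. -/
def StokesHypV (I : Finset ι) (c r : ℝ) (R0 : ℕ) (F : ℕ → (ι → ℂ) → ℂ) : Prop :=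
  ∀ K : ℕ, 2 ≤ K → ∃ (P : ι → MvPolynomial ι ℝ) (m : ι → ι → MvPolynomial ι ℝ),
    (∀ i ∈ I, 0 < MvPolynomial.constantCoeff (P i)) ∧
    (∀ i ∈ I, ∀ j ∈ I, MvPolynomial.constantCoeff (m i j) = 0) ∧
    ∀ (a : ι → ℝ) (e : ℝ),
      IsLeast {x | ∃ i ∈ I, a i < 0 ∧ x = MvPolynomial.constantCoeff (P i) / |a i|} e →
      (∀ i ∈ I, e * |a i| ≤ MvPolynomial.constantCoeff (P i)) →
      ∃ κ0 : ℝ, 0 < κ0 ∧ ∀ β ∈ Set.Ioo 0 (Real.pi / 2), ∃ κ δ η : ℝ, 0 < κ ∧ 0 < δ ∧ 0 < η ∧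
        ∃ Gp Gm : ℝ → ℝ → (ι → ℂ) → ℂ,
          SecFam I c r R0 F a K κ0 e κ δ β η 1 Gp ∧ SecFam I c r R0 F a K κ0 e κ δ β η (-1) Gm ∧
          JumpV I a K P (fun i => MvPolynomial.X i + ∑ j ∈ I, m i j * MvPolynomial.X j) e κ η
            (fun ρ => Gp ρ 0) (fun ρ => Gm ρ 0)

/-- Statement of the theorem of block F. -/
def BlockFV : Prop :=
  ∀ (ι : Type) [Fintype ι] [DecidableEq ι] (I : Finset ι) (c r κ : ℝ) (R0 : ℕ)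
    (F : ℕ → (ι → ℂ) → ℂ), IsGF I c r κ R0 F → IsRealFam I c r R0 F → StokesHypV I c r R0 F →
      Concl I c R0 F

end Vale.Agent.P218F
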