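import Vale.Agent.P218F.Asym
import Vale.Agent.P218N.F.Tay

/-! Expansion of a family of truncations in a group of coordinates. -/

open Complex Metric Filter Topology

namespace Vale.Agent.P218F

set_option linter.unusedSectionVars false

variable {ι : Type} [Fintype ι] [DecidableEq ι]

/-- scaling of the coordinates in `J` -/
def scl (J : Finset ι) (s : ℂ) (ξ : ι → ℂ) : ι → ℂ := fun i => if i ∈ J then s * ξ i else ξ i

/-- the coordinates in `J` -/
def prj (J : Finset ι) (ξ : ι → ℂ) : ι → ℂ := fun i => if i ∈ J then ξ i else 0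

theorem scl_eq (J : Finset ι) (s : ℂ) (ξ : ι → ℂ) : scl J s ξ = scl J 0 ξ + s • prj J ξ := by
  funext i
  by_cases h : i ∈ J <;> simp [scl, prj, h]

theorem scl_one (J : Finset ι) (ξ : ι → ℂ) : scl J 1 ξ = ξ := by
  funext i
  simp [scl]

theorem scl_zero_scl (J : Finset ι) (s : ℂ) (ξ : ι → ℂ) : scl J 0 (scl J s ξ) = scl J 0 ξ := by
  funext i
  by_cases h : i ∈ J <;> simp [scl, h]

theorem prj_scl (J : Finset ι) (s : ℂ) (ξ : ι → ℂ) : prj J (scl J s ξ) = s • prj J ξ := by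
  funext i
  by_cases h : i ∈ J <;> simp [scl, prj, h]

theorem prj_univ (ξ : ι → ℂ) : prj Finset.univ ξ = ξ := by
  funext i
  simp [prj]

theorem norm_le_of_forall {y ξ : ι → ℂ} (h : ∀ i, ‖y i‖ ≤ ‖ξ i‖) : ‖y‖ ≤ ‖ξ‖ :=
  (pi_norm_le_iff_of_nonneg (norm_nonneg _)).2 fun i => (h i).trans (norm_le_pi_norm ξ i)

theorem norm_scl_apply_le (J : Finset ι) {s : ℂ} (hs : ‖s‖ ≤ 1) (ξ : ι → ℂ) (i : ι) :
    ‖scl J s ξ i‖ ≤ ‖ξ i‖ := by
  by_cases h : i ∈ J
  · simp only [scl, h, if_true, norm_mul]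
    exact mul_le_of_le_one_left (norm_nonneg _) hs
  · simp [scl, h]

theorem norm_prj_le (J : Finset ι) (ξ : ι → ℂ) : ‖prj J ξ‖ ≤ ‖ξ‖ :=
  norm_le_of_forall fun i => by
    by_cases h : i ∈ J <;> simp [prj, h]

theorem norm_le_norm_prj {J : Finset ι} (ξ : ι → ℂ) {i : ι} (h : i ∈ J) : ‖ξ i‖ ≤ ‖prj J ξ‖ := by
  simpa [prj, h] using norm_le_pi_norm (prj J ξ) i

theorem Par.solid (P : Par ι) {θ : ℝ} {R : ℕ} {y ξ : ι → ℂ} (h : ∀ i, ‖y i‖ ≤ ‖ξ i‖)
    (hξ : ξ ∈ P.dom θ R) : y ∈ P.dom θ R :=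
  ⟨(norm_le_of_forall h).trans_lt hξ.1, fun i hi => (h i).trans_lt (hξ.2 i hi)⟩

theorem Par.scale_pos (P : Par ι) {θ : ℝ} (h0 : 0 < θ) {R : ℕ} (hR : 1 ≤ R) : 0 < θ * P.c / R := by
  have := P.hc
  have : (0 : ℝ) < R := by exact_mod_cast hR
  positivity

theorem Par.mem_dom_iff (P : Par ι) {θ : ℝ} (h0 : 0 < θ) {R : ℕ} (hR : 1 ≤ R) {ξ : ι → ℂ} :
    ξ ∈ P.dom θ R ↔ ‖ξ‖ < θ * P.r ∧ ‖prj P.I ξ‖ < θ * P.c / R := by
  refine and_congr_right fun _ => ⟨fun h => ?_, fun h i hi => (norm_le_norm_prj ξ hi).trans_lt h⟩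
  refine (pi_norm_lt_iff (P.scale_pos h0 hR)).2 fun i => ?_
  by_cases hi : i ∈ P.I
  · simpa [prj, hi] using h i hi
  · simpa [prj, hi] using P.scale_pos h0 hR

theorem Par.scl_zero_mem (P : Par ι) {J : Finset ι} (hJ : P.I ⊆ J) {θ : ℝ} (h0 : 0 < θ) {R : ℕ}
    (hR : 1 ≤ R) {ξ : ι → ℂ} (h : ‖ξ‖ < θ * P.r) : scl J 0 ξ ∈ P.dom θ R :=
  ⟨(norm_le_of_forall (norm_scl_apply_le J (by simp) ξ)).trans_lt h, fun i hi => by
    simpa [scl, hJ hi] using P.scale_pos h0 hR⟩

theorem Par.small_mem (P : Par ι) {θ : ℝ} (h0 : 0 < θ) {R : ℕ} (hR : 1 ≤ R) {ξ : ι → ℂ}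
    (h : ‖ξ‖ < θ * P.m / R) : ξ ∈ P.dom θ R := by
  have a1 : (1 : ℝ) ≤ R := by exact_mod_cast hR
  have hm := P.m_pos
  refine ⟨h.trans_le ((div_le_self (by positivity) a1).trans ?_), fun i _ =>
    (norm_le_pi_norm ξ i).trans_lt (h.trans_le ?_)⟩
  · gcongr
    exact P.m_le_r
  · gcongr
    exact P.m_le_c

theorem tendsto_exp_neg {a : ℝ} (ha : 0 < a) (C : ℝ) :
    Tendsto (fun R : ℕ => C * Real.exp (-(a * R))) atTop (𝓝 0) := by
  have := (Real.tendsto_exp_neg_atTop_nhds_zero.comp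
    (tendsto_natCast_atTop_atTop.const_mul_atTop ha)).const_mul C
  rwa [mul_zero] at this

theorem exp_le_inv_pow {a : ℝ} (ha : 0 < a) (K : ℕ) :
    ∃ C : ℝ, 0 ≤ C ∧ ∀ R : ℕ, 1 ≤ R → Real.exp (-(a * R)) ≤ C / (R : ℝ) ^ K := by
  obtain ⟨C, hC, h⟩ := pow_mul_exp_le K ha
  refine ⟨C, hC, fun R hR => ?_⟩
  have a1 : (0 : ℝ) < R := by exact_mod_cast hR
  rw [le_div_iff₀ (by positivity), mul_comm]
  refine le_trans ?_ (h R a1.le)
  gcongr
  linarith

theorem norm_sub_lim_le {u : ℕ → ℂ} {ε : ℕ → ℝ} {R0 : ℕ} (hε : Tendsto ε atTop (𝓝 0))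
    (h : ∀ R, R0 ≤ R → ∀ R', R ≤ R' → ‖u R' - u R‖ ≤ ε R) {R : ℕ} (hR : R0 ≤ R) :
    ‖u R - limUnder atTop u‖ ≤ ε R := by
  have h1 : CauchySeq u := by
    refine Metric.cauchySeq_iff'.2 fun δ hδ => ?_
    obtain ⟨N, hN⟩ := ((hε.eventually (gt_mem_nhds hδ)).and (eventually_ge_atTop R0)).exists
    exact ⟨N, fun n hn => by rw [dist_eq_norm]; exact (h N hN.2 n hn).trans_lt hN.1⟩
  have h2 : Tendsto (fun n => ‖u R - u n‖) atTop (𝓝 ‖u R - limUnder atTop u‖) :=
    (tendsto_const_nhds.sub h1.tendsto_limUnder).norm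
  refine le_of_tendsto h2 ((eventually_ge_atTop R).mono fun n hn => ?_)
  rw [norm_sub_rev]
  exact h R hR n hn

/-- A bound on all admissible scales. -/
theorem bound_of_scales {a : ℝ} (ha : 0 < a) {R0 : ℕ} (hR0 : 1 ≤ R0) (K : ℕ) {t y C : ℝ}
    (ht0 : 0 ≤ t) (ht : t < a / R0) (hC : 0 ≤ C)
    (h : ∀ R : ℕ, R0 ≤ R → t < a / R → y ≤ C / (R : ℝ) ^ K) : y ≤ C * (2 / a) ^ K * t ^ K := by
  have a0 : (0 : ℝ) < R0 := by exact_mod_cast hR0
  rcases ht0.eq_or_lt with rfl | ht0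
  · rcases Nat.eq_zero_or_pos K with rfl | hK
    · simpa using h R0 le_rfl ht
    · rw [zero_pow hK.ne', mul_zero]
      have h1 : Tendsto (fun R : ℕ => C / (R : ℝ) ^ K) atTop (𝓝 0) :=
        ((tendsto_pow_atTop hK.ne').comp tendsto_natCast_atTop_atTop).const_div_atTop C
      refine ge_of_tendsto h1 ((eventually_ge_atTop R0).mono fun R hR => h R hR ?_)
      have : (0 : ℝ) < R := by exact_mod_cast hR0.trans hR
      positivity
  · obtain ⟨R, hR⟩ : ∃ R : ℕ, ⌈a / t⌉₊ = R + 1 :=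
      Nat.exists_eq_succ_of_ne_zero (Nat.ceil_pos.2 (by positivity)).ne'
    have h1 : (R : ℝ) < a / t := Nat.lt_ceil.1 (by omega)
    have h2 : a / t ≤ R + 1 := by
      have := Nat.le_ceil (a / t)
      rwa [hR, Nat.cast_succ] at this
    have h3 : R0 ≤ R := by
      have : (R0 : ℝ) < a / t := by
        rw [lt_div_iff₀ ht0, mul_comm]
        exact (lt_div_iff₀ a0).1 ht
      have := Nat.lt_ceil.2 this
      omega
    have h4 : (1 : ℝ) ≤ R := by exact_mod_cast hR0.trans h3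
    refine (h R h3 ?_).trans ?_
    · rw [lt_div_iff₀ (by linarith), mul_comm]
      exact (lt_div_iff₀ ht0).1 h1
    · rw [mul_assoc, ← mul_pow, div_eq_mul_inv, ← inv_pow]
      gcongr
      rw [div_le_iff₀ ht0] at h2
      rw [inv_eq_one_div, div_mul_eq_mul_div, div_le_div_iff₀ (by linarith) ha]
      nlinarith

/-- the limit on the locus where the coordinates in `J` vanish -/
noncomputable def lim0 (J : Finset ι) (F : ℕ → (ι → ℂ) → ℂ) (ξ : ι → ℂ) : ℂ :=
  limUnder atTop fun R => F R (scl J 0 ξ)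

theorem GFo.lim0_est {P : Par ι} {F : ℕ → (ι → ℂ) → ℂ} (h : GFo P F) {J : Finset ι}
    (hJ : P.I ⊆ J) {θ : ℝ} (h0 : 0 < θ) (h1 : θ < 1) : ∃ C : ℝ, 0 ≤ C ∧ ∀ R, P.R0 ≤ R →
      ∀ ξ : ι → ℂ, ‖ξ‖ < θ * P.r →
        ‖F R (scl J 0 ξ) - lim0 J F ξ‖ ≤ C * Real.exp (-(θ * P.κ * R)) := by
  obtain ⟨C, hC, e⟩ := h.pair h0 h1
  exact ⟨C, hC, fun R hR ξ hξ => norm_sub_lim_le (u := fun R => F R (scl J 0 ξ))
    (tendsto_exp_neg (mul_pos h0 P.hκ) C) (fun R hR R' hR' => (e R hR).2 R' hR' _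
      (P.scl_zero_mem hJ h0 (P.hR.trans (hR.trans hR')) hξ)) hR⟩

/-- `T` approximates the family up to order `K` in the coordinates in `J`. -/
def Apx (P : Par ι) (J : Finset ι) (F : ℕ → (ι → ℂ) → ℂ) (K : ℕ) (T : (ι → ℂ) → ℂ) : Prop :=
  ∀ θ : ℝ, 0 < θ → θ < 1 → ∃ C : ℝ, 0 ≤ C ∧ ∀ R, P.R0 ≤ R → ∀ ξ ∈ P.dom θ R,
    ‖F R ξ - T ξ‖ ≤ C * (‖prj J ξ‖ ^ K + Real.exp (-(θ * P.κ * R)))

section Expand

variable {P : Par ι} {J : Finset ι} {Good : ((ι → ℂ) → ℂ) → Prop}

theorem good_sum (gz : Good fun _ => 0)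
    (ga : ∀ f g, Good f → Good g → Good fun ξ => f ξ + g ξ) {κ : Type} (s : Finset κ)
    {f : κ → (ι → ℂ) → ℂ} (hf : ∀ k, Good (f k)) : Good fun ξ => ∑ k ∈ s, f k ξ := by
  classical
  induction s using Finset.induction_on with
  | empty => simpa using gz
  | insert a s ha ih =>
    simp only [Finset.sum_insert ha]
    exact ga _ _ (hf a) ih

theorem expand_aux (hJ : P.I ⊆ J) (g0 : ∀ F, GFo P F → Good (lim0 J F)) (gz : Good fun _ => 0)
    (ga : ∀ f g, Good f → Good g → Good fun ξ => f ξ + g ξ)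
    (gm : ∀ (a : ℝ) j g, Good g → Good fun ξ => a * ξ j * g ξ) (K : ℕ) :
    ∀ F, GFo P F → ∃ q : ℕ → (ι → ℂ) → ℂ, (∀ k, Good (q k)) ∧
      (∀ k s ξ, q k (scl J s ξ) = s ^ k * q k ξ) ∧
      Apx P J F K fun ξ => ∑ k ∈ Finset.range K, q k ξ := by
  induction K with
  | zero =>
    intro F hF
    refine ⟨fun _ _ => 0, fun _ => gz, fun _ _ _ => by simp, fun θ h0 h1 => ?_⟩
    obtain ⟨C, hC, e⟩ := hF.pair h0 h1
    refine ⟨C, hC, fun R hR ξ hξ => ?_⟩
    have := (e R hR).1 ξ hξ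
    have := mul_nonneg hC (Real.exp_pos (-(θ * P.κ * R))).le
    simp only [Finset.range_zero, Finset.sum_empty, sub_zero, pow_zero]
    linarith
  | succ K ih =>
    intro F hF
    choose q hq1 hq2 hq3 using fun j => ih _ (hF.D j)
    let q' : ℕ → (ι → ℂ) → ℂ := fun k ξ =>
      ∑ j, ((if j ∈ J then 1 / ((k : ℝ) + 1) else 0 : ℝ) : ℂ) * ξ j * q j k ξ
    have hq' : ∀ (k : ℕ) ξ, ((k : ℂ) + 1) * q' k ξ = ∑ j, prj J ξ j * q j k ξ := by
      intro k ξ
      rw [Finset.mul_sum]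
      refine Finset.sum_congr rfl fun j _ => ?_
      have : (k : ℂ) + 1 ≠ 0 := by exact_mod_cast Nat.succ_ne_zero k
      by_cases hj : j ∈ J
      · simp only [prj, hj, if_true]
        push_cast
        field_simp
      · simp [prj, hj]
    refine ⟨fun k => Nat.casesOn k (lim0 J F) q', fun k => ?_, fun k s ξ => ?_, fun θ h0 h1 => ?_⟩
    · cases k with
      | zero => exact g0 F hF
      | succ k => exact good_sum gz ga _ fun j => gm _ j _ (hq1 j k)
    · cases k with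
      | zero => simp [lim0, scl_zero_scl]
      | succ k =>
        show q' k _ = _ * q' k _
        simp only [q', Finset.mul_sum]
        refine Finset.sum_congr rfl fun j _ => ?_
        rw [hq2]
        by_cases hj : j ∈ J
        · simp only [scl, hj, if_true]
          ring
        · simp [hj]
    · choose C hC e using fun j => hq3 j θ h0 h1
      obtain ⟨C0, hC0, e0⟩ := hF.lim0_est hJ h0 h1
      have hr := P.hr
      have hS : 0 ≤ ∑ j, C j := Finset.sum_nonneg fun j _ => hC j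
      refine ⟨(∑ j, C j) * (1 + P.r) + C0, by positivity, fun R hR ξ hξ => ?_⟩
      have hR1 : 1 ≤ R := P.hR.trans hR
      set E := Real.exp (-(θ * P.κ * R)) with hE
      have hE0 : 0 < E := Real.exp_pos _
      set n := ‖prj J ξ‖ with hn
      have hn0 : 0 ≤ n := norm_nonneg _
      have hn1 : n ≤ P.r := (norm_prj_le J ξ).trans (P.norm_lt h1.le hξ).le
      have hder : ∀ s ∈ closedBall (0 : ℂ) 1, HasDerivWithinAt
          (fun s => F R (scl J s ξ) - ∑ k ∈ Finset.range K, s ^ (k + 1) * q' k ξ)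
          (∑ j, prj J ξ j * (D j (F R) (scl J s ξ) - ∑ k ∈ Finset.range K, q j k (scl J s ξ)))
          (closedBall 0 1) s := by
        intro s hs
        have h2 : scl J s ξ ∈ P.dom 1 R := P.dom_mono zero_le_one h1.le hR1 le_rfl
          (P.solid (norm_scl_apply_le J (mem_closedBall_zero_iff.1 hs) ξ) hξ)
        have h3 : HasDerivAt (fun s => scl J s ξ) (prj J ξ) s := by
          rw [show (fun s => scl J s ξ) = fun s => scl J 0 ξ + s • prj J ξ from
            funext fun s => scl_eq J s ξ]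
          simpa using ((hasDerivAt_id s).smul_const (prj J ξ)).const_add (scl J 0 ξ)
        have h4 := ((hF.diff R hR).differentiableAt
          ((P.isOpen_dom 1 R).mem_nhds h2)).hasFDerivAt.comp_hasDerivAt s h3
        have h5 : HasDerivAt (fun s : ℂ => ∑ k ∈ Finset.range K, s ^ (k + 1) * q' k ξ)
            (∑ k ∈ Finset.range K, ((k + 1 : ℕ) : ℂ) * s ^ k * q' k ξ) s :=
          HasDerivAt.fun_sum fun k _ => (hasDerivAt_pow (k + 1) s).mul_const _
        refine ((h4.sub h5).congr_deriv ?_).hasDerivWithinAt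
        simp only [fderiv_apply_eq_sum, mul_sub, Finset.sum_sub_distrib, Finset.mul_sum]
        congr 1
        rw [Finset.sum_comm]
        refine Finset.sum_congr rfl fun k _ => ?_
        rw [mul_right_comm, Nat.cast_succ, hq', Finset.sum_mul]
        refine Finset.sum_congr rfl fun j _ => ?_
        rw [hq2]
        ring
      have hbd : ∀ s ∈ closedBall (0 : ℂ) 1,
          ‖∑ j, prj J ξ j * (D j (F R) (scl J s ξ) - ∑ k ∈ Finset.range K, q j k (scl J s ξ))‖ ≤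
            (∑ j, C j) * (n * (n ^ K + E)) := by
        intro s hs
        have hs1 := mem_closedBall_zero_iff.1 hs
        rw [Finset.sum_mul]
        refine (norm_sum_le _ _).trans (Finset.sum_le_sum fun j _ => ?_)
        have h2 := e j R hR _ (P.solid (norm_scl_apply_le J hs1 ξ) hξ)
        have h3 : ‖prj J (scl J s ξ)‖ ≤ n := by
          rw [prj_scl, norm_smul]
          exact mul_le_of_le_one_left hn0 hs1
        have h4 := hC j
        rw [norm_mul, mul_left_comm]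
        refine mul_le_mul (norm_le_pi_norm _ j) (h2.trans ?_) (norm_nonneg _) hn0
        gcongr
      have h6 := (convex_closedBall (0 : ℂ) 1).norm_image_sub_le_of_norm_hasDerivWithin_le
        hder hbd (mem_closedBall_self zero_le_one) (show (1 : ℂ) ∈ closedBall 0 1 by simp)
      simp only [scl_one, one_pow, one_mul, sub_zero, norm_one, mul_one, zero_pow, ne_eq,
        Nat.add_eq_zero_iff, one_ne_zero, and_false, not_false_eq_true, zero_mul,
        Finset.sum_const_zero] at h6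
      have h7 := e0 R hR ξ hξ.1
      have h8 : F R ξ - ∑ k ∈ Finset.range (K + 1), Nat.casesOn (motive := fun _ => (ι → ℂ) → ℂ)
          k (lim0 J F) q' ξ = (F R ξ - ∑ k ∈ Finset.range K, q' k ξ - F R (scl J 0 ξ)) +
            (F R (scl J 0 ξ) - lim0 J F ξ) := by
        rw [Finset.sum_range_succ']
        show _ - (∑ k ∈ Finset.range K, q' k ξ + lim0 J F ξ) = _
        ring
      refine (le_of_eq (congrArg _ h8)).trans ((norm_add_le _ _).trans
        ((add_le_add h6 h7).trans ?_))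
      have h9 : 0 ≤ n ^ (K + 1) := by positivity
      have h10 : n * (n ^ K + E) ≤ (1 + P.r) * (n ^ (K + 1) + E) := by
        rw [mul_add, ← pow_succ']
        nlinarith [mul_le_mul_of_nonneg_right hn1 hE0.le, mul_nonneg hr.le h9]
      nlinarith [mul_le_mul_of_nonneg_left h10 hS, mul_nonneg hC0 h9]

theorem expand (hJ : P.I ⊆ J) (g0 : ∀ F, GFo P F → Good (lim0 J F)) (gz : Good fun _ => 0)
    (ga : ∀ f g, Good f → Good g → Good fun ξ => f ξ + g ξ)
    (gm : ∀ (a : ℝ) j g, Good g → Good fun ξ => a * ξ j * g ξ) (K : ℕ)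
    {F : ℕ → (ι → ℂ) → ℂ} (hF : GFo P F) : ∃ T, Good T ∧ Apx P J F K T := by
  obtain ⟨q, h1, -, h3⟩ := expand_aux hJ g0 gz ga gm K F hF
  exact ⟨_, good_sum gz ga _ h1, h3⟩

end Expand

/-- Approximation by complex polynomials. -/
theorem GFo.exists_poly {P : Par ι} {F : ℕ → (ι → ℂ) → ℂ} (hF : GFo P F) (K : ℕ) :
    ∃ a b : MvPolynomial ι ℝ, Apx P Finset.univ F K
      fun ξ => MvPolynomial.aeval ξ a + Complex.I * MvPolynomial.aeval ξ b := by
  obtain ⟨T, ⟨a, b, rfl⟩, h⟩ := expand (P := P) (J := Finset.univ)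
    (Good := fun g => ∃ a b : MvPolynomial ι ℝ,
      g = fun ξ => MvPolynomial.aeval ξ a + Complex.I * MvPolynomial.aeval ξ b)
    (Finset.subset_univ _) (fun F _ => ⟨MvPolynomial.C (lim0 Finset.univ F 0).re,
      MvPolynomial.C (lim0 Finset.univ F 0).im, funext fun ξ => by
        have : scl Finset.univ 0 ξ = scl Finset.univ 0 0 := by
          funext i
          simp [scl]
        rw [MvPolynomial.aeval_C, MvPolynomial.aeval_C, mul_comm]
        exact (by rw [lim0, this, lim0] : _ = lim0 Finset.univ F 0).trans (re_add_im _).symm⟩)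
    ⟨0, 0, by simp⟩
    (by
      rintro _ _ ⟨a, b, rfl⟩ ⟨a', b', rfl⟩
      exact ⟨a + a', b + b', funext fun ξ => by simp only [map_add]; ring⟩)
    (by
      rintro c j _ ⟨a, b, rfl⟩
      refine ⟨MvPolynomial.C c * MvPolynomial.X j * a, MvPolynomial.C c * MvPolynomial.X j * b,
        funext fun ξ => ?_⟩
      simp only [map_mul, MvPolynomial.aeval_C, MvPolynomial.aeval_X, coe_algebraMap]
      ring) K hF
  exact ⟨a, b, h⟩

/-- Approximation by holomorphic functions on the full ball. -/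
theorem GFo.exists_holo {P : Par ι} {F : ℕ → (ι → ℂ) → ℂ} (hF : GFo P F) (K : ℕ) :
    ∃ T : (ι → ℂ) → ℂ, DifferentiableOn ℂ T (ball 0 P.r) ∧ Apx P P.I F K T := by
  refine expand (P := P) (J := P.I) (Good := fun g => DifferentiableOn ℂ g (ball 0 P.r))
    Finset.Subset.rfl (fun F hF x hx => ?_) (differentiableOn_const _) (fun _ _ => .add)
    (fun c j g hg => ((differentiableOn_const _).mul
      (differentiable_apply j).differentiableOn).mul hg) K hF
  have hr := P.hr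
  have hx' : ‖x‖ / P.r < 1 := (div_lt_one hr).2 (mem_ball_zero_iff.1 hx)
  obtain ⟨θ, h0, h1⟩ := exists_between hx'
  have h2 : 0 < θ := lt_of_le_of_lt (by positivity) h0
  rw [div_lt_iff₀ hr] at h0
  obtain ⟨C, -, e⟩ := hF.lim0_est Finset.Subset.rfl h2 h1
  have h3 : ∀ y ∈ ball x (θ * P.r - ‖x‖), ‖y‖ < θ * P.r := fun y hy => by
    rw [mem_ball, dist_eq_norm] at hy
    have : ‖y‖ ≤ ‖x‖ + ‖y - x‖ := by simpa using norm_add_le x (y - x)
    linarith
  have h4 : Differentiable ℂ (scl P.I 0) := differentiable_pi.2 fun i => by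
    by_cases hi : i ∈ P.I
    · simp [scl, hi]
    · simpa [scl, hi] using differentiable_apply i
  refine (differentiableOn_of_lim (f := fun R y => F R (scl P.I 0 y)) (sub_pos.2 h0)
    (tendsto_exp_neg (mul_pos h2 P.hκ) C) ((eventually_ge_atTop P.R0).mono fun R hR =>
      ⟨(hF.diff R hR).comp h4.differentiableOn fun y hy => ?_,
        fun y hy => e R hR y (h3 y hy)⟩)).differentiableWithinAt
  have hR1 := P.hR.trans hR
  exact P.dom_mono zero_le_one h1.le hR1 le_rfl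
    (P.scl_zero_mem Finset.Subset.rfl h2 hR1 (h3 y hy))

end Vale.Agent.P218F
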