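import Vale.Agent.P218F.Decay

/-! The decay theorems for patches, stated along filters. -/

open Complex Metric Filter Topology Asymptotics

namespace Vale.Agent.P218F.NA

/-- `Re u → ∞` in `S` -/
def l1 (S : Set ℂ) : Filter ℂ := comap re atTop ⊓ 𝓟 S

/-- `Re u → ∞` in `S` and `v` close to `u` -/
def l2 (S : Set ℂ) (r : ℝ) : Filter (ℂ × ℂ) :=
  comap (fun x => x.1.re) atTop ⊓ 𝓟 {x | x.1 ∈ S ∧ dist x.2 x.1 < r}

/-- horizontal strips -/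
def T (a b : ℝ) : Set ℂ := {u | a ≤ u.im ∧ u.im ≤ b}

theorem eventually_l1 {S : Set ℂ} {p : ℂ → Prop} :
    (∀ᶠ u in l1 S, p u) ↔ ∃ L : ℝ, ∀ u ∈ S, L ≤ u.re → p u := by
  rw [l1, eventually_inf_principal, eventually_comap, eventually_atTop]
  exact ⟨fun ⟨L, h⟩ => ⟨L, fun u hu hL => h _ hL u rfl hu⟩,
    fun ⟨L, h⟩ => ⟨L, fun b hb u hu hS => h u hS (hu ▸ hb)⟩⟩

theorem eventually_l2 {S : Set ℂ} {r : ℝ} {p : ℂ × ℂ → Prop} :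
    (∀ᶠ x in l2 S r, p x) ↔ ∃ L : ℝ, ∀ u ∈ S, L ≤ u.re → ∀ v, dist v u < r → p (u, v) := by
  rw [l2, eventually_inf_principal, eventually_comap, eventually_atTop]
  exact ⟨fun ⟨L, h⟩ => ⟨L, fun u hu hL v hv => h _ hL (u, v) rfl ⟨hu, hv⟩⟩,
    fun ⟨L, h⟩ => ⟨L, fun b hb x hx hS => h x.1 hS.1 (hx ▸ hb) x.2 hS.2⟩⟩

theorem l1_mem (S : Set ℂ) : ∀ᶠ u in l1 S, u ∈ S := eventually_l1.2 ⟨0, fun _ h _ => h⟩

theorem l2_mem (S : Set ℂ) (r : ℝ) : ∀ᶠ x in l2 S r, x.1 ∈ S ∧ dist x.2 x.1 < r :=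
  eventually_l2.2 ⟨0, fun _ h _ _ h' => ⟨h, h'⟩⟩

theorem l1_mono {S S' : Set ℂ} (h : S ⊆ S') : l1 S ≤ l1 S' :=
  inf_le_inf_left _ (principal_mono.2 h)

theorem l2_mono {S S' : Set ℂ} {r r' : ℝ} (h : S ⊆ S') (hr : r ≤ r') : l2 S r ≤ l2 S' r' :=
  inf_le_inf_left _ (principal_mono.2 fun _ hx => ⟨h hx.1, hx.2.trans_le hr⟩)

theorem tendsto_re_l1 (S : Set ℂ) : Tendsto re (l1 S) atTop := tendsto_inf_left tendsto_comap

theorem tendsto_fst_l2 (S : Set ℂ) (r : ℝ) : Tendsto Prod.fst (l2 S r) (l1 S) := fun _ hs => by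
  obtain ⟨L, h⟩ := eventually_l1.1 hs
  exact eventually_l2.2 ⟨L, fun u hu hL _ _ => h u hu hL⟩

theorem tendsto_snd_l2 (S : Set ℂ) (r : ℝ) : Tendsto Prod.snd (l2 S r) (l1 Set.univ) :=
  fun _ hs => by
  obtain ⟨L, h⟩ := eventually_l1.1 hs
  refine eventually_l2.2 ⟨L + r, fun u _ hL v hv => h v trivial ?_⟩
  have := (abs_le.1 (re_sub_le_dist u v)).1
  linarith

theorem tendsto_diag (S : Set ℂ) {r : ℝ} (hr : 0 < r) :
    Tendsto (fun u => (u, u)) (l1 S) (l2 S r) := fun _ hs => by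
  obtain ⟨L, h⟩ := eventually_l2.1 hs
  exact eventually_l1.2 ⟨L, fun u hu hL => h u hu hL u (by simpa using hr)⟩

theorem tendsto_real {S S' : Set ℂ} {r : ℝ} (h0 : ∀ x : ℝ, (x : ℂ) ∈ S)
    (h : ∀ u ∈ S', |u.im| < r) : Tendsto (fun u => ((u.re : ℂ), u)) (l1 S') (l2 S r) :=
  fun _ hs => by
  obtain ⟨L, h1⟩ := eventually_l2.1 hs
  refine eventually_l1.2 ⟨L, fun u hu hL => h1 _ (h0 _) (by simpa using hL) u ?_⟩
  have : u - u.re = u.im * I := by linear_combination -(re_add_im u)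
  rw [dist_eq_norm, this]
  simpa using h u hu

theorem tendsto_ray {S : Set ℂ} {θ : ℝ} (h : ∀ x : ℝ, (x : ℂ) + θ * I ∈ S) :
    Tendsto (fun x : ℝ => (x : ℂ) + θ * I) atTop (l1 S) := fun _ hs => by
  obtain ⟨L, h1⟩ := eventually_l1.1 hs
  exact eventually_atTop.2 ⟨L, fun x hx => h1 _ (h x) (by simpa using hx)⟩

theorem upgrade {S : Set ℂ} {f : ℂ → ℂ} {g : ℂ → ℝ} {L M : ℝ}
    (hM : ∀ u ∈ S, L ≤ u.re → ‖f u‖ ≤ M) (h : f =O[l1 S] g)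
    (hg : ∀ L' : ℝ, ∃ m : ℝ, 0 < m ∧ ∀ u : ℂ, u.re ≤ L' → m ≤ g u) :
    ∃ C : ℝ, ∀ u ∈ S, L ≤ u.re → ‖f u‖ ≤ C * g u := by
  obtain ⟨C, hC, h1⟩ := h.exists_nonneg
  obtain ⟨L', h2⟩ := eventually_l1.1 h1.bound
  obtain ⟨m, hm, h3⟩ := hg L'
  refine ⟨C + |M| / m, fun u hu hL => ?_⟩
  obtain ⟨m', hm', h4⟩ := hg u.re
  have h5 : 0 < g u := hm'.trans_le (h4 u le_rfl)
  rcases le_total L' u.re with h6 | h6
  · have := h2 u hu h6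
    rw [Real.norm_of_nonneg h5.le] at this
    have : 0 ≤ |M| / m * g u := by positivity
    linarith
  · have a1 : |M| / m * m ≤ |M| / m * g u := by gcongr; exact h3 u h6
    rw [div_mul_cancel₀ _ hm.ne'] at a1
    have := hM u hu hL
    have := le_abs_self M
    have : 0 ≤ C * g u := by positivity
    linarith

/-- double exponentials -/
noncomputable def Ex (c : ℝ) (u : ℂ) : ℝ := Real.exp (c * Real.exp u.re)

/-- the size of the Stokes term -/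
noncomputable def Ej (e : ℝ) (u : ℂ) : ℝ := Real.exp (-(e * (exp u).re))

theorem Ex_pos (c : ℝ) (u : ℂ) : 0 < Ex c u := Real.exp_pos _

theorem Ej_pos (e : ℝ) (u : ℂ) : 0 < Ej e u := Real.exp_pos _

theorem Ex_add (a b : ℝ) (u : ℂ) : Ex a u * Ex b u = Ex (a + b) u := by
  rw [Ex, Ex, Ex, ← Real.exp_add, add_mul]

theorem Ex_mono {a b : ℝ} (h : a ≤ b) (u : ℂ) : Ex a u ≤ Ex b u :=
  Real.exp_le_exp.2 (mul_le_mul_of_nonneg_right h (Real.exp_pos _).le)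

theorem Ej_eq (e : ℝ) (u : ℂ) : Ej e u = Ex (-(e * Real.cos u.im)) u := by
  rw [Ej, Ex, exp_re]; congr 1; ring

theorem Ej_mul (e κ : ℝ) (u : ℂ) :
    Ej e u * Ex κ u = Real.exp (-(e * (exp u).re) + κ * Real.exp u.re) := by
  rw [Ej, Ex, ← Real.exp_add]

theorem Ej_mul' (e κ : ℝ) (u : ℂ) :
    Ej e u * Ex (-κ) u = Real.exp (-(e * (exp u).re + κ * Real.exp u.re)) := by
  rw [Ej_mul]; congr 1; ring

theorem le_O {α : Type*} {l : Filter α} {f g : α → ℝ} (h : ∀ᶠ a in l, 0 ≤ f a ∧ f a ≤ g a) :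
    f =O[l] g :=
  IsBigO.of_bound 1 (h.mono fun a ha => by
    rw [one_mul, Real.norm_of_nonneg ha.1]; exact ha.2.trans (le_abs_self _))

theorem tendsto_Ex {c : ℝ} (hc : 0 < c) (S : Set ℂ) : Tendsto (Ex (-c)) (l1 S) (𝓝 0) := by
  have h1 := (Real.tendsto_exp_atTop.comp (tendsto_re_l1 S)).const_mul_atTop hc
  refine (Real.tendsto_exp_neg_atTop_nhds_zero.comp h1).congr fun u => ?_
  simp [Ex]

theorem flat_filter {κ r : ℝ} {V : ℂ → ℂ → ℂ} (hκ : 0 < κ) (hr : 0 < r)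
    (hd : ∀ᶠ u in l1 Set.univ, DifferentiableOn ℂ (V u) (ball u r))
    (hg : (fun x : ℂ × ℂ => V x.1 x.2 - V x.2 x.2) =O[l2 Set.univ r] fun x => Ex (-κ) x.2)
    (hf : ∀ n : ℕ, (fun u => V u u) =O[l1 Set.univ] fun u => Real.exp (-(n * u.re))) :
    ∃ κ' : ℝ, 0 < κ' ∧ (fun u => V u u) =O[l1 Set.univ] Ex (-κ') := by
  obtain ⟨L1, h1⟩ := eventually_l1.1 hd
  obtain ⟨C2, h2⟩ := hg.bound
  obtain ⟨L2, h2⟩ := eventually_l2.1 h2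
  obtain ⟨C3, h3⟩ := (hf 0).bound
  obtain ⟨L3, h3⟩ := eventually_l1.1 h3
  obtain ⟨κ', C, hκ', h⟩ := flatDecay κ r (max L1 (max L2 L3)) V hκ hr
    (fun u hu => h1 u trivial ((le_max_left _ _).trans hu))
    ⟨C2, fun u v hu _ hv => by
      simpa [Ex] using h2 u trivial (((le_max_left _ _).trans (le_max_right _ _)).trans hu) v hv⟩
    fun n => by
      obtain ⟨C, hC⟩ := upgrade (L := max L1 (max L2 L3)) (M := C3) (fun u hu hL => by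
        simpa using h3 u hu (((le_max_right _ _).trans (le_max_right _ _)).trans hL)) (hf n)
        fun L' => ⟨_, Real.exp_pos (-(n * L')), fun u hu => by gcongr⟩
      exact ⟨C, fun u hu => hC u trivial hu⟩
  refine ⟨κ', hκ', IsBigO.of_bound C (eventually_l1.2 ⟨max L1 (max L2 L3), fun u _ hu => ?_⟩)⟩
  simpa [Ex] using h u hu

theorem stokes_filter {e κ β δ r : ℝ} {Vp Vm : ℂ → ℂ → ℂ} (he : 0 < e) (hκ : 0 < κ) (hβ : 0 < β)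
    (hβ' : β < Real.pi / 2) (hδ : 0 < δ) (hδβ : δ ≤ β) (hr : 0 < r)
    (dp : ∀ᶠ u in l1 (T (-β) δ), DifferentiableOn ℂ (Vp u) (ball u r))
    (dm : ∀ᶠ u in l1 (T (-δ) β), DifferentiableOn ℂ (Vm u) (ball u r))
    (gp : (fun x : ℂ × ℂ => Vp x.1 x.2 - Vp x.2 x.2) =O[l2 (T (-β) δ) r ⊓
      𝓟 {x | x.2 ∈ T (-β) δ}] fun x => Ej e x.2 * Ex (-κ) x.2)
    (gm : (fun x : ℂ × ℂ => Vm x.1 x.2 - Vm x.2 x.2) =O[l2 (T (-δ) β) r ⊓
      𝓟 {x | x.2 ∈ T (-δ) β}] fun x => Ej e x.2 * Ex (-κ) x.2)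
    (hj : ∀ ε : ℝ, 0 < ε → (fun u => Vp u u - Vm u u) =O[l1 (T (-δ) δ)] fun u => Ej e u * Ex ε u)
    (bp : (fun u => Vp u u) =O[l1 (T (-β) δ)] fun _ => (1 : ℝ))
    (bm : (fun u => Vm u u) =O[l1 (T (-δ) β)] fun _ => (1 : ℝ))
    (ep : (fun u => Vp u u) =O[l1 (T (-β) (-β + r)) ⊓ 𝓟 (T (-β) δ)] fun u => Ej e u * Ex (-κ) u)
    (em : (fun u => Vm u u) =O[l1 (T (β - r) β) ⊓ 𝓟 (T (-δ) β)] fun u => Ej e u * Ex (-κ) u)
    (hrβ : r ≤ β) :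
    ∃ κ' : ℝ, 0 < κ' ∧ ((fun u => Vp u u) =O[l1 (T (-(δ / 4)) (δ / 4))]
      fun u => Ej e u * Ex (-κ') u) ∧
      (fun u => Vm u u) =O[l1 (T (-(δ / 4)) (δ / 4))] fun u => Ej e u * Ex (-κ') u := by
  obtain ⟨L1, h1⟩ := eventually_l1.1 dp
  obtain ⟨L2, h2⟩ := eventually_l1.1 dm
  obtain ⟨C3, h3⟩ := gp.bound
  obtain ⟨L3, h3⟩ := eventually_l2.1 (eventually_inf_principal.1 h3)
  obtain ⟨C4, h4⟩ := gm.bound
  obtain ⟨L4, h4⟩ := eventually_l2.1 (eventually_inf_principal.1 h4)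
  obtain ⟨C5, h5⟩ := bp.bound
  obtain ⟨L5, h5⟩ := eventually_l1.1 h5
  obtain ⟨C6, h6⟩ := bm.bound
  obtain ⟨L6, h6⟩ := eventually_l1.1 h6
  obtain ⟨C7, h7⟩ := ep.bound
  obtain ⟨L7, h7⟩ := eventually_l1.1 (eventually_inf_principal.1 h7)
  obtain ⟨C8, h8⟩ := em.bound
  obtain ⟨L8, h8⟩ := eventually_l1.1 (eventually_inf_principal.1 h8)
  obtain ⟨L, hL⟩ : ∃ L : ℝ, L1 ≤ L ∧ L2 ≤ L ∧ L3 ≤ L ∧ L4 ≤ L ∧ L5 ≤ L ∧ L6 ≤ L ∧ L7 ≤ L ∧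
      L8 ≤ L := ((eventually_ge_atTop L1).and ((eventually_ge_atTop L2).and
        ((eventually_ge_atTop L3).and ((eventually_ge_atTop L4).and ((eventually_ge_atTop L5).and
        ((eventually_ge_atTop L6).and ((eventually_ge_atTop L7).and
        (eventually_ge_atTop L8)))))))).exists
  obtain ⟨a1, a2, a3, a4, a5, a6, a7, a8⟩ := hL
  have hn : ∀ (c : ℝ) (u : ℂ), ‖Ej e u * Ex c u‖ = Ej e u * Ex c u := fun c u =>
    Real.norm_of_nonneg (mul_pos (Ej_pos _ _) (Ex_pos _ _)).le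
  simp only [hn, norm_one, mul_one] at h3 h4 h5 h6 h7 h8
  simp only [Ej_mul'] at h3 h4 h7 h8
  obtain ⟨κ', C, hκ', h⟩ := stokesDecay e κ β δ r L Vp Vm he hκ hβ hβ' hδ hδβ hr
    (fun u hu => h1 u hu.2 (a1.trans hu.1)) (fun u hu => h2 u hu.2 (a2.trans hu.1))
    ⟨C3, fun u hu v hv hd => h3 u hu.2 (a3.trans hu.1) v hd hv.2⟩
    ⟨C4, fun u hu v hv hd => h4 u hu.2 (a4.trans hu.1) v hd hv.2⟩
    (fun ε hε => by
      obtain ⟨C, hC⟩ := upgrade (L := L) (M := C5 + C6) (fun u hu hL => (norm_sub_le _ _).trans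
        (add_le_add (h5 u ⟨by linarith [hu.1], hu.2⟩ (a5.trans hL))
          (h6 u ⟨hu.1, by linarith [hu.2]⟩ (a6.trans hL)))) (hj ε hε)
        fun L' => ⟨_, Real.exp_pos (-(e * Real.exp L')), fun u hu => by
          rw [Ej_mul, Real.exp_le_exp]
          have b1 := (abs_le.1 (re_exp_le u)).2
          have b2 := Real.exp_le_exp.2 hu
          have b3 := Real.exp_pos u.re
          nlinarith⟩
      exact ⟨C, fun u hu => by rw [← Ej_mul]; exact hC u hu.2 hu.1⟩)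
    ⟨C5, fun u hu => h5 u hu.2 (a5.trans hu.1)⟩ ⟨C6, fun u hu => h6 u hu.2 (a6.trans hu.1)⟩
    ⟨C7, fun u hu => h7 u hu.2 (a7.trans hu.1) ⟨hu.2.1, by linarith [hu.2.2]⟩⟩
    ⟨C8, fun u hu => h8 u hu.2 (a8.trans hu.1) ⟨by linarith [hu.2.1], hu.2.2⟩⟩
  refine ⟨κ', hκ', IsBigO.of_bound C (eventually_l1.2 ⟨L, fun u hu hL => ?_⟩),
    IsBigO.of_bound C (eventually_l1.2 ⟨L, fun u hu hL => ?_⟩)⟩
  · rw [hn, Ej_mul']; exact (h u ⟨hL, hu⟩).1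
  · rw [hn, Ej_mul']; exact (h u ⟨hL, hu⟩).2

end Vale.Agent.P218F.NA
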