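import Vale.Agent.P218F.Flat
import Vale.Agent.P218F.Filt

/-! Families of patches in the logarithmic variable. -/

open Complex Metric Filter Topology Asymptotics

namespace Vale.Agent.P218F.NA

set_option linter.unusedSectionVars false

variable {ι : Type} [Fintype ι] [DecidableEq ι] {α : Type}

/-- the arc parameter -/
noncomputable def tu (p : ℕ) (ω u : ℂ) : ℂ := ω * exp (-u / p)

theorem differentiable_tu (p : ℕ) (ω : ℂ) : Differentiable ℂ (tu p ω) := by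
  unfold tu; fun_prop

theorem tu_pow {p : ℕ} (hp : 1 ≤ p) (ω u : ℂ) : tu p ω u ^ p = ω ^ p * exp (-u) := by
  have : (p : ℂ) ≠ 0 := by exact_mod_cast (by omega : p ≠ 0)
  rw [tu, mul_pow, ← exp_nat_mul, mul_div_cancel₀ _ this]

theorem norm_tu_pow {p : ℕ} (hp : 1 ≤ p) {ω : ℂ} (hω : ‖ω‖ = 1) (u : ℂ) :
    ‖tu p ω u‖ ^ p = Real.exp (-u.re) := by
  rw [← norm_pow, tu_pow hp, norm_mul, norm_pow, hω, one_pow, one_mul, norm_exp, neg_re]

theorem div_tu {p : ℕ} (hp : 1 ≤ p) {ω : ℂ} (hω : ‖ω‖ = 1) (m : ℝ) (u : ℂ) :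
    m / ‖tu p ω u‖ ^ p = m * Real.exp u.re := by
  rw [norm_tu_pow hp hω, Real.exp_neg, div_inv_eq_mul]

theorem tendsto_tu {p : ℕ} (hp : 1 ≤ p) {ω : ℂ} (hω : ‖ω‖ = 1) (S : Set ℂ) :
    Tendsto (tu p ω) (l1 S) (𝓝[≠] 0) := by
  have hω0 : ω ≠ 0 := norm_pos_iff.1 (by rw [hω]; exact one_pos)
  refine tendsto_nhdsWithin_iff.2 ⟨?_, Eventually.of_forall fun u =>
    mul_ne_zero hω0 (exp_ne_zero _)⟩
  rw [tendsto_zero_iff_norm_tendsto_zero]
  have hp' : (0 : ℝ) < p := by exact_mod_cast hp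
  refine (Real.tendsto_exp_neg_atTop_nhds_zero.comp
    ((tendsto_re_l1 S).atTop_div_const hp')).congr fun u => ?_
  simp [tu, hω, norm_exp, neg_div]

theorem exp_re_le {u v : ℂ} (h : dist v u < 1) :
    Real.exp u.re ≤ 3 * Real.exp v.re ∧ Real.exp v.re ≤ 3 * Real.exp u.re := by
  have h1 := abs_le.1 (re_sub_le_dist u v)
  have h3 : Real.exp 1 ≤ 3 := by linarith [Real.exp_one_lt_d9]
  have key : ∀ x y : ℝ, x ≤ 1 + y → Real.exp x ≤ 3 * Real.exp y := fun x y hxy =>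
    (Real.exp_le_exp.2 hxy).trans (by rw [Real.exp_add]; gcongr)
  exact ⟨key _ _ (by linarith [h1.1]), key _ _ (by linarith [h1.2])⟩

theorem IsGF.pair1 {I : Finset ι} {c r κ : ℝ} {R0 : ℕ} {F : ℕ → (ι → ℂ) → ℂ}
    (h : IsGF I c r κ R0 F) : ∃ C : ℝ, 0 ≤ C ∧ ∀ R R', R0 ≤ R → R0 ≤ R' → ∀ ξ ∈ Dom I c r R,
      ξ ∈ Dom I c r R' → ∀ x : ℝ, x ≤ R → x ≤ R' → ‖F R ξ - F R' ξ‖ ≤ C * Real.exp (-(κ * x)) := by
  obtain ⟨C, st⟩ := h.step
  have hκ := h.κ_pos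
  set q := Real.exp (-κ) with hq
  have hq0 : 0 < q := Real.exp_pos _
  have hq1 : q < 1 := Real.exp_lt_one_iff.2 (by linarith)
  have hqR : ∀ R : ℕ, Real.exp (-(κ * R)) = q ^ R := fun R => by
    rw [hq, ← Real.exp_nat_mul]; congr 1; ring
  have hC' : 0 ≤ |C| / (1 - q) := div_nonneg (abs_nonneg C) (by linarith)
  have key : ∀ R, R0 ≤ R → ∀ n : ℕ, ∀ ξ ∈ Dom I c r (R + n),
      ‖F (R + n) ξ - F R ξ‖ ≤ |C| / (1 - q) * (q ^ R - q ^ (R + n)) := by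
    intro R hR n
    induction n with
    | zero => intro ξ _; simp
    | succ n ih =>
      intro ξ hξ
      have e0 := h.par.dom_mono (θ := 1) zero_le_one le_rfl (R := R + (n + 1)) (R' := R + n)
        (by have := h.R0_pos; omega) (by omega)
      rw [Par.dom_one, Par.dom_one] at e0
      have e1 := ih ξ (e0 hξ)
      have e2 := st (R + n) (by omega) ξ hξ
      rw [hqR] at e2
      have e3 : |C| / (1 - q) * (q ^ R - q ^ (R + (n + 1))) =
          |C| / (1 - q) * (q ^ R - q ^ (R + n)) + |C| * q ^ (R + n) := by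
        have : 1 - q ≠ 0 := by linarith
        rw [← add_assoc, pow_succ]; field_simp; ring
      have e4 : C * q ^ (R + n) ≤ |C| * q ^ (R + n) := by gcongr; exact le_abs_self C
      rw [e3]
      calc ‖F (R + (n + 1)) ξ - F R ξ‖
          = ‖(F (R + n) ξ - F R ξ) + (F (R + n + 1) ξ - F (R + n) ξ)‖ := by
            congr 1; rw [← add_assoc]; ring
        _ ≤ _ := (norm_add_le _ _).trans (by linarith)
  have key2 : ∀ R, R0 ≤ R → ∀ R', R ≤ R' → ∀ ξ ∈ Dom I c r R', ∀ x : ℝ, x ≤ R →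
      ‖F R' ξ - F R ξ‖ ≤ |C| / (1 - q) * Real.exp (-(κ * x)) := by
    intro R hR R' hRR ξ hξ x hx
    obtain ⟨n, rfl⟩ := Nat.exists_eq_add_of_le hRR
    refine (key R hR n ξ hξ).trans (mul_le_mul_of_nonneg_left ?_ hC')
    have := pow_pos hq0 (R + n)
    have : Real.exp (-(κ * R)) ≤ Real.exp (-(κ * x)) := by gcongr
    linarith [hqR R]
  refine ⟨_, hC', fun R R' hR hR' ξ h1 h2 x hx hx' => ?_⟩
  rcases le_total R R' with hRR | hRR
  · rw [norm_sub_rev]; exact key2 R hR R' hRR ξ h2 x hx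
  · exact key2 R' hR' R hRR ξ h1 x hx'

namespace ArcD

variable {A : ArcD ι} {l : Filter α} {t : α → ℂ} {H H' : α → (ι → ℂ) → ℂ}

theorem good_of_close (ht : Tendsto t l (𝓝[≠] 0))
    (hd : ∀ᶠ a in l, DifferentiableOn ℂ (H a) (A.U (t a))) {m C : ℝ} (hm : 0 < m)
    (hc : ∀ᶠ a in l, ∀ y ∈ A.U (t a),
      ‖H a y - A.F (A.Rt (t a)) y‖ ≤ C * Real.exp (-(m / ‖t a‖ ^ A.p))) : A.Good l t H := by
  refine ⟨ht, hd, fun n => ?_⟩
  obtain ⟨C', hC', h⟩ := exp_flat A.hp hm n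
  refine ⟨|C| * C', ?_⟩
  filter_upwards [hc, (good_F (A := A) ht).pos, (good_F (A := A) ht).small 1 one_pos]
    with a a1 a2 a3 y hy
  have := h _ a2 (by linarith)
  calc _ ≤ _ := a1 y hy
    _ ≤ |C| * (C' * ‖t a‖ ^ n) := by gcongr; exact le_abs_self C
    _ = _ := by ring

variable (A)

/-- truncations are exponentially close up to the boundary of the domains -/
def Pair1 : Prop := ∃ C : ℝ, 0 ≤ C ∧ ∀ R R', A.P.R0 ≤ R → A.P.R0 ≤ R' →
  ∀ ξ ∈ Dom A.P.I A.P.c A.P.r R, ξ ∈ Dom A.P.I A.P.c A.P.r R' → ∀ x : ℝ, x ≤ R → x ≤ R' →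
    ‖A.F R ξ - A.F R' ξ‖ ≤ C * Real.exp (-(A.P.κ * x))

/-- the real truncation used at `u` -/
noncomputable def HF (ω u : ℂ) : (ι → ℂ) → ℂ := A.F (A.Rt (tu A.p ω u))

theorem U_Dom : ∀ᶠ t in 𝓝[≠] (0 : ℂ), A.U t ⊆ Dom A.P.I A.P.c A.P.r (A.Rt t) := by
  filter_upwards [A.U_dom_Rt, A.le_Rt] with t h1 h2
  rw [← Par.dom_one]
  exact h1.trans (A.P.dom_mono zero_le_one (by norm_num) (A.P.hR.trans h2.1) le_rfl)

variable {A} {ω : ℂ}

theorem good1_F (hω : ‖ω‖ = 1) (S : Set ℂ) : A.Good (l1 S) (tu A.p ω) (A.HF ω) :=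
  good_F (tendsto_tu A.hp hω S)

theorem tendsto_tu2 (hω : ‖ω‖ = 1) (S : Set ℂ) (r : ℝ) :
    Tendsto (fun x : ℂ × ℂ => tu A.p ω x.2) (l2 S r) (𝓝[≠] 0) :=
  (tendsto_tu A.hp hω _).comp (tendsto_snd_l2 S r)

theorem close2_F (hP : A.Pair1) (hω : ‖ω‖ = 1) : ∃ C : ℝ, ∀ᶠ x in l2 Set.univ 1,
    DifferentiableOn ℂ (A.HF ω x.1) (A.U (tu A.p ω x.2)) ∧ ∀ y ∈ A.U (tu A.p ω x.2),
      ‖A.HF ω x.1 y - A.HF ω x.2 y‖ ≤ C * Ex (-(A.P.κ * (A.k1 / 6))) x.2 := by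
  obtain ⟨C, -, h⟩ := hP
  have t1 := (tendsto_tu A.hp hω _).comp (tendsto_fst_l2 Set.univ 1)
  have t2 := tendsto_tu2 (A := A) hω Set.univ 1
  refine ⟨C, ?_⟩
  filter_upwards [l2_mem _ _, t1.eventually A.le_Rt, t1.eventually self_mem_nhdsWithin,
    t2.eventually A.le_Rt, t2.eventually A.U_Dom, t2.eventually (nhdsWithin_le_nhds A.U_dom)]
    with x a1 a2 a3 a4 a5 a6
  have hk := A.hk
  obtain ⟨b1, b2⟩ := exp_re_le a1.2
  have b3 := A.Rt_le _ a3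
  simp only [Function.comp] at a2 b3
  rw [div_tu A.hp hω] at a2 a4
  have b4 : A.U (tu A.p ω x.2) ⊆ Dom A.P.I A.P.c A.P.r (A.Rt (tu A.p ω x.1)) := by
    rw [← Par.dom_one]
    refine (a6 _ (A.P.hR.trans a2.1) ?_).trans
      (A.P.dom_mono zero_le_one (by norm_num) (A.P.hR.trans a2.1) le_rfl)
    rw [norm_tu_pow A.hp hω, Real.exp_neg, ← div_eq_mul_inv, div_le_iff₀ (Real.exp_pos _)] at b3 ⊢
    nlinarith
  refine ⟨(A.hF.diff _ a2.1).mono (by rwa [Par.dom_one]), fun y hy => ?_⟩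
  have b5 := Real.exp_pos x.2.re
  refine (h _ _ a2.1 a4.1 y (b4 hy) (a5 hy) (A.k1 / 6 * Real.exp x.2.re) (by nlinarith [a2.2])
    (by nlinarith [a4.2])).trans (le_of_eq ?_)
  rw [Ex]; congr 2; ring

theorem good2_F (hP : A.Pair1) (hω : ‖ω‖ = 1) :
    A.Good (l2 Set.univ 1) (fun x => tu A.p ω x.2) fun x => A.HF ω x.1 := by
  obtain ⟨C, h⟩ := close2_F hP hω
  have := A.hk
  have := A.P.hκ
  refine good_of_close (tendsto_tu2 hω _ _) (h.mono fun x hx => hx.1) (C := C)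
    (m := A.P.κ * (A.k1 / 6)) (by positivity) (h.mono fun x hx y hy => ?_)
  rw [div_tu A.hp hω, ← neg_mul]
  exact hx.2 y hy

namespace Sys

variable (Y : A.Sys)

/-- values on the Newton arcs of the patches -/
noncomputable def W (ω : ℂ) (H : ℂ → (ι → ℂ) → ℂ) (z : A.D0) (u v : ℂ) : ℂ :=
  A.ev (H u) (Y.sol (tu A.p ω v) (H u)) z

theorem patch_diff {S : Set ℂ} {r : ℝ} {H : ℂ → (ι → ℂ) → ℂ}
    (h : A.Good (l2 S r) (fun x => tu A.p ω x.2) fun x => H x.1) (z : A.D0) :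
    ∀ᶠ u in l1 S, DifferentiableOn ℂ (Y.W ω H z u) (ball u r) := by
  obtain ⟨L, hL⟩ := eventually_l2.1 (Y.good_Q h)
  refine eventually_l1.2 ⟨L, fun u hu hu' v hv => DifferentiableAt.differentiableWithinAt ?_⟩
  have h1 : ∀ᶠ w in 𝓝 v, Y.Q (tu A.p ω w) (H u) :=
    mem_of_superset (isOpen_ball.mem_nhds hv) fun w hw => hL u hu hu' w hw
  exact diff_ev_sol (differentiable_tu _ _ _) h1 z

theorem pair_Ex {f : α → ℂ} (hω : ‖ω‖ = 1) (h : A.Good l (fun a => tu A.p ω (f a)) H)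
    (h' : A.Good l (fun a => tu A.p ω (f a)) H') {C : ℝ} {g : α → ℝ}
    (hc : ∀ᶠ a in l, ∀ y ∈ A.U (tu A.p ω (f a)), ‖H a y - H' a y‖ ≤ C * g a) {ε : ℝ}
    (hε : 0 < ε) : ((fun a => Y.sol (tu A.p ω (f a)) (H a) - Y.sol (tu A.p ω (f a)) (H' a)) =O[l]
      fun a => g a * Ex ε (f a)) ∧ ∀ z : A.D0,
      (fun a => A.ev (H a) (Y.sol (tu A.p ω (f a)) (H a)) z -
        A.ev (H' a) (Y.sol (tu A.p ω (f a)) (H' a)) z) =O[l] fun a => g a * Ex ε (f a) := by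
  have h1 : (fun a => C * g a * Real.exp (ε / ‖tu A.p ω (f a)‖ ^ A.p)) =O[l]
      fun a => g a * Ex ε (f a) :=
    ((isBigO_refl _ l).const_mul_left C).congr_left fun a => by
      rw [div_tu A.hp hω, Ex, mul_assoc]
  exact ⟨(Y.sol_pair h h' hc hε).trans h1, fun z => (Y.ev_sol_pair h h' hc z hε).trans h1⟩

theorem exp_F (hP : A.Pair1) (hω : ‖ω‖ = 1) (z : A.D0) (hz : A.G z = 0) :
    ∃ κ' : ℝ, 0 < κ' ∧ (fun u => Y.W ω (A.HF ω) z u u) =O[l1 Set.univ] Ex (-κ') := by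
  obtain ⟨C, h⟩ := close2_F hP hω
  have := A.hk
  have := A.P.hκ
  refine flat_filter (κ := A.P.κ * (A.k1 / 6) / 2) (r := 1) (by positivity) one_pos
    (Y.patch_diff (good2_F hP hω) z) ?_ fun n => ?_
  · refine ((Y.pair_Ex (f := Prod.snd) hω (good2_F hP hω) (good_F (tendsto_tu2 hω _ _))
      (h.mono fun x hx => hx.2) (ε := A.P.κ * (A.k1 / 6) / 2) (by positivity)).2 z).congr_right
      fun x => ?_
    rw [Ex_add]; congr 1; ring
  · refine (Y.flat (good1_F hω _) z hz (A.p * n)).congr_right fun u => ?_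
    rw [pow_mul, norm_tu_pow A.hp hω, ← Real.exp_nat_mul, mul_neg]

end Sys

/-- one family of sectorial patches -/
structure Side (A : ArcD ι) (ω : ℂ) (e κ m r : ℝ) (S : Set ℂ) (H : ℂ → (ι → ℂ) → ℂ) : Prop where
  diff : ∀ᶠ x in l2 S r, DifferentiableOn ℂ (H x.1) (A.U (tu A.p ω x.2))
  near : ∃ C : ℝ, 0 ≤ C ∧ ∀ᶠ x in l2 S r, ∀ y ∈ A.U (tu A.p ω x.2), ‖H x.1 y - A.HF ω x.2 y‖ ≤
    C * Real.exp (-(min m (e * Real.cos x.1.im + κ) * min (Real.exp x.1.re) (Real.exp x.2.re)))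
  glue : ∃ C : ℝ, ∀ᶠ x in l2 S r, x.2 ∈ S → ∀ y ∈ A.U (tu A.p ω x.2),
    ‖H x.1 y - H x.2 y‖ ≤ C * (Ej e x.2 * Ex (-κ) x.2)
  cos : ∀ u ∈ S, 0 ≤ Real.cos u.im

variable {e κ m r : ℝ} {S : Set ℂ} {K : ℂ → (ι → ℂ) → ℂ}

theorem Side.good2 (h : Side A ω e κ m r S K) (hω : ‖ω‖ = 1) (he : 0 < e) (hκ : 0 < κ)
    (hm : 0 < m) (hr : r ≤ 1) : A.Good (l2 S r) (fun x => tu A.p ω x.2) fun x => K x.1 := by
  obtain ⟨C, hC, h1⟩ := h.near
  have h0 := lt_min hm hκ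
  refine good_of_close (tendsto_tu2 hω _ _) h.diff (C := C) (m := min m κ / 3) (by positivity) ?_
  filter_upwards [h1, l2_mem _ _] with x a1 a2 y hy
  refine (a1 y hy).trans (mul_le_mul_of_nonneg_left (Real.exp_le_exp.2 ?_) hC)
  rw [div_tu A.hp hω, neg_le_neg_iff]
  have b1 : min m κ ≤ min m (e * Real.cos x.1.im + κ) :=
    min_le_min_left _ (by linarith [mul_nonneg he.le (h.cos _ a2.1)])
  have b2 : Real.exp x.2.re / 3 ≤ min (Real.exp x.1.re) (Real.exp x.2.re) :=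
    le_min (by linarith [(exp_re_le (a2.2.trans_le hr)).2]) (by linarith [Real.exp_pos x.2.re])
  calc min m κ / 3 * Real.exp x.2.re = min m κ * (Real.exp x.2.re / 3) := by ring
    _ ≤ _ := by gcongr; exact h0.le.trans b1

theorem Side.near1 (h : Side A ω e κ m r S K) (hr : 0 < r) : ∃ C : ℝ, 0 ≤ C ∧ ∀ᶠ u in l1 S,
    ∀ y ∈ A.U (tu A.p ω u), ‖K u y - A.HF ω u y‖ ≤ C * Ex (-min m (e * Real.cos u.im + κ)) u := by
  obtain ⟨C, hC, h1⟩ := h.near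
  exact ⟨C, hC, ((tendsto_diag S hr).eventually h1).mono fun u hu y hy => by
    simpa [Ex] using hu y hy⟩

theorem U_box (hω : ‖ω‖ = 1) {a : ι → ℝ}
    (ha : ∀ i ∈ A.P.I, (PowerSeries.coeff A.p (A.γ i) : ℝ) * ω ^ A.p = a i) {η : ℝ} (hη : 0 < η)
    (hr : r ≤ 1) (hrη : ∀ i ∈ A.P.I, 4 * r * |a i| ≤ η) (S : Set ℂ) :
    ∀ᶠ x in l2 S r, A.U (tu A.p ω x.2) ⊆ Box A.P.I a (A.p + 1) η (exp (-x.1)) := by
  obtain ⟨C, hC, h⟩ := A.U_norm
  obtain ⟨C', hC', h'⟩ := A.U_I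
  have t2 := (tendsto_tu2 (A := A) hω S r).mono_right nhdsWithin_le_nhds
  filter_upwards [l2_mem _ _, t2.eventually h, t2.eventually h',
    t2.eventually (ev_small (3 * C ^ (A.p + 1)) hη), t2.eventually (ev_small (3 * C') (half_pos hη))]
    with x a1 a2 a3 a4 a5 y hy
  have b0 := (exp_re_le (a1.2.trans_le hr)).1
  have b1 : Real.exp (-x.2.re) ≤ 3 * Real.exp (-x.1.re) := by
    rw [Real.exp_neg, Real.exp_neg, ← div_eq_mul_inv, le_div_iff₀ (Real.exp_pos _),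
      inv_mul_le_iff₀ (Real.exp_pos _)]
    linarith
  have b2 : ‖exp (-x.1)‖ = Real.exp (-x.1.re) := by rw [norm_exp, neg_re]
  have b3 := Real.exp_pos (-x.1.re)
  have b4 := norm_nonneg (tu A.p ω x.2)
  refine ⟨?_, fun i hi => ?_⟩
  · calc ‖y‖ ^ (A.p + 1) ≤ (C * ‖tu A.p ω x.2‖) ^ (A.p + 1) := by gcongr; exact a2 y hy
      _ = C ^ (A.p + 1) * ‖tu A.p ω x.2‖ * Real.exp (-x.2.re) := by
        rw [mul_pow, pow_succ ‖_‖, norm_tu_pow A.hp hω]; ring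
      _ ≤ C ^ (A.p + 1) * ‖tu A.p ω x.2‖ * (3 * Real.exp (-x.1.re)) := by gcongr
      _ < η * ‖exp (-x.1)‖ := by rw [b2]; nlinarith
  · have c1 := a3 y hy i hi
    rw [tu_pow A.hp, ← mul_assoc, ha i hi, pow_succ, norm_tu_pow A.hp hω] at c1
    have c2 : ‖exp (-x.2) - exp (-x.1)‖ ≤ 2 * r * Real.exp (-x.1.re) := by
      have c3 : ‖x.1 - x.2‖ < r := by rw [norm_sub_rev, ← dist_eq_norm]; exact a1.2
      have c4 := norm_exp_sub_one_le (x := x.1 - x.2) (by linarith)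
      rw [show exp (-x.2) - exp (-x.1) = (exp (x.1 - x.2) - 1) * exp (-x.1) by
        rw [sub_mul, ← exp_add]; ring_nf, norm_mul, b2]
      gcongr
      linarith
    have c5 := norm_add_le (y i - a i * exp (-x.2)) (a i * (exp (-x.2) - exp (-x.1)))
    rw [show y i - a i * exp (-x.2) + a i * (exp (-x.2) - exp (-x.1)) = y i - a i * exp (-x.1) by
      ring, norm_mul, Complex.norm_real, Real.norm_eq_abs] at c5
    have c6 : |a i| * ‖exp (-x.2) - exp (-x.1)‖ ≤ |a i| * (2 * r * Real.exp (-x.1.re)) := by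
      gcongr
    have c7 : C' * (Real.exp (-x.2.re) * ‖tu A.p ω x.2‖) ≤
        C' * (3 * Real.exp (-x.1.re) * ‖tu A.p ω x.2‖) := by gcongr
    have c8 := hrη i hi
    rw [b2]
    nlinarith

theorem pol_eq {s : ℝ} (hs : s * s = 1) (u : ℂ) :
    pol (Real.exp (-u.re)) (s * (-s * u.im)) = exp (-u) := by
  rw [show s * (-s * u.im) = -(s * s) * u.im by ring, hs, pol, ofReal_exp, ← exp_add]
  congr 1
  push_cast
  linear_combination -(re_add_im u)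

theorem side_of_sec (hP : A.Pair1) (hω : ‖ω‖ = 1) {a : ι → ℝ}
    (ha : ∀ i ∈ A.P.I, (PowerSeries.coeff A.p (A.γ i) : ℝ) * ω ^ A.p = a i)
    {κ0 δ β η s : ℝ} {G : ℝ → ℝ → (ι → ℂ) → ℂ} (hs : s = 1 ∨ s = -1) (he : 0 < e) (hκ : 0 < κ)
    (hκ0 : 0 < κ0) (hη : 0 < η)
    (h : SecFam A.P.I A.P.c A.P.r A.P.R0 A.F a (A.p + 1) κ0 e κ δ β η s G)
    (hr : r ≤ 1) (hrη : ∀ i ∈ A.P.I, 4 * r * |a i| ≤ η) (hrη' : 2 * r ≤ η) (hr0 : 0 < r)
    (hS : ∀ u ∈ S, -s * u.im ∈ Set.Icc (-δ) β ∧ 0 ≤ Real.cos u.im) :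
    Side A ω e κ (min κ0 (A.P.κ * min κ0 (A.k1 / 2))) r S
      fun u => G (Real.exp (-u.re)) (-s * u.im) := by
  have hss : s * s = 1 := by rcases hs with rfl | rfl <;> norm_num
  have hcos : ∀ x : ℝ, Real.cos (-s * x) = Real.cos x := by
    rcases hs with rfl | rfl <;> simp
  have hρ : ∀ S : Set ℂ, ∀ᶠ u in l1 S, Real.exp (-u.re) ∈ Set.Ioo 0 η := fun S =>
    ((Real.tendsto_exp_neg_atTop_nhds_zero.comp (tendsto_re_l1 S)).eventually
      (gt_mem_nhds hη)).mono fun u hu => ⟨Real.exp_pos _, hu⟩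
  have hρ1 := (tendsto_fst_l2 S r).eventually (hρ S)
  have hρ2 := (tendsto_snd_l2 S r).eventually (hρ _)
  have hb := U_box hω ha hη hr hrη S
  have t2 := tendsto_tu2 (A := A) hω S r
  refine ⟨?_, ?_, ?_, fun u hu => (hS u hu).2⟩
  · filter_upwards [hρ1, hb, l2_mem _ _] with x a1 a2 a3
    have := h.diff _ a1 _ (hS _ a3.1).1
    rw [pol_eq hss] at this
    exact this.mono a2
  · obtain ⟨C, h1⟩ := h.near
    obtain ⟨C', hC', h2⟩ := hP
    refine ⟨|C| + C', by positivity, ?_⟩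
    filter_upwards [hρ1, hb, l2_mem _ _, t2.eventually A.le_Rt, t2.eventually A.U_Dom]
      with x a1 a2 a3 a4 a5 y hy
    obtain ⟨R, b1, b2, b3, b4⟩ := h1 _ a1 _ (hS _ a3.1).1 y (by rw [pol_eq hss]; exact a2 hy)
    rw [div_tu A.hp hω] at a4
    rw [Real.exp_neg, ← div_eq_mul_inv, le_div_iff₀ (Real.exp_pos _)] at b2
    rw [Real.exp_neg x.1.re, div_inv_eq_mul, hcos] at b4
    set w := min (Real.exp x.1.re) (Real.exp x.2.re) with hw
    have w0 : 0 ≤ w := le_min (Real.exp_pos _).le (Real.exp_pos _).le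
    have w1 : w ≤ Real.exp x.1.re := min_le_left _ _
    have w2 : w ≤ Real.exp x.2.re := min_le_right _ _
    have hk := A.hk
    have hκ' := A.P.hκ
    have m0 : 0 ≤ min κ0 (A.k1 / 2) := le_min hκ0.le (by positivity)
    have b5 := h2 _ _ b1 a4.1 y b3 (a5 hy) (min κ0 (A.k1 / 2) * w)
      (le_trans (by gcongr; exact min_le_left _ _) b2)
      (le_trans (by gcongr; exact min_le_right _ _) a4.2)
    set M := min (min κ0 (A.P.κ * min κ0 (A.k1 / 2))) (e * Real.cos x.1.im + κ) with hM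
    have m1 : M ≤ min κ0 (e * Real.cos x.1.im + κ) := min_le_min_right _ (min_le_left _ _)
    have m2 : M ≤ A.P.κ * min κ0 (A.k1 / 2) := (min_le_left _ _).trans (min_le_right _ _)
    have m3 : 0 ≤ min κ0 (e * Real.cos x.1.im + κ) :=
      le_min hκ0.le (by linarith [mul_nonneg he.le (hS _ a3.1).2])
    have c1 : C * Real.exp (-(min κ0 (e * Real.cos x.1.im + κ) * Real.exp x.1.re)) ≤
        |C| * Real.exp (-(M * w)) := by
      gcongr
      exact le_abs_self C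
    have c2 : C' * Real.exp (-(A.P.κ * (min κ0 (A.k1 / 2) * w))) ≤ C' * Real.exp (-(M * w)) := by
      rw [← mul_assoc A.P.κ]
      gcongr
    have c3 := norm_add_le (G (Real.exp (-x.1.re)) (-s * x.1.im) y - A.F R y)
      (A.F R y - A.F (A.Rt (tu A.p ω x.2)) y)
    rw [sub_add_sub_cancel, Real.exp_neg] at c3
    rw [Real.exp_neg, add_mul]
    exact c3.trans (add_le_add (b4.trans c1) (b5.trans c2))
  · obtain ⟨C, h1⟩ := h.glue
    have hb2 := ((tendsto_diag Set.univ hr0).comp (tendsto_snd_l2 S r)).eventually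
      (U_box hω ha hη hr hrη Set.univ)
    refine ⟨C, ?_⟩
    filter_upwards [hρ1, hρ2, hb, hb2, l2_mem _ _] with x a1 a2 a3 a4 a5 a6 y hy
    have b1 := h1 _ a2 _ (hS _ a6).1 _ a1 _ (hS _ a5.1).1 ?_ ?_ y
      ⟨by rw [pol_eq hss]; exact a4 hy, by rw [pol_eq hss]; exact a3 hy⟩
    · rw [norm_sub_rev, Ej_mul']
      convert b1 using 4
      rw [Real.exp_neg, div_inv_eq_mul, hcos, exp_re]
      ring
    · have c1 := (re_sub_le_dist x.1 x.2).trans_lt a5.2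
      have c2 := Real.abs_exp_sub_one_le (x := x.2.re - x.1.re) (by linarith)
      rw [show Real.exp (-x.1.re) - Real.exp (-x.2.re) =
        (Real.exp (x.2.re - x.1.re) - 1) * Real.exp (-x.2.re) by
          rw [sub_mul, ← Real.exp_add]; ring_nf, abs_mul, abs_of_pos (Real.exp_pos _)]
      exact mul_lt_mul_of_pos_right (by linarith) (Real.exp_pos _)
    · have c1 := (im_sub_le_dist x.1 x.2).trans_lt a5.2
      have c2 : |s| = 1 := by rcases hs with rfl | rfl <;> simp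
      rw [show -s * x.1.im - -s * x.2.im = s * (x.2.im - x.1.im) by ring, abs_mul, c2]
      linarith

end ArcD

end Vale.Agent.P218F.NA
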