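import Vale.Agent.P218F.Ops

/-! Quantitative inverse function theorem for systems `h_i = 0 (i ∈ S)` whose Jacobian in the
variables of `S` is close to a scalar matrix. -/

open Complex Metric Filter Topology

namespace Vale.Agent.P218F.NA

set_option linter.unusedSectionVars false

theorem inv_near_id {E : Type*} [NormedAddCommGroup E] [NormedSpace ℂ E] [CompleteSpace E]
    {f : E → E} {ρ : ℝ} (hρ : 0 < ρ) (hd : DifferentiableOn ℂ f (ball 0 ρ))
    (ha : ∀ x ∈ ball (0 : E) ρ, ∀ y ∈ ball (0 : E) ρ, ‖f x - f y - (x - y)‖ ≤ 1 / 2 * ‖x - y‖) :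
    ∃ g : E → E, DifferentiableOn ℂ g (ball (f 0) (ρ / 4)) ∧
      ∀ w ∈ ball (f 0) (ρ / 4), ‖g w‖ ≤ ρ / 2 ∧ f (g w) = w := by
  have hap : ApproximatesLinearOn f (ContinuousLinearMap.id ℂ E) (ball 0 ρ) (1 / 2) := by
    intro x hx y hy
    simpa using ha x hx y hy
  let inv : (ContinuousLinearMap.id ℂ E).NonlinearRightInverse :=
    ⟨fun y => y, 1, fun y => by simp, fun y => rfl⟩
  have hs := hap.surjOn_closedBall_of_nonlinearRightInverse inv (ε := ρ / 2) (b := 0)
    (by positivity) (closedBall_subset_ball (by linarith))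
  have hex : ∀ w ∈ ball (f 0) (ρ / 4), ∃ x, ‖x‖ ≤ ρ / 2 ∧ f x = w := by
    intro w hw
    have : w ∈ closedBall (f 0) ((((inv.nnnorm : ℝ))⁻¹ - ((1 / 2 : NNReal) : ℝ)) * (ρ / 2)) := by
      refine ball_subset_closedBall (ball_subset_ball (le_of_eq ?_) hw)
      change ρ / 4 = (((1 : NNReal) : ℝ)⁻¹ - ((1 / 2 : NNReal) : ℝ)) * (ρ / 2)
      push_cast
      ring
    obtain ⟨x, hx, rfl⟩ := hs this
    exact ⟨x, by simpa using hx, rfl⟩
  choose! g hg1 hg2 using hex
  have hmem : ∀ w ∈ ball (f 0) (ρ / 4), g w ∈ ball (0 : E) ρ := fun w hw => by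
    rw [mem_ball_zero_iff]; linarith [hg1 w hw]
  have hlip : ∀ w ∈ ball (f 0) (ρ / 4), ∀ w' ∈ ball (f 0) (ρ / 4),
      ‖g w - g w'‖ ≤ 2 * ‖w - w'‖ := by
    intro w hw w' hw'
    have h1 := ha _ (hmem w hw) _ (hmem w' hw')
    rw [hg2 w hw, hg2 w' hw'] at h1
    have h2 : ‖g w - g w'‖ ≤ ‖w - w'‖ + ‖w - w' - (g w - g w')‖ := by
      have := norm_sub_le (w - w') (w - w' - (g w - g w'))
      rwa [sub_sub_cancel] at this
    linarith
  refine ⟨g, fun w hw => DifferentiableAt.differentiableWithinAt ?_, fun w hw =>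
    ⟨hg1 w hw, hg2 w hw⟩⟩
  have hn : ball (f 0) (ρ / 4) ∈ 𝓝 w := isOpen_ball.mem_nhds hw
  have hc : ContinuousAt g w := by
    have : LipschitzOnWith 2 g (ball (f 0) (ρ / 4)) :=
      LipschitzOnWith.of_dist_le_mul fun x hx y hy => by
        simpa [dist_eq_norm] using hlip x hx y hy
    exact this.continuousOn.continuousAt hn
  have hn' : ball (0 : E) ρ ∈ 𝓝 (g w) := isOpen_ball.mem_nhds (hmem w hw)
  have hf := (hd.differentiableAt hn').hasFDerivAt
  have hb : ‖(1 : E →L[ℂ] E) - fderiv ℂ f (g w)‖ ≤ 1 / 2 := by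
    have h1 : HasFDerivAt (fun x => x - f x) ((1 : E →L[ℂ] E) - fderiv ℂ f (g w)) (g w) :=
      (hasFDerivAt_id (g w)).sub hf
    have h2 : LipschitzOnWith (1 / 2) (fun x => x - f x) (ball 0 ρ) :=
      LipschitzOnWith.of_dist_le_mul fun x hx y hy => by
        have := ha x hx y hy
        rw [dist_eq_norm, dist_eq_norm, ← norm_neg,
          show -(x - f x - (y - f y)) = f x - f y - (x - y) by abel]
        simpa using this
    simpa using h1.le_of_lipschitzOn hn' h2
  let u : (E →L[ℂ] E)ˣ := Units.oneSub _ (hb.trans_lt (by norm_num))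
  have hu : (u : E →L[ℂ] E) = fderiv ℂ f (g w) := by simp [u]
  have hf' : HasFDerivAt f
      ((ContinuousLinearEquiv.unitsEquiv ℂ E u : E ≃L[ℂ] E) : E →L[ℂ] E) (g w) := by
    convert hf using 1
    ext x
    simp [hu]
  exact (hf'.of_local_left_inverse hc (mem_of_superset hn hg2)).differentiableAt

variable {ι : Type} [Fintype ι] [DecidableEq ι]

/-- weights of the coordinates -/
noncomputable def wt (S : Finset ι) (ε : ℝ) (j : ι) : ℝ := if j ∈ S then 1 else ε

/-- the rescaling of the coordinates -/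
noncomputable def rsc (S : Finset ι) (ε : ℝ) : (ι → ℂ) →L[ℂ] (ι → ℂ) :=
  ContinuousLinearMap.pi fun j => (wt S ε j : ℂ) • ContinuousLinearMap.proj j

theorem rsc_apply (S : Finset ι) (ε : ℝ) (v : ι → ℂ) (j : ι) :
    rsc S ε v j = (wt S ε j : ℂ) * v j := by simp [rsc]

/-- Hypotheses of the Newton lemma. -/
structure NewtD (S : Finset ι) (h : ι → (ι → ℂ) → ℂ) (c : ι → ℂ) (μ : ℂ) (ρ ε : ℝ) : Prop where
  ρ_pos : 0 < ρ
  μ_ne : μ ≠ 0
  ε_pos : 0 < ε
  ε_le : ε ≤ 1
  diff : ∀ i ∈ S, DifferentiableOn ℂ (h i) (ball c ρ)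
  jac : ∀ i ∈ S, ∀ y ∈ ball c ρ,
    ∑ j, wt S ε j * ‖D j (h i) y - (if j = i then μ else 0)‖ ≤ ‖μ‖ / 2

namespace NewtD

variable {S : Finset ι} {h : ι → (ι → ℂ) → ℂ} {c : ι → ℂ} {μ : ℂ} {ρ ε : ℝ}

theorem wt_pos (H : NewtD S h c μ ρ ε) (j : ι) : 0 < wt S ε j := by
  unfold wt; split_ifs
  · exact one_pos
  · exact H.ε_pos

theorem wt_le (H : NewtD S h c μ ρ ε) (j : ι) : wt S ε j ≤ 1 := by
  unfold wt; split_ifs
  · exact le_rfl
  · exact H.ε_le

theorem le_wt (H : NewtD S h c μ ρ ε) (j : ι) : ε ≤ wt S ε j := by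
  unfold wt; split_ifs
  · exact H.ε_le
  · exact le_rfl

theorem norm_rsc (H : NewtD S h c μ ρ ε) (v : ι → ℂ) : ‖rsc S ε v‖ ≤ ‖v‖ := by
  refine (pi_norm_le_iff_of_nonneg (norm_nonneg _)).2 fun j => ?_
  rw [rsc_apply, norm_mul, Complex.norm_real, Real.norm_of_nonneg (H.wt_pos j).le]
  exact (mul_le_of_le_one_left (norm_nonneg _) (H.wt_le j)).trans (norm_le_pi_norm v j)

theorem lip (H : NewtD S h c μ ρ ε) {i : ι} (hi : i ∈ S) {x y : ι → ℂ}
    (hx : c + rsc S ε x ∈ ball c ρ) (hy : c + rsc S ε y ∈ ball c ρ) :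
    ‖h i (c + rsc S ε x) - h i (c + rsc S ε y) - μ * (x i - y i)‖ ≤ ‖μ‖ / 2 * ‖x - y‖ := by
  set s : Set (ι → ℂ) := {η | c + rsc S ε η ∈ ball c ρ} with hs
  have hconv : Convex ℝ s := by
    have : s = ((rsc S ε).restrictScalars ℝ).toLinearMap ⁻¹' ball 0 ρ := by
      ext η; simp [hs]
    rw [this]
    exact (convex_ball 0 ρ).linear_preimage _
  have key := hconv.norm_image_sub_le_of_norm_hasFDerivWithin_le (𝕜 := ℂ)
    (f := fun η => h i (c + rsc S ε η) - μ * η i)
    (f' := fun η => (fderiv ℂ (h i) (c + rsc S ε η)).comp (rsc S ε) -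
      μ • ContinuousLinearMap.proj i) (C := ‖μ‖ / 2) (fun η hη => ?_) (fun η hη => ?_) hy hx
  · rw [show h i (c + rsc S ε x) - h i (c + rsc S ε y) - μ * (x i - y i) =
      h i (c + rsc S ε x) - μ * x i - (h i (c + rsc S ε y) - μ * y i) by ring]
    exact key
  · refine HasFDerivAt.hasFDerivWithinAt (HasFDerivAt.sub ?_ ?_)
    · exact ((H.diff i hi).differentiableAt (isOpen_ball.mem_nhds hη)).hasFDerivAt.comp η
        ((rsc S ε).hasFDerivAt.const_add c)
    · exact (hasFDerivAt_apply i η).const_mul μ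
  · refine ContinuousLinearMap.opNorm_le_bound _ (by positivity) fun v => ?_
    have e1 : ((fderiv ℂ (h i) (c + rsc S ε η)).comp (rsc S ε) -
        μ • ContinuousLinearMap.proj (R := ℂ) (φ := fun _ : ι => ℂ) i) v =
        ∑ j, (wt S ε j : ℂ) * (D j (h i) (c + rsc S ε η) - if j = i then μ else 0) * v j := by
      simp only [sub_apply, ContinuousLinearMap.comp_apply,
        smul_apply, ContinuousLinearMap.proj_apply, smul_eq_mul]
      rw [fderiv_apply_eq_sum]
      simp only [rsc_apply, mul_sub, sub_mul, Finset.sum_sub_distrib]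
      congr 1
      · exact Finset.sum_congr rfl fun j _ => by ring
      · simp [wt, hi]
    rw [e1]
    refine (norm_sum_le _ _).trans (le_trans ?_
      (mul_le_mul_of_nonneg_right (H.jac i hi _ hη) (norm_nonneg v)))
    rw [Finset.sum_mul]
    refine Finset.sum_le_sum fun j _ => ?_
    rw [norm_mul, norm_mul, Complex.norm_real, Real.norm_of_nonneg (H.wt_pos j).le]
    have := H.wt_pos j
    gcongr
    exact norm_le_pi_norm v j

theorem rsc_inv (H : NewtD S h c μ ρ ε) (x : ι → ℂ) :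
    c + rsc S ε (fun j => (x j - c j) / (wt S ε j : ℂ)) = x := by
  ext j
  have : (wt S ε j : ℂ) ≠ 0 := by exact_mod_cast (H.wt_pos j).ne'
  simp only [Pi.add_apply, rsc_apply]
  field_simp
  ring

/-- lower Lipschitz bound -/
theorem stab (H : NewtD S h c μ ρ ε) {x y : ι → ℂ} (hx : x ∈ ball c ρ) (hy : y ∈ ball c ρ)
    (hxy : ∀ j, j ∉ S → x j = y j) {B : ℝ} (hB : 0 ≤ B) (hh : ∀ i ∈ S, ‖h i x - h i y‖ ≤ B) :
    ‖x - y‖ ≤ 2 * B / ‖μ‖ := by
  have hμ : 0 < ‖μ‖ := norm_pos_iff.2 H.μ_ne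
  have e : ((fun j => (x j - c j) / (wt S ε j : ℂ)) - fun j => (y j - c j) / (wt S ε j : ℂ)) =
      x - y := by
    ext j
    by_cases hj : j ∈ S
    · simp [wt, hj]
    · simp [hxy j hj]
  have key : ‖x - y‖ ≤ B / ‖μ‖ + ‖x - y‖ / 2 := by
    refine (pi_norm_le_iff_of_nonneg (by positivity)).2 fun i => ?_
    by_cases hi : i ∈ S
    · have h1 := H.lip hi (x := fun j => (x j - c j) / (wt S ε j : ℂ))
        (y := fun j => (y j - c j) / (wt S ε j : ℂ)) (by rwa [H.rsc_inv]) (by rwa [H.rsc_inv])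
      have e2 := congrFun e i
      simp only [Pi.sub_apply] at e2
      rw [H.rsc_inv, H.rsc_inv, e, e2] at h1
      have h2 : ‖μ * (x i - y i)‖ ≤ ‖h i x - h i y‖ + ‖h i x - h i y - μ * (x i - y i)‖ := by
        have := norm_sub_le (h i x - h i y) (h i x - h i y - μ * (x i - y i))
        rwa [sub_sub_cancel] at this
      rw [norm_mul] at h2
      have h3 := hh i hi
      rw [Pi.sub_apply, ← sub_le_iff_le_add, le_div_iff₀ hμ]
      nlinarith
    · rw [Pi.sub_apply, hxy i hi, sub_self, norm_zero]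
      positivity
  have : 2 * B / ‖μ‖ = 2 * (B / ‖μ‖) := by ring
  linarith

/-- holomorphic solution -/
theorem exists_sol (H : NewtD S h c μ ρ ε) (h0 : ∀ i ∈ S, ‖h i c‖ ≤ ‖μ‖ * (ρ / 8)) :
    ∃ Ξ : (ι → ℂ) → ι → ℂ, DifferentiableOn ℂ Ξ (ball c (ε * (ρ / 8))) ∧
      ∀ b ∈ ball c (ε * (ρ / 8)), ‖Ξ b - c‖ ≤ ρ / 2 ∧ (∀ j, j ∉ S → Ξ b j = b j) ∧
        ∀ i ∈ S, h i (Ξ b) = 0 := by
  have hμ : 0 < ‖μ‖ := norm_pos_iff.2 H.μ_ne
  have hρ := H.ρ_pos
  have hε := H.ε_pos
  set f : (ι → ℂ) → ι → ℂ := fun η i => if i ∈ S then h i (c + rsc S ε η) / μ else η i with hf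
  have hmap : ∀ η ∈ ball (0 : ι → ℂ) ρ, c + rsc S ε η ∈ ball c ρ := fun η hη => by
    rw [mem_ball_zero_iff] at hη
    rw [mem_ball, dist_eq_norm, add_sub_cancel_left]
    exact (H.norm_rsc η).trans_lt hη
  suffices hh : DifferentiableOn ℂ f (ball 0 ρ) ∧ ∀ x ∈ ball (0 : ι → ℂ) ρ,
      ∀ y ∈ ball (0 : ι → ℂ) ρ, ‖f x - f y - (x - y)‖ ≤ 1 / 2 * ‖x - y‖ by
    obtain ⟨g, hg, hg'⟩ := inv_near_id (f := f) hρ hh.1 hh.2
    set w : (ι → ℂ) → ι → ℂ := fun b j => if j ∈ S then 0 else (b j - c j) / (ε : ℂ) with hw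
    have hε' : (ε : ℂ) ≠ 0 := by exact_mod_cast hε.ne'
    have hwm : ∀ b ∈ ball c (ε * (ρ / 8)), w b ∈ ball (f 0) (ρ / 4) := by
      intro b hb
      rw [mem_ball, dist_eq_norm] at hb ⊢
      refine lt_of_le_of_lt (b := ρ / 8)
        ((pi_norm_le_iff_of_nonneg (by positivity)).2 fun j => ?_) (by linarith)
      by_cases hj : j ∈ S
      · simp only [hw, hf, Pi.sub_apply, hj, if_true, map_zero, add_zero, zero_sub, norm_neg,
          norm_div]
        rw [div_le_iff₀ hμ, mul_comm]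
        exact h0 j hj
      · simp only [hw, hf, Pi.sub_apply, hj, if_false, Pi.zero_apply, sub_zero, norm_div,
          Complex.norm_real, Real.norm_of_nonneg hε.le]
        rw [div_le_iff₀ hε, mul_comm]
        exact (norm_le_pi_norm (b - c) j).trans hb.le
    refine ⟨fun b => c + rsc S ε (g (w b)), ?_, fun b hb => ⟨?_, fun j hj => ?_, fun i hi => ?_⟩⟩
    · have hwd : Differentiable ℂ w := by
        refine differentiable_pi.2 fun j => ?_
        by_cases hj : j ∈ S
        · simp [hw, hj]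
        · simp only [hw, hj, if_false]
          fun_prop
      exact ((rsc S ε).differentiable.comp_differentiableOn
        (hg.comp hwd.differentiableOn hwm)).const_add c
    · rw [add_sub_cancel_left]
      exact (H.norm_rsc _).trans (hg' _ (hwm b hb)).1
    · have := congrFun (hg' _ (hwm b hb)).2 j
      simp only [hf, hw, hj, if_false] at this
      simp only [Pi.add_apply, rsc_apply, hw, this, wt, hj, if_false]
      field_simp
      ring
    · have := congrFun (hg' _ (hwm b hb)).2 i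
      simp only [hf, hw, hi, if_true] at this
      exact (div_eq_zero_iff.1 this).resolve_right H.μ_ne
  constructor
  · refine differentiableOn_pi.2 fun i => ?_
    by_cases hi : i ∈ S
    · simp only [hf, hi, if_true]
      simp only [div_eq_mul_inv]
      exact ((H.diff i hi).comp (((rsc S ε).differentiable.const_add c).differentiableOn)
        hmap).mul_const _
    · simp only [hf, hi, if_false]
      exact (differentiable_apply i).differentiableOn
  · intro x hx y hy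
    refine (pi_norm_le_iff_of_nonneg (by positivity)).2 fun i => ?_
    by_cases hi : i ∈ S
    · have h1 := H.lip hi (hmap x hx) (hmap y hy)
      simp only [hf, Pi.sub_apply, hi, if_true]
      have e : h i (c + rsc S ε x) / μ - h i (c + rsc S ε y) / μ - (x i - y i) =
          (h i (c + rsc S ε x) - h i (c + rsc S ε y) - μ * (x i - y i)) / μ := by
        have := H.μ_ne
        field_simp
      rw [e, norm_div, div_le_iff₀ hμ]
      linarith
    · simp only [hf, Pi.sub_apply, hi, if_false, sub_self, norm_zero]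
      positivity

end NewtD

end Vale.Agent.P218F.NA
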