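import Vale.Agent.P218F.Arc
import Vale.Agent.P218F.Newton

/-! Newton arcs on patches: existence, stability, holomorphy and flatness. -/

open Complex Metric Filter Topology Asymptotics

namespace Vale.Agent.P218F.NA

open Vale.Agent.P274.HolOs

set_option linter.unusedSectionVars false

variable {ι : Type} [Fintype ι] [DecidableEq ι] {α : Type}

theorem ev_choice {β : Type} [Nonempty β] {r : α → β → Prop} {l : Filter α}
    (h : ∀ᶠ x in l, ∃ y, r x y) : ∃ f : α → β, ∀ᶠ x in l, r x (f x) := by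
  choose! f hf using fun x (hx : ∃ y, r x y) => hx
  exact ⟨f, h.mono hf⟩

namespace ArcD

variable {A : ArcD ι} {l : Filter α} {t : α → ℂ} {H H' : α → (ι → ℂ) → ℂ}

theorem self_O (A : ArcD ι) (L : ℕ) (g : α → ℝ) :
    (fun a => A.arcT L (t a) - A.arcT L (t a)) =O[l] g :=
  (isBigO_zero g l).congr_left fun _ => (sub_self _).symm

theorem Good.inv_pow (h : A.Good l t H) (k : ℕ) {ε : ℝ} (hε : 0 < ε) :
    (fun a => (‖t a‖ ^ k)⁻¹) =O[l] fun a => Real.exp (ε / ‖t a‖ ^ A.p) := by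
  obtain ⟨C, hC, h1⟩ := exp_flat A.hp hε k
  refine IsBigO.of_bound C ?_
  filter_upwards [h.pos, h.small 1 one_pos] with a a1 a2
  have h2 := h1 _ a1 (by linarith)
  rw [Real.norm_of_nonneg (by positivity), Real.norm_of_nonneg (by positivity),
    inv_le_iff_one_le_mul₀ (by positivity)]
  rw [Real.exp_neg, inv_le_iff_one_le_mul₀ (by positivity)] at h2
  linarith

theorem lip_O (h : A.Good l t H) (h' : A.Good l t H') {μ : α → ℝ}
    (hc : ∀ᶠ a in l, ∀ y ∈ A.U (t a), ‖H a y - H' a y‖ ≤ μ a) {ξ ξ' : α → ι → ℂ}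
    (hξ : ∀ᶠ a in l, ξ a ∈ A.Uq (t a)) (hξ' : ∀ᶠ a in l, ξ' a ∈ A.Uq (t a)) (z : A.D0) {ε : ℝ}
    (hε : 0 < ε) : (fun a => A.ev (H a) (ξ a) z - A.ev (H' a) (ξ' a) z) =O[l]
      fun a => (μ a + ‖ξ a - ξ' a‖) * Real.exp (ε / ‖t a‖ ^ A.p) := by
  obtain ⟨k, hk⟩ := lip_pair z
  obtain ⟨C, hC, h1⟩ := hk h h' hc
  refine IsBigO.trans ?_ ((isBigO_refl _ l).mul (h.inv_pow k hε))
  refine IsBigO.of_bound C ?_
  filter_upwards [h1, hξ, hξ'] with a a1 a2 a3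
  refine (a1 _ a2 _ a3).trans ?_
  rw [mul_div_assoc, div_eq_mul_inv]
  exact mul_le_mul_of_nonneg_left (le_abs_self _) hC

namespace Sys

variable (Y : A.Sys)

/-- exponent of the Newton ball -/
def e : ℕ := Y.d + 2 * A.p + 3

/-- the base points -/
noncomputable def g0 (t : ℂ) : ι → ℂ := A.arcT (Y.e + Y.d + 2) t

/-- the Newton ball -/
def B (t : ℂ) : Set (ι → ℂ) := ball (Y.g0 t) (‖t‖ ^ Y.e)

theorem B_subset : ∀ᶠ t in 𝓝[≠] (0 : ℂ), Y.B t ⊆ A.Uq t := by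
  obtain ⟨C, hC, h⟩ := (A.arcT_sub (n := A.p + 2) (L := Y.e + Y.d + 2) (L' := A.p + 2)
    (by unfold e; omega) le_rfl).exists_nonneg
  filter_upwards [self_mem_nhdsWithin, nhdsWithin_le_nhds h.bound,
    nhdsWithin_le_nhds (ev_small (C + 1) (by norm_num : (0 : ℝ) < 1 / 4)),
    nhdsWithin_le_nhds (ev_small 1 one_pos)] with t h0 h1 h2 h3
  refine ball_subset_ball' ?_
  have a0 : 0 < ‖t‖ := norm_pos_iff.2 h0
  have a1 : ‖t‖ ^ Y.e ≤ ‖t‖ ^ (A.p + 2) :=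
    pow_le_pow_of_le_one a0.le (by linarith) (by unfold e; omega)
  rw [Real.norm_of_nonneg (by positivity)] at h1
  rw [dist_eq_norm]
  unfold g0
  have a2 : 0 < ‖t‖ ^ (A.p + 1) := by positivity
  rw [pow_succ] at a1 h1
  nlinarith

theorem B_O (h : A.Good l t H) {ξ : α → ι → ℂ} (hξ : ∀ᶠ a in l, ξ a ∈ Y.B (t a)) {L : ℕ}
    (hL : L ≤ Y.e) : (fun a => ξ a - A.arcT L (t a)) =O[l] fun a => ‖t a‖ ^ L := by
  have h1 : (fun a => ξ a - Y.g0 (t a)) =O[l] fun a => ‖t a‖ ^ Y.e :=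
    IsBigO.of_bound 1 (hξ.mono fun a ha => by simpa using (mem_ball_iff_norm.1 ha).le)
  have h2 := (A.arcT_sub (n := L) (L := Y.e + Y.d + 2) (L' := L) (by omega) le_rfl).comp_tendsto
    h.lim0
  exact ((h1.trans (pow_O h.lim0 hL)).add h2).congr_left fun a => by simp [g0]

theorem evB (h : A.Good l t H) {L : ℕ} (hL : L ≤ Y.e) (z : A.D0) {w : Polynomial ℝ}
    (hw : (PowerSeries.X : PowerSeries ℝ) ^ L ∣ A.G z - w) :
    ∃ C : ℝ, 0 ≤ C ∧ ∀ᶠ a in l, ∀ y ∈ Y.B (t a),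
      ‖A.ev (H a) y z - Polynomial.aeval (t a) w‖ ≤ C * ‖t a‖ ^ L := by
  set l' : Filter (α × (ι → ℂ)) := l.comap Prod.fst ⊓ 𝓟 {x | x.2 ∈ Y.B (t x.1)} with hl'
  have hf : Tendsto Prod.fst l' l := tendsto_inf_left tendsto_comap
  have h' := h.comp hf
  have hB : ∀ᶠ x in l', x.2 ∈ Y.B (t x.1) := mem_inf_of_right (mem_principal_self _)
  have hq : ∀ᶠ x in l', x.2 ∈ A.Uq (t x.1) := by
    filter_upwards [hB, h'.lim.eventually Y.B_subset] with x a1 a2 using a2 a1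
  obtain ⟨C, hC, h1⟩ := (h'.ev hq (Y.B_O h' hB hL) z hw).exists_nonneg
  refine ⟨C, hC, ?_⟩
  have h2 := h1.bound
  rw [hl', eventually_inf_principal, eventually_comap] at h2
  filter_upwards [h2] with a ha y hy
  simpa using ha (a, y) rfl hy

/-- the pointwise hypotheses of the Newton method -/
structure Q (t : ℂ) (H : (ι → ℂ) → ℂ) : Prop where
  pos : 0 < ‖t‖
  sub : Y.B t ⊆ A.Uq t
  diff : DifferentiableOn ℂ H (A.U t)
  newt : NewtD Y.S (fun i y => A.ev H y (Y.h i)) (Y.g0 t) (Y.μ * t ^ Y.d) (‖t‖ ^ Y.e)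
    (‖t‖ ^ (Y.d + 1))
  res : ∀ i ∈ Y.S, ‖A.ev H (Y.g0 t) (Y.h i)‖ ≤ ‖(Y.μ : ℂ) * t ^ Y.d‖ * (‖t‖ ^ Y.e / 8)

theorem g0_mem (h : A.Good l t H) : ∀ᶠ a in l, Y.g0 (t a) ∈ Y.B (t a) :=
  h.pos.mono fun a ha => mem_ball_self (by positivity)

theorem good_Q (h : A.Good l t H) : ∀ᶠ a in l, Y.Q (t a) (H a) := by
  have hμ : 0 < |Y.μ| := abs_pos.2 Y.hμ
  have j1 : ∀ i j : ι, ∀ᶠ a in l, i ∈ Y.S → ∀ y ∈ Y.B (t a), wt Y.S (‖t a‖ ^ (Y.d + 1)) j *
      ‖A.ev (H a) y (der j (Y.h i)) - (if j = i then (Y.μ : ℂ) * t a ^ Y.d else 0)‖ ≤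
        |Y.μ| / (2 * (Fintype.card ι + 1)) * ‖t a‖ ^ Y.d := by
    intro i j
    by_cases hi : i ∈ Y.S
    swap
    · exact Eventually.of_forall fun a h => (hi h).elim
    by_cases hj : j ∈ Y.S
    · obtain ⟨C, hC, h1⟩ := Y.evB h (L := Y.d + 1) (by unfold e; omega) (der j (Y.h i))
        (w := if j = i then Polynomial.C Y.μ * Polynomial.X ^ Y.d else 0) (by
          rw [Y.hd i hi j hj]
          split_ifs
          · simpa using Y.hδ
          · simp)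
      filter_upwards [h1, h.small C (ε := |Y.μ| / (2 * (Fintype.card ι + 1))) (by positivity)]
        with a a1 a2 _ y hy
      have a3 := a1 y hy
      have a4 : Polynomial.aeval (t a) (if j = i then Polynomial.C Y.μ * Polynomial.X ^ Y.d else 0)
          = if j = i then (Y.μ : ℂ) * t a ^ Y.d else 0 := by split_ifs <;> simp
      rw [a4, pow_succ] at a3
      rw [wt, if_pos hj, one_mul]
      have : 0 ≤ ‖t a‖ ^ Y.d := by positivity
      nlinarith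
    · obtain ⟨C, hC, h1⟩ := Y.evB h (L := 0) (Nat.zero_le _) (der j (Y.h i)) (w := 0) (by simp)
      filter_upwards [h1, h.small C (ε := |Y.μ| / (2 * (Fintype.card ι + 1))) (by positivity)]
        with a a1 a2 _ y hy
      have a3 := a1 y hy
      rw [map_zero, pow_zero, mul_one] at a3
      rw [wt, if_neg hj, if_neg (fun hji : j = i => hj (hji ▸ hi)), pow_succ]
      have a4 : 0 ≤ ‖t a‖ ^ Y.d := by positivity
      have a5 : 0 ≤ ‖t a‖ ^ Y.d * ‖t a‖ := by positivity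
      nlinarith [mul_le_mul_of_nonneg_left a3 a5]
  have j2 : ∀ i : ι, ∀ᶠ a in l, i ∈ Y.S → ‖A.ev (H a) (Y.g0 (t a)) (Y.h i)‖ ≤
      ‖(Y.μ : ℂ) * t a ^ Y.d‖ * (‖t a‖ ^ Y.e / 8) := by
    intro i
    by_cases hi : i ∈ Y.S
    swap
    · exact Eventually.of_forall fun a h => (hi h).elim
    have h1 := h.ev (ξ := fun a => Y.g0 (t a)) (by
      filter_upwards [Y.g0_mem h, h.lim.eventually Y.B_subset] with a a1 a2 using a2 a1)
      (L := Y.e + Y.d + 2) (A.self_O _ _) (Y.h i) (w := 0)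
      (by simp [Y.hh i hi])
    obtain ⟨C, hC, h2⟩ := (h1.trans (pow_O h.lim0 (by omega : Y.d + Y.e + 1 ≤ _))).exists_nonneg
    filter_upwards [h2.bound, h.small C (ε := |Y.μ| / 8) (by positivity)] with a a1 a2 _
    rw [map_zero, sub_zero, Real.norm_of_nonneg (by positivity), pow_succ, pow_add] at a1
    rw [norm_mul, norm_pow, Complex.norm_real, Real.norm_eq_abs]
    have a4 : 0 ≤ ‖t a‖ ^ Y.d * ‖t a‖ ^ Y.e := by positivity
    nlinarith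
  filter_upwards [eventually_all.2 fun i => eventually_all.2 (j1 i), eventually_all.2 j2, h.pos,
    h.small 1 one_pos, h.lim.eventually Y.B_subset, h.diff] with a a1 a2 a3 a4 a5 a6
  have b0 : t a ≠ 0 := norm_pos_iff.1 a3
  refine ⟨a3, a5, a6, ⟨by positivity, mul_ne_zero (by exact_mod_cast Y.hμ) (pow_ne_zero _ b0),
    by positivity, pow_le_one₀ a3.le (by linarith), fun i _ => ?_, fun i hi y hy => ?_⟩, a2⟩
  · exact ((adm (Y.h i)).diff _ _ isOpen_ball a6).mono (a5.trans (A.Uq_subset _))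
  · refine (Finset.sum_le_sum fun j _ => a1 i j hi y hy).trans ?_
    rw [Finset.sum_const, Finset.card_univ, nsmul_eq_mul, norm_mul, norm_pow, Complex.norm_real,
      Real.norm_eq_abs, div_mul_eq_mul_div, ← mul_div_assoc,
      div_le_div_iff₀ (by positivity) (by positivity)]
    have : 0 ≤ |Y.μ| * ‖t a‖ ^ Y.d := by positivity
    nlinarith

/-- solutions of the subsystem -/
def Sol (t : ℂ) (H : (ι → ℂ) → ℂ) (b ξ : ι → ℂ) : Prop :=
  ‖ξ - Y.g0 t‖ ≤ ‖t‖ ^ Y.e / 2 ∧ (∀ j, j ∉ Y.S → ξ j = b j) ∧ ∀ i ∈ Y.S, A.ev H ξ (Y.h i) = 0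

/-- the Newton arc -/
noncomputable def sol (t : ℂ) (H : (ι → ℂ) → ℂ) : ι → ℂ := Classical.epsilon (Y.Sol t H (Y.g0 t))

variable {Y}

theorem Q.exists_Xi {t : ℂ} {H : (ι → ℂ) → ℂ} (h : Y.Q t H) : ∃ Ξ : (ι → ℂ) → ι → ℂ,
    DifferentiableOn ℂ Ξ (ball (Y.g0 t) (‖t‖ ^ (Y.d + 1) * (‖t‖ ^ Y.e / 8))) ∧
      ∀ b ∈ ball (Y.g0 t) (‖t‖ ^ (Y.d + 1) * (‖t‖ ^ Y.e / 8)), Y.Sol t H b (Ξ b) :=
  h.newt.exists_sol h.res

theorem Q.sol_spec {t : ℂ} {H : (ι → ℂ) → ℂ} (h : Y.Q t H) : Y.Sol t H (Y.g0 t) (Y.sol t H) := by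
  obtain ⟨Ξ, -, h1⟩ := h.exists_Xi
  have := h.pos
  exact Classical.epsilon_spec ⟨_, h1 _ (mem_ball_self (by positivity))⟩

theorem Sol.mem {t : ℂ} {H : (ι → ℂ) → ℂ} {b ξ : ι → ℂ} (h : Y.Sol t H b ξ) (ht : 0 < ‖t‖) :
    ξ ∈ Y.B t := by
  have : 0 < ‖t‖ ^ Y.e := by positivity
  exact mem_ball_iff_norm.2 (h.1.trans_lt (by linarith))

theorem Q.uniq {t : ℂ} {H : (ι → ℂ) → ℂ} (h : Y.Q t H) {x y : ι → ℂ} (hx : x ∈ Y.B t)
    (hy : y ∈ Y.B t) (hxy : ∀ j, j ∉ Y.S → x j = y j) (h1 : ∀ i ∈ Y.S, A.ev H x (Y.h i) = 0)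
    (h2 : ∀ i ∈ Y.S, A.ev H y (Y.h i) = 0) : x = y := by
  have := h.newt.stab hx hy hxy le_rfl fun i hi => by simp [h1 i hi, h2 i hi]
  rwa [mul_zero, zero_div, norm_le_zero_iff, sub_eq_zero] at this

theorem Q.diff_ev {t : ℂ} {H : (ι → ℂ) → ℂ} (h : Y.Q t H) (z : A.D0) {y : ι → ℂ}
    (hy : y ∈ Y.B t) : DifferentiableAt ℂ (fun y => A.ev H y z) y :=
  ((adm z).diff _ _ isOpen_ball h.diff).differentiableAt
    (isOpen_ball.mem_nhds (A.Uq_subset _ (h.sub hy)))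

theorem diff_sol {τ : ℂ → ℂ} {v : ℂ} {H : (ι → ℂ) → ℂ} (hτ : DifferentiableAt ℂ τ v)
    (h : ∀ᶠ w in 𝓝 v, Y.Q (τ w) H) : DifferentiableAt ℂ (fun w => Y.sol (τ w) H) v := by
  have h0 := h.self_of_nhds
  obtain ⟨Ξ, d1, s1⟩ := h0.exists_Xi
  have hp := h0.pos
  have hg : DifferentiableAt ℂ (fun w => Y.g0 (τ w)) v :=
    (A.differentiable_arcT _ _).comp v hτ
  have hn : ball (Y.g0 (τ v)) (‖τ v‖ ^ (Y.d + 1) * (‖τ v‖ ^ Y.e / 8)) ∈ 𝓝 (Y.g0 (τ v)) :=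
    ball_mem_nhds _ (by positivity)
  refine ((d1.differentiableAt hn).comp v hg).congr_of_eventuallyEq ?_
  have c1 : ContinuousAt (fun w => ‖τ w‖ ^ Y.e / 2 + ‖Y.g0 (τ w) - Y.g0 (τ v)‖) v :=
    ((hτ.continuousAt.norm.pow _).div_const _).add (hg.continuousAt.sub continuousAt_const).norm
  have c2 : ∀ᶠ w in 𝓝 v, ‖τ w‖ ^ Y.e / 2 + ‖Y.g0 (τ w) - Y.g0 (τ v)‖ < ‖τ v‖ ^ Y.e := by
    refine c1.eventually (gt_mem_nhds ?_)
    have : 0 < ‖τ v‖ ^ Y.e := by positivity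
    simp only [sub_self, norm_zero]
    linarith
  filter_upwards [h, c2, hg.continuousAt.eventually hn] with w a1 a2 a3
  have b1 := a1.sol_spec
  have b2 := s1 _ a3
  refine h0.uniq (mem_ball_iff_norm.2 ?_) (b2.mem hp)
    (fun j hj => (b1.2.1 j hj).trans (b2.2.1 j hj).symm) b1.2.2 b2.2.2
  have := norm_add_le (Y.sol (τ w) H - Y.g0 (τ w)) (Y.g0 (τ w) - Y.g0 (τ v))
  rw [sub_add_sub_cancel] at this
  linarith [b1.1]

theorem diff_ev_sol {τ : ℂ → ℂ} {v : ℂ} {H : (ι → ℂ) → ℂ} (hτ : DifferentiableAt ℂ τ v)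
    (h : ∀ᶠ w in 𝓝 v, Y.Q (τ w) H) (z : A.D0) :
    DifferentiableAt ℂ (fun w => A.ev H (Y.sol (τ w) H) z) v :=
  (h.self_of_nhds.diff_ev z (h.self_of_nhds.sol_spec.mem h.self_of_nhds.pos)).comp v
    (diff_sol hτ h)

variable (Y)

theorem sol_mem (h : A.Good l t H) : ∀ᶠ a in l, Y.sol (t a) (H a) ∈ Y.B (t a) :=
  (Y.good_Q h).mono fun _ ha => ha.sol_spec.mem ha.pos

theorem sol_memq (h : A.Good l t H) : ∀ᶠ a in l, Y.sol (t a) (H a) ∈ A.Uq (t a) :=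
  (Y.good_Q h).mono fun _ ha => ha.sub (ha.sol_spec.mem ha.pos)

theorem stab_O (h : A.Good l t H) {x y : α → ι → ℂ} (hx : ∀ᶠ a in l, x a ∈ Y.B (t a))
    (hy : ∀ᶠ a in l, y a ∈ Y.B (t a)) (hxy : ∀ᶠ a in l, ∀ j, j ∉ Y.S → x a j = y a j) {g : α → ℝ}
    (hg : ∀ i ∈ Y.S, (fun a => A.ev (H a) (x a) (Y.h i) - A.ev (H a) (y a) (Y.h i)) =O[l] g) :
    (fun a => x a - y a) =O[l] fun a => g a * (‖t a‖ ^ Y.d)⁻¹ := by
  have h1 : (fun a i => if i ∈ Y.S then A.ev (H a) (x a) (Y.h i) - A.ev (H a) (y a) (Y.h i)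
      else 0) =O[l] g := by
    refine isBigO_pi.2 fun i => ?_
    by_cases hi : i ∈ Y.S
    · simpa [hi] using hg i hi
    · simpa [hi] using isBigO_zero _ _
  obtain ⟨C, hC, h2⟩ := h1.exists_nonneg
  refine IsBigO.of_bound (2 * C / |Y.μ|) ?_
  filter_upwards [h2.bound, Y.good_Q h, hx, hy, hxy] with a a1 a2 a3 a4 a5
  refine (a2.newt.stab a3 a4 a5 (B := C * ‖g a‖) (by positivity) fun i hi => ?_).trans
    (le_of_eq ?_)
  · simpa [hi] using (norm_le_pi_norm _ i).trans a1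
  · have := a2.pos
    have := abs_pos.2 Y.hμ
    simp only [norm_mul, norm_pow, norm_inv, abs_norm, Complex.norm_real, Real.norm_eq_abs]
    field_simp

theorem sol_pair (h : A.Good l t H) (h' : A.Good l t H') {μ : α → ℝ}
    (hc : ∀ᶠ a in l, ∀ y ∈ A.U (t a), ‖H a y - H' a y‖ ≤ μ a) {ε : ℝ} (hε : 0 < ε) :
    (fun a => Y.sol (t a) (H a) - Y.sol (t a) (H' a)) =O[l]
      fun a => μ a * Real.exp (ε / ‖t a‖ ^ A.p) := by
  have h1 := Y.stab_O h (Y.sol_mem h) (Y.sol_mem h') (g := fun a => μ a *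
    Real.exp (ε / 2 / ‖t a‖ ^ A.p)) ?_ fun i hi => ?_
  · refine (h1.trans ((isBigO_refl _ l).mul (h.inv_pow Y.d (half_pos hε)))).congr_right fun a => ?_
    rw [mul_assoc, ← Real.exp_add, ← add_div, add_halves]
  · filter_upwards [Y.good_Q h, Y.good_Q h'] with a a1 a2 j hj
    rw [a1.sol_spec.2.1 j hj, a2.sol_spec.2.1 j hj]
  · have h2 := (lip_O h h' hc (Y.sol_memq h') (Y.sol_memq h') (Y.h i) (half_pos hε)).neg_left
    refine h2.congr' ?_ (Eventually.of_forall fun a => by simp)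
    filter_upwards [Y.good_Q h, Y.good_Q h'] with a a1 a2
    simp [a1.sol_spec.2.2 i hi, a2.sol_spec.2.2 i hi]

theorem ev_sol_pair (h : A.Good l t H) (h' : A.Good l t H') {μ : α → ℝ}
    (hc : ∀ᶠ a in l, ∀ y ∈ A.U (t a), ‖H a y - H' a y‖ ≤ μ a) (z : A.D0) {ε : ℝ} (hε : 0 < ε) :
    (fun a => A.ev (H a) (Y.sol (t a) (H a)) z - A.ev (H' a) (Y.sol (t a) (H' a)) z) =O[l]
      fun a => μ a * Real.exp (ε / ‖t a‖ ^ A.p) := by
  have h1 := lip_O h h' hc (Y.sol_memq h) (Y.sol_memq h') z (half_pos hε)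
  have h2 : μ =O[l] fun a => μ a * Real.exp (ε / 2 / ‖t a‖ ^ A.p) :=
    IsBigO.of_bound 1 (Eventually.of_forall fun a => by
      rw [one_mul, norm_mul]
      refine le_mul_of_one_le_right (norm_nonneg _) ?_
      rw [Real.norm_of_nonneg (Real.exp_pos _).le]
      exact Real.one_le_exp (by positivity))
  refine (h1.trans ((h2.add (Y.sol_pair h h' hc (half_pos hε)).norm_left).mul
    (isBigO_refl _ l))).congr_right fun a => ?_
  rw [mul_assoc, ← Real.exp_add, ← add_div, add_halves]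

theorem arcT_mem {L : ℕ} (hL : Y.e + Y.d + 2 ≤ L) : ∀ᶠ t in 𝓝[≠] (0 : ℂ),
    2 * ‖A.arcT L t - Y.g0 t‖ < ‖t‖ ^ (Y.d + 1) * (‖t‖ ^ Y.e / 8) ∧ A.arcT L t ∈ Y.B t := by
  obtain ⟨C, hC, h⟩ := (A.arcT_sub (n := Y.e + Y.d + 2) hL le_rfl).exists_nonneg
  filter_upwards [self_mem_nhdsWithin, nhdsWithin_le_nhds h.bound,
    nhdsWithin_le_nhds (ev_small C (by norm_num : (0 : ℝ) < 1 / 16)),
    nhdsWithin_le_nhds (ev_small 1 one_pos)] with t h0 h1 h2 h3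
  have a0 : 0 < ‖t‖ := norm_pos_iff.2 h0
  rw [Real.norm_of_nonneg (by positivity), show Y.e + Y.d + 2 = Y.d + 1 + Y.e + 1 by omega,
    pow_succ, pow_add, show Y.d + 1 + Y.e + 1 = Y.e + Y.d + 2 by omega] at h1
  have a1 : 0 < ‖t‖ ^ (Y.d + 1) * ‖t‖ ^ Y.e := by positivity
  have a2 : ‖t‖ ^ (Y.d + 1) ≤ 1 := pow_le_one₀ a0.le (by linarith)
  have a3 : 0 < ‖t‖ ^ Y.e := by positivity
  have a4 : 2 * ‖A.arcT L t - Y.g0 t‖ < ‖t‖ ^ (Y.d + 1) * (‖t‖ ^ Y.e / 8) := by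
    unfold g0
    nlinarith
  refine ⟨a4, mem_ball_iff_norm.2 ?_⟩
  nlinarith [norm_nonneg (A.arcT L t - Y.g0 t)]

theorem exists_path (h : A.Good l t H) {L : ℕ} (hL : Y.e + Y.d + 2 ≤ L) :
    ∃ ζ : α → ℂ → ι → ℂ, ∀ᶠ a in l, DifferentiableOn ℂ (ζ a) (ball 0 2) ∧
      (∀ s ∈ ball (0 : ℂ) 2, ‖ζ a s - Y.g0 (t a)‖ ≤ ‖t a‖ ^ Y.e / 2 ∧
        ∀ i ∈ Y.S, A.ev (H a) (ζ a s) (Y.h i) = 0) ∧ ζ a 0 = Y.sol (t a) (H a) ∧
      ∀ j, j ∉ Y.S → ζ a 1 j = A.arcT L (t a) j := by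
  refine ev_choice (r := fun a (ζ : ℂ → ι → ℂ) => DifferentiableOn ℂ ζ (ball 0 2) ∧
      (∀ s ∈ ball (0 : ℂ) 2, ‖ζ s - Y.g0 (t a)‖ ≤ ‖t a‖ ^ Y.e / 2 ∧
        ∀ i ∈ Y.S, A.ev (H a) (ζ s) (Y.h i) = 0) ∧ ζ 0 = Y.sol (t a) (H a) ∧
      ∀ j, j ∉ Y.S → ζ 1 j = A.arcT L (t a) j) ?_
  filter_upwards [Y.good_Q h, h.lim.eventually (Y.arcT_mem hL)] with a a1 a2
  obtain ⟨Ξ, d1, s1⟩ := a1.exists_Xi
  have hm : ∀ s ∈ ball (0 : ℂ) 2, Y.g0 (t a) + s • (A.arcT L (t a) - Y.g0 (t a)) ∈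
      ball (Y.g0 (t a)) (‖t a‖ ^ (Y.d + 1) * (‖t a‖ ^ Y.e / 8)) := by
    intro s hs
    rw [mem_ball_zero_iff] at hs
    rw [mem_ball_iff_norm, add_sub_cancel_left, norm_smul]
    exact (mul_le_mul_of_nonneg_right hs.le (norm_nonneg _)).trans_lt a2.1
  refine ⟨fun s => Ξ (Y.g0 (t a) + s • (A.arcT L (t a) - Y.g0 (t a))),
    d1.comp (by fun_prop) hm, fun s hs => ⟨(s1 _ (hm s hs)).1, (s1 _ (hm s hs)).2.2⟩, ?_,
    fun j hj => ?_⟩
  · have b1 := s1 _ (hm 0 (by simp))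
    have b2 := a1.sol_spec
    refine a1.uniq (b1.mem a1.pos) (b2.mem a1.pos) (fun j hj => ?_) b1.2.2 b2.2.2
    refine (b1.2.1 j hj).trans ?_
    rw [b2.2.1 j hj]
    simp
  · refine ((s1 _ (hm 1 (by simp))).2.1 j hj).trans ?_
    simp

theorem path_deriv {t : ℂ} {H : (ι → ℂ) → ℂ} (h : Y.Q t H) {ζ : ℂ → ι → ℂ}
    (hd : DifferentiableOn ℂ ζ (ball 0 2)) (hz : ∀ s ∈ ball (0 : ℂ) 2,
      ‖ζ s - Y.g0 t‖ ≤ ‖t‖ ^ Y.e / 2 ∧ ∀ i ∈ Y.S, A.ev H (ζ s) (Y.h i) = 0) (g : A.D0) {s : ℂ}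
    (hs : s ∈ closedBall (0 : ℂ) 1) : ∃ g' : ℂ, HasDerivAt (fun s => A.ev H (ζ s) g) g' s ∧
      ‖A.ev H (ζ s) Y.δ‖ * ‖g'‖ ≤ ‖t‖ ^ Y.e *
        ∑ j, ‖A.ev H (ζ s) (Y.δ * der j g - ∑ i ∈ Y.S, der i g * der j (Y.h i))‖ := by
  have hp := h.pos
  have hsub : ball s 1 ⊆ ball 0 2 := ball_subset_ball' (by linarith [mem_closedBall.1 hs])
  have hs2 : s ∈ ball (0 : ℂ) 2 := hsub (mem_ball_self one_pos)
  have hn : ball (0 : ℂ) 2 ∈ 𝓝 s := isOpen_ball.mem_nhds hs2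
  have hζ := (hd.differentiableAt hn).hasDerivAt
  have hB : ζ s ∈ Y.B t := by
    have : 0 < ‖t‖ ^ Y.e := by positivity
    exact mem_ball_iff_norm.2 ((hz s hs2).1.trans_lt (by linarith))
  have hv : ‖deriv ζ s‖ ≤ ‖t‖ ^ Y.e := by
    have h1 := norm_fderiv_le_of_ball one_pos ((hd.mono hsub).sub_const (Y.g0 t))
      fun y hy => (hz y (hsub hy)).1
    rw [fderiv_sub_const, ← norm_deriv_eq_norm_fderiv] at h1
    have : 0 < ‖t‖ ^ Y.e := by positivity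
    linarith
  have key : ∀ z : A.D0, HasDerivAt (fun s => A.ev H (ζ s) z)
      (∑ j, deriv ζ s j * A.ev H (ζ s) (der j z)) s := by
    intro z
    have := (h.diff_ev z hB).hasFDerivAt.comp_hasDerivAt s hζ
    rw [fderiv_apply_eq_sum] at this
    exact this
  have k0 : ∀ i ∈ Y.S, ∑ j, deriv ζ s j * A.ev H (ζ s) (der j (Y.h i)) = 0 := by
    intro i hi
    refine (key (Y.h i)).unique ((hasDerivAt_const s (0 : ℂ)).congr_of_eventuallyEq ?_)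
    filter_upwards [hn] with w hw using (hz w hw).2 i hi
  refine ⟨_, key g, ?_⟩
  have k1 : A.ev H (ζ s) Y.δ * ∑ j, deriv ζ s j * A.ev H (ζ s) (der j g) =
      ∑ j, deriv ζ s j * A.ev H (ζ s) (Y.δ * der j g - ∑ i ∈ Y.S, der i g * der j (Y.h i)) := by
    simp only [map_sub, map_mul, map_sum, mul_sub, Finset.sum_sub_distrib, Finset.mul_sum]
    rw [Finset.sum_comm (s := Finset.univ) (t := Y.S), Finset.sum_eq_zero (s := Y.S), sub_zero]
    · exact Finset.sum_congr rfl fun j _ => by ring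
    · intro i hi
      have := congrArg (A.ev H (ζ s) (der i g) * ·) (k0 i hi)
      simp only [mul_zero, Finset.mul_sum] at this
      rw [← this]
      exact Finset.sum_congr rfl fun j _ => by ring
  rw [← norm_mul, k1, Finset.mul_sum]
  refine (norm_sum_le _ _).trans (Finset.sum_le_sum fun j _ => ?_)
  rw [norm_mul]
  exact mul_le_mul_of_nonneg_right ((norm_le_pi_norm _ j).trans hv) (norm_nonneg _)

/-- all elements of the ideal of the arc are flat on the Newton arcs -/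
theorem flat (h : A.Good l t H) (z : A.D0) (hz : A.G z = 0) (n : ℕ) :
    (fun a => A.ev (H a) (Y.sol (t a) (H a)) z) =O[l] fun a => ‖t a‖ ^ n := by
  set L := Y.e + Y.d + 2 + n with hL
  obtain ⟨ζ, hζ⟩ := Y.exists_path h (L := L) (by omega)
  have hμ : 0 < |Y.μ| := abs_pos.2 Y.hμ
  have hB : ∀ᶠ a in l, ∀ s ∈ closedBall (0 : ℂ) 1, ζ a s ∈ Y.B (t a) := by
    filter_upwards [hζ, h.pos] with a a1 a2 s hs
    have : 0 < ‖t a‖ ^ Y.e := by positivity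
    exact mem_ball_iff_norm.2
      ((a1.2.1 s (closedBall_subset_ball (by norm_num) hs)).1.trans_lt (by linarith))
  have hB1 : ∀ᶠ a in l, ζ a 1 ∈ Y.B (t a) := hB.mono fun a ha => ha 1 (by simp)
  have hq : ∀ {x : α → ι → ℂ}, (∀ᶠ a in l, x a ∈ Y.B (t a)) → ∀ᶠ a in l, x a ∈ A.Uq (t a) := by
    intro x hx
    filter_upwards [hx, h.lim.eventually Y.B_subset] with a a1 a2 using a2 a1
  have hA : ∀ᶠ a in l, A.arcT L (t a) ∈ Y.B (t a) :=
    (h.lim.eventually (Y.arcT_mem (L := L) (by omega))).mono fun a ha => ha.2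
  have h1 : (fun a => ζ a 1 - A.arcT L (t a)) =O[l] fun a => ‖t a‖ ^ (Y.e + 2 + n) := by
    refine (Y.stab_O h hB1 hA (hζ.mono fun a ha => ha.2.2.2) (g := fun a => ‖t a‖ ^ L)
      fun i hi => ?_).congr' EventuallyEq.rfl ?_
    · have := (h.ev (hq hA) (L := L) (A.self_O _ _) (Y.h i) (w := 0)
        (by simp [Y.hh i hi])).neg_left
      refine this.congr' ?_ EventuallyEq.rfl
      filter_upwards [hζ] with a ha
      simp [(ha.2.1 1 (by simp)).2 i hi]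
    · filter_upwards [h.pos] with a ha
      rw [show L = Y.e + 2 + n + Y.d by omega, pow_add _ _ Y.d]
      field_simp
  obtain ⟨Cδ, hCδ, hδ⟩ := Y.evB h (L := Y.d + 1) (by unfold e; omega) Y.δ
    (w := Polynomial.C Y.μ * Polynomial.X ^ Y.d) (by simpa using Y.hδ)
  have key : ∀ ν : ℕ, ν ≤ n → ∀ g : A.D0, A.G g = 0 → ∃ C : ℝ, ∀ᶠ a in l,
      ∀ s ∈ closedBall (0 : ℂ) 1, ‖A.ev (H a) (ζ a s) g‖ ≤ C * ‖t a‖ ^ ν := by
    intro ν
    induction ν with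
    | zero =>
      intro _ g _
      obtain ⟨C, -, h2⟩ := Y.evB h (L := 0) (Nat.zero_le _) g (w := 0) (by simp)
      refine ⟨C, ?_⟩
      filter_upwards [h2, hB] with a a1 a2 s hs
      simpa using a1 _ (a2 s hs)
    | succ ν ih =>
      intro hν g hg
      choose C hC using fun j => ih (by omega) _ (Y.hY g hg j)
      have h2 : (fun a => ζ a 1 - A.arcT (ν + 1) (t a)) =O[l] fun a => ‖t a‖ ^ (ν + 1) :=
        ((h1.trans (pow_O h.lim0 (by omega))).add ((A.arcT_sub (n := ν + 1) (L := L) (by omega)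
          le_rfl).comp_tendsto h.lim0)).congr_left fun a => by simp
      obtain ⟨C1, h3⟩ := (h.ev (hq hB1) h2 g (w := 0) (by simp [hg])).bound
      refine ⟨C1 + 2 * (2 * (∑ j, |C j|) / |Y.μ|), ?_⟩
      filter_upwards [h3, eventually_all.2 hC, hζ, hB, hδ, Y.good_Q h, h.small 1 one_pos,
        h.small Cδ (half_pos hμ)] with a a1 a2 a3 a4 a5 a6 a7 a8 s hs
      have hp := a6.pos
      choose! g' hg1 hg2 using fun s hs => Y.path_deriv a6 a3.1 a3.2.1 g (s := s) hs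
      have b1 : ∀ s ∈ closedBall (0 : ℂ) 1,
          ‖g' s‖ ≤ 2 * (∑ j, |C j|) / |Y.μ| * ‖t a‖ ^ (ν + 1) := by
        intro s hs
        have c1 := a5 _ (a4 s hs)
        have c2 := norm_sub_norm_le (Polynomial.aeval (t a) (Polynomial.C Y.μ * Polynomial.X ^ Y.d))
          (A.ev (H a) (ζ a s) Y.δ)
        rw [norm_sub_rev] at c2
        have c3 : ‖Polynomial.aeval (t a) (Polynomial.C Y.μ * Polynomial.X ^ Y.d)‖ =
            |Y.μ| * ‖t a‖ ^ Y.d := by simp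
        have c4 : 0 < ‖t a‖ ^ Y.d := by positivity
        have c5 : |Y.μ| / 2 * ‖t a‖ ^ Y.d ≤ ‖A.ev (H a) (ζ a s) Y.δ‖ := by
          rw [pow_succ] at c1
          nlinarith
        have c6 : ∑ j, ‖A.ev (H a) (ζ a s) (Y.δ * der j g - ∑ i ∈ Y.S, der i g * der j (Y.h i))‖ ≤
            (∑ j, |C j|) * ‖t a‖ ^ ν := by
          rw [Finset.sum_mul]
          exact Finset.sum_le_sum fun j _ => (a2 j s hs).trans
            (mul_le_mul_of_nonneg_right (le_abs_self _) (by positivity))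
        have c7 : ‖t a‖ ^ Y.e ≤ ‖t a‖ ^ (Y.d + 1) :=
          pow_le_pow_of_le_one hp.le (by linarith) (by unfold e; omega)
        have c8 : 0 ≤ ∑ j, |C j| := Finset.sum_nonneg fun _ _ => abs_nonneg _
        have c9 : |Y.μ| / 2 * ‖t a‖ ^ Y.d * ‖g' s‖ ≤
            ‖t a‖ ^ (Y.d + 1) * ((∑ j, |C j|) * ‖t a‖ ^ ν) :=
          calc _ ≤ ‖A.ev (H a) (ζ a s) Y.δ‖ * ‖g' s‖ := by gcongr
            _ ≤ _ := hg2 s hs
            _ ≤ _ := by gcongr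
        refine le_of_mul_le_mul_left (c9.trans (le_of_eq ?_))
          (by positivity : 0 < |Y.μ| / 2 * ‖t a‖ ^ Y.d)
        rw [pow_succ, pow_succ]
        field_simp
      have b2 := (convex_closedBall (0 : ℂ) 1).norm_image_sub_le_of_norm_hasDerivWithin_le
        (fun s hs => (hg1 s hs).hasDerivWithinAt) b1 (x := 1) (by simp) hs
      have b3 : ‖s - 1‖ ≤ 2 := by
        have := norm_sub_le s 1
        rw [mem_closedBall_zero_iff] at hs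
        rw [norm_one] at this
        linarith
      have b4 := norm_add_le (A.ev (H a) (ζ a s) g - A.ev (H a) (ζ a 1) g) (A.ev (H a) (ζ a 1) g)
      rw [sub_add_cancel] at b4
      rw [map_zero, sub_zero, Real.norm_of_nonneg (by positivity)] at a1
      have b5 := (norm_nonneg _).trans (b1 s hs)
      nlinarith
  obtain ⟨C, hC⟩ := key n le_rfl z hz
  refine IsBigO.of_bound C ?_
  filter_upwards [hC, hζ] with a a1 a2
  rw [← a2.2.2.1, Real.norm_of_nonneg (by positivity)]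
  exact a1 0 (by simp)

end Sys

end ArcD

end Vale.Agent.P218F.NA
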