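import Vale.Agent.P218F.Ops

/-! Families of truncations with open-ended constants; stability under admissible operators and
limits on the locus where the end parameters vanish. -/

open Complex Metric Filter Topology

namespace Vale.Agent.P218F

open Vale.Agent.P274.HolOs

set_option linter.unusedSectionVars false

variable {ι : Type} [Fintype ι] [DecidableEq ι]

/-- the constants of a family -/
structure Par (ι : Type) where
  I : Finset ι
  c : ℝ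
  r : ℝ
  κ : ℝ
  R0 : ℕ
  hc : 0 < c
  hr : 0 < r
  hκ : 0 < κ
  hR : 1 ≤ R0

/-- the shrunk domains -/
def Par.dom (P : Par ι) (θ : ℝ) (R : ℕ) : Set (ι → ℂ) := Dom P.I (θ * P.c) (θ * P.r) R

theorem isOpen_Dom (I : Finset ι) (c r : ℝ) (R : ℕ) : IsOpen (Dom I c r R) := by
  have : Dom I c r R = {ξ | ‖ξ‖ < r} ∩ ⋂ i ∈ I, {ξ : ι → ℂ | ‖ξ i‖ < c / R} := by
    ext ξ; simp [Dom]
  rw [this]
  exact (isOpen_lt continuous_norm continuous_const).inter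
    (isOpen_biInter_finset fun i _ => isOpen_lt (continuous_apply i).norm continuous_const)

theorem Par.isOpen_dom (P : Par ι) (θ : ℝ) (R : ℕ) : IsOpen (P.dom θ R) := isOpen_Dom _ _ _ _

theorem Par.dom_one (P : Par ι) (R : ℕ) : P.dom 1 R = Dom P.I P.c P.r R := by simp [Par.dom]

theorem Par.dom_mono (P : Par ι) {θ θ' : ℝ} {R R' : ℕ} (h0 : 0 ≤ θ') (h : θ ≤ θ') (hR : 1 ≤ R')
    (hRR : R' ≤ R) : P.dom θ R ⊆ P.dom θ' R' := by
  rintro ξ ⟨h1, h2⟩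
  have hc := P.hc
  have hr := P.hr
  have a1 : (1 : ℝ) ≤ R' := by exact_mod_cast hR
  have a2 : (R' : ℝ) ≤ R := by exact_mod_cast hRR
  refine ⟨h1.trans_le (by gcongr), fun i hi => (h2 i hi).trans_le ?_⟩
  calc θ * P.c / R ≤ θ' * P.c / R := by gcongr
    _ ≤ θ' * P.c / R' := by gcongr

/-- the smallest of the constants -/
noncomputable def Par.m (P : Par ι) : ℝ := min 1 (min P.c P.r)

theorem Par.m_pos (P : Par ι) : 0 < P.m := lt_min one_pos (lt_min P.hc P.hr)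

theorem Par.m_le_one (P : Par ι) : P.m ≤ 1 := min_le_left _ _

theorem Par.m_le_c (P : Par ι) : P.m ≤ P.c := (min_le_right _ _).trans (min_le_left _ _)

theorem Par.m_le_r (P : Par ι) : P.m ≤ P.r := (min_le_right _ _).trans (min_le_right _ _)

theorem Par.ball_subset (P : Par ι) {θ θ' : ℝ} {R : ℕ} (h : θ ≤ θ') (hR : 1 ≤ R) {ξ : ι → ℂ}
    (hξ : ξ ∈ P.dom θ R) : ball ξ ((θ' - θ) * P.m / R) ⊆ P.dom θ' R := by
  intro y hy
  rw [mem_ball, dist_eq_norm] at hy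
  obtain ⟨h1, h2⟩ := hξ
  have a1 : (1 : ℝ) ≤ R := by exact_mod_cast hR
  have a0 : 0 ≤ θ' - θ := by linarith
  have hm := P.m_pos
  constructor
  · have b1 : (θ' - θ) * P.m / R ≤ (θ' - θ) * P.r :=
      (div_le_self (by positivity) a1).trans (by gcongr; exact P.m_le_r)
    have b2 : ‖y‖ ≤ ‖ξ‖ + ‖y - ξ‖ := by simpa using norm_add_le ξ (y - ξ)
    nlinarith
  · intro i hi
    have b1 : (θ' - θ) * P.m / R ≤ (θ' - θ) * P.c / R := by gcongr; exact P.m_le_c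
    have b2 : ‖y i‖ ≤ ‖ξ i‖ + ‖y i - ξ i‖ := by simpa using norm_add_le (ξ i) (y i - ξ i)
    have b3 : ‖y i - ξ i‖ ≤ ‖y - ξ‖ := norm_le_pi_norm (y - ξ) i
    have b4 := h2 i hi
    have b5 : θ' * P.c / R = θ * P.c / R + (θ' - θ) * P.c / R := by ring
    linarith

theorem Par.norm_lt (P : Par ι) {θ : ℝ} {R : ℕ} (h : θ ≤ 1) {ξ : ι → ℂ} (hξ : ξ ∈ P.dom θ R) :
    ‖ξ‖ < P.r := hξ.1.trans_le (by nlinarith [P.hr])

/-- families with open-ended constants -/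
structure GFo (P : Par ι) (F : ℕ → (ι → ℂ) → ℂ) : Prop where
  diff : ∀ R, P.R0 ≤ R → DifferentiableOn ℂ (F R) (P.dom 1 R)
  est : ∀ θ : ℝ, 0 < θ → θ < 1 → ∃ C : ℝ, 0 ≤ C ∧ (∀ ξ ∈ P.dom θ P.R0, ‖F P.R0 ξ‖ ≤ C) ∧
    ∀ R, P.R0 ≤ R → ∀ ξ ∈ P.dom θ (R + 1),
      ‖F (R + 1) ξ - F R ξ‖ ≤ C * Real.exp (-(θ * P.κ * R))

theorem GFo.pair {P : Par ι} {F : ℕ → (ι → ℂ) → ℂ} (h : GFo P F) {θ : ℝ} (h0 : 0 < θ)
    (h1 : θ < 1) : ∃ C : ℝ, 0 ≤ C ∧ ∀ R, P.R0 ≤ R → (∀ ξ ∈ P.dom θ R, ‖F R ξ‖ ≤ C) ∧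
      ∀ R', R ≤ R' → ∀ ξ ∈ P.dom θ R', ‖F R' ξ - F R ξ‖ ≤ C * Real.exp (-(θ * P.κ * R)) := by
  obtain ⟨C, hC, b0, st⟩ := h.est θ h0 h1
  set q := Real.exp (-(θ * P.κ)) with hq
  have hq0 : 0 < q := Real.exp_pos _
  have hq1 : q < 1 := Real.exp_lt_one_iff.2 (by have := P.hκ; nlinarith [mul_pos h0 P.hκ])
  have hqR : ∀ R : ℕ, Real.exp (-(θ * P.κ * R)) = q ^ R := fun R => by
    rw [hq, ← Real.exp_nat_mul]; congr 1; ring
  have key : ∀ R, P.R0 ≤ R → ∀ n : ℕ, ∀ ξ ∈ P.dom θ (R + n),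
      ‖F (R + n) ξ - F R ξ‖ ≤ C / (1 - q) * (q ^ R - q ^ (R + n)) := by
    intro R hR n
    induction n with
    | zero => intro ξ _; simp
    | succ n ih =>
      intro ξ hξ
      have e1 := ih ξ (P.dom_mono h0.le le_rfl (by have := P.hR; omega) (by omega) hξ)
      have e2 := st (R + n) (by omega) ξ hξ
      rw [hqR] at e2
      have e3 : C / (1 - q) * (q ^ R - q ^ (R + (n + 1))) =
          C / (1 - q) * (q ^ R - q ^ (R + n)) + C * q ^ (R + n) := by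
        have : 1 - q ≠ 0 := by linarith
        rw [← add_assoc, pow_succ]; field_simp; ring
      rw [e3]
      calc ‖F (R + (n + 1)) ξ - F R ξ‖
          = ‖(F (R + n) ξ - F R ξ) + (F (R + n + 1) ξ - F (R + n) ξ)‖ := by
            congr 1; rw [← add_assoc]; ring
        _ ≤ _ := (norm_add_le _ _).trans (by linarith)
  have hC' : 0 ≤ C / (1 - q) := div_nonneg hC (by linarith)
  have key2 : ∀ R, P.R0 ≤ R → ∀ R', R ≤ R' → ∀ ξ ∈ P.dom θ R',
      ‖F R' ξ - F R ξ‖ ≤ C / (1 - q) * q ^ R := by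
    intro R hR R' hRR ξ hξ
    obtain ⟨n, rfl⟩ := Nat.exists_eq_add_of_le hRR
    refine (key R hR n ξ hξ).trans (mul_le_mul_of_nonneg_left ?_ hC')
    have := pow_pos hq0 (R + n)
    linarith
  refine ⟨C + C / (1 - q), by positivity, fun R hR => ⟨fun ξ hξ => ?_, fun R' hRR ξ hξ => ?_⟩⟩
  · have e1 := key2 P.R0 le_rfl R hR ξ hξ
    have e2 := b0 ξ (P.dom_mono h0.le le_rfl P.hR hR hξ)
    have e3 : C / (1 - q) * q ^ P.R0 ≤ C / (1 - q) :=
      mul_le_of_le_one_right hC' (pow_le_one₀ hq0.le hq1.le)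
    have e4 : ‖F R ξ‖ ≤ ‖F P.R0 ξ‖ + ‖F R ξ - F P.R0 ξ‖ := by
      simpa using norm_add_le (F P.R0 ξ) (F R ξ - F P.R0 ξ)
    linarith
  · rw [hqR]
    refine (key2 R hR R' hRR ξ hξ).trans ?_
    have := pow_pos hq0 R
    nlinarith [mul_nonneg hC this.le]

theorem pow_mul_exp_le (k : ℕ) {a : ℝ} (ha : 0 < a) :
    ∃ C : ℝ, 0 ≤ C ∧ ∀ x : ℝ, 0 ≤ x → (x + 1) ^ k * Real.exp (-(a * x)) ≤ C := by
  refine ⟨k.factorial / a ^ k * Real.exp a, by positivity, fun x hx => ?_⟩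
  have h1 := Real.pow_div_factorial_le_exp (a * (x + 1)) (by positivity) k
  rw [mul_pow, div_le_iff₀ (by positivity)] at h1
  have h2 : Real.exp (a * (x + 1)) * Real.exp (-(a * x)) = Real.exp a := by
    rw [← Real.exp_add]; congr 1; ring
  have h3 := Real.exp_pos (-(a * x))
  have h4 := pow_pos ha k
  rw [← h2, div_mul_eq_mul_div, le_div_iff₀ h4]
  nlinarith [mul_le_mul_of_nonneg_right h1 h3.le]

theorem GFo.close {P : Par ι} {F : ℕ → (ι → ℂ) → ℂ} (h : GFo P F) {θ θ' : ℝ} (h0 : 0 < θ)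
    (h1 : θ ≤ θ') (h2 : θ' < 1) : ∃ C : ℝ, P.r ≤ C ∧ ∀ R R', P.R0 ≤ R → R ≤ R' →
      ∀ ξ ∈ P.dom θ R', Close (F R') (F R) ξ ((θ' - θ) * P.m / R') C
        (C * Real.exp (-(θ' * P.κ * R))) := by
  obtain ⟨C, hC, e⟩ := h.pair (h0.trans_le h1) h2
  refine ⟨C + P.r, by linarith, fun R R' hR hRR ξ hξ => ?_⟩
  have hR1 : 1 ≤ R := P.hR.trans hR
  have s1 := P.ball_subset h1 (hR1.trans hRR) hξ
  have s2 : P.dom θ' R' ⊆ P.dom θ' R := P.dom_mono (by linarith) le_rfl hR1 hRR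
  have hr := P.hr
  refine ⟨(h.diff R' (hR.trans hRR)).mono (s1.trans (P.dom_mono zero_le_one h2.le
    (hR1.trans hRR) le_rfl)), (h.diff R hR).mono (s1.trans (P.dom_mono zero_le_one h2.le
    hR1 hRR)), fun y hy => ((e R' (hR.trans hRR)).1 y (s1 hy)).trans (by linarith),
    fun y hy => ((e R hR).1 y (s2 (s1 hy))).trans (by linarith),
    fun y hy => ((e R hR).2 R' hRR y (s1 hy)).trans ?_⟩
  gcongr
  linarith

theorem Par.rad_pos (P : Par ι) {θ θ' : ℝ} (h : θ < θ') {R : ℕ} (hR : 1 ≤ R) :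
    0 < (θ' - θ) * P.m / R := by
  have := P.m_pos
  have a1 : (0 : ℝ) < R := by exact_mod_cast hR
  have : 0 < θ' - θ := by linarith
  positivity

theorem Par.rad_le_one (P : Par ι) {θ θ' : ℝ} (h0 : 0 ≤ θ) (h : θ ≤ θ') (h1 : θ' ≤ 1) {R : ℕ}
    (hR : 1 ≤ R) : (θ' - θ) * P.m / R ≤ 1 := by
  have := P.m_pos
  have := P.m_le_one
  have a1 : (1 : ℝ) ≤ R := by exact_mod_cast hR
  rw [div_le_one (by linarith)]
  nlinarith

theorem GFo.op {P : Par ι} {F : ℕ → (ι → ℂ) → ℂ} (h : GFo P F)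
    {O : ((ι → ℂ) → ℂ) → (ι → ℂ) → ℂ} (hO : Adm O) : GFo P fun R => O (F R) := by
  refine ⟨fun R hR => hO.diff _ _ (P.isOpen_dom 1 R) (h.diff R hR), fun θ h0 h1 => ?_⟩
  obtain ⟨k, hk⟩ := hO.est
  set θ' := (θ + 1) / 2 with hθ'
  have t1 : θ < θ' := by linarith
  have t2 : θ' < 1 := by linarith
  obtain ⟨M, hM, cl⟩ := h.close h0 t1.le t2
  obtain ⟨C, hC, e⟩ := hk M
  obtain ⟨C2, hC2, e2⟩ := pow_mul_exp_le k (mul_pos (sub_pos.2 t1) P.hκ)
  have hM0 : 0 ≤ M := P.hr.le.trans hM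
  have hm := P.m_pos
  have hd : 0 < (θ' - θ) * P.m := mul_pos (sub_pos.2 t1) hm
  refine ⟨C / ((θ' - θ) * P.m / P.R0) ^ k + C * M * C2 / ((θ' - θ) * P.m) ^ k, by
    have := P.rad_pos t1 P.hR
    positivity, fun ξ hξ => ?_, fun R hR ξ hξ => ?_⟩
  · have := (e _ _ ξ _ _ (P.rad_pos t1 P.hR) (P.rad_le_one h0.le t1.le t2.le P.hR)
      ((P.norm_lt h1.le hξ).le.trans hM) (cl P.R0 P.R0 le_rfl le_rfl ξ hξ)).1
    have h3 : 0 ≤ C * M * C2 / ((θ' - θ) * P.m) ^ k := by positivity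
    linarith
  · have hR1 : 1 ≤ R + 1 := by omega
    have := (e _ _ ξ _ _ (P.rad_pos t1 hR1) (P.rad_le_one h0.le t1.le t2.le hR1)
      ((P.norm_lt h1.le hξ).le.trans hM) (cl R (R + 1) hR (by omega) ξ hξ)).2
    refine this.trans ?_
    have h3 : 0 ≤ C / ((θ' - θ) * P.m / P.R0) ^ k := by
      have := P.rad_pos t1 P.hR
      positivity
    have h4 := e2 R (Nat.cast_nonneg R)
    have h5 : Real.exp (-(θ' * P.κ * R)) =
        Real.exp (-((θ' - θ) * P.κ * R)) * Real.exp (-(θ * P.κ * R)) := by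
      rw [← Real.exp_add]; congr 1; ring
    have h6 := Real.exp_pos (-(θ * P.κ * R))
    have h7 : C * (M * Real.exp (-(θ' * P.κ * R))) / ((θ' - θ) * P.m / ((R + 1 : ℕ) : ℝ)) ^ k =
        C * M * (((R : ℝ) + 1) ^ k * Real.exp (-((θ' - θ) * P.κ * R))) / ((θ' - θ) * P.m) ^ k *
          Real.exp (-(θ * P.κ * R)) := by
      rw [h5, div_pow]; push_cast; field_simp
    rw [h7]
    refine mul_le_mul_of_nonneg_right ?_ h6.le
    have h8 : C * M * (((R : ℝ) + 1) ^ k * Real.exp (-((θ' - θ) * P.κ * R))) /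
        ((θ' - θ) * P.m) ^ k ≤ C * M * C2 / ((θ' - θ) * P.m) ^ k := by gcongr
    linarith

theorem GFo.D {P : Par ι} {F : ℕ → (ι → ℂ) → ℂ} (h : GFo P F) (j : ι) :
    GFo P fun R => D j (F R) := h.op (Adm.id.deriv j)

/-- the constants of an `IsGF` family -/
def IsGF.par {I : Finset ι} {c r κ : ℝ} {R0 : ℕ} {F : ℕ → (ι → ℂ) → ℂ}
    (h : IsGF I c r κ R0 F) : Par ι := ⟨I, c, r, κ, R0, h.c_pos, h.r_pos, h.κ_pos, h.R0_pos⟩

theorem IsGF.gfo {I : Finset ι} {c r κ : ℝ} {R0 : ℕ} {F : ℕ → (ι → ℂ) → ℂ}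
    (h : IsGF I c r κ R0 F) : GFo h.par F := by
  refine ⟨fun R hR => by rw [Par.dom_one]; exact h.diff R hR, fun θ h0 h1 => ?_⟩
  obtain ⟨C, hC⟩ := h.bdd
  obtain ⟨C', hC'⟩ := h.step
  have s : ∀ R, 1 ≤ R → h.par.dom θ R ⊆ Dom I c r R := fun R hR => by
    have := h.par.dom_mono zero_le_one h1.le hR le_rfl
    rwa [Par.dom_one] at this
  refine ⟨|C| + |C'|, by positivity, fun ξ hξ => ?_, fun R hR ξ hξ => ?_⟩
  · have := hC ξ (s R0 h.R0_pos hξ)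
    have := le_abs_self C
    have := abs_nonneg C'
    change ‖F R0 ξ‖ ≤ _
    linarith
  · refine (hC' R hR ξ (s (R + 1) (by omega) hξ)).trans ?_
    have a1 : Real.exp (-(κ * R)) ≤ Real.exp (-(θ * h.par.κ * R)) := by
      refine Real.exp_le_exp.2 ?_
      change -(κ * R) ≤ -(θ * κ * R)
      have : 0 ≤ κ * R := mul_nonneg h.κ_pos.le (Nat.cast_nonneg R)
      nlinarith
    have a2 := Real.exp_pos (-(κ * R))
    have := le_abs_self C'
    have := abs_nonneg C'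
    have := abs_nonneg C
    nlinarith

/-- A uniform limit of holomorphic functions on a ball is holomorphic. -/
theorem differentiableOn_of_lim {E : Type*} [NormedAddCommGroup E] [NormedSpace ℂ E]
    {f : ℕ → E → ℂ} {g : E → ℂ} {x : E} {ρ : ℝ} (hρ : 0 < ρ) {ε : ℕ → ℝ}
    (hε : Tendsto ε atTop (𝓝 0))
    (hf : ∀ᶠ n in atTop, DifferentiableOn ℂ (f n) (ball x ρ) ∧
      ∀ y ∈ ball x ρ, ‖f n y - g y‖ ≤ ε n) : DifferentiableAt ℂ g x := by
  have hρ2 : 0 < ρ / 2 := by positivity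
  have hsub : ball x (ρ / 2) ⊆ ball x ρ := ball_subset_ball (by linarith)
  have hcau : UniformCauchySeqOn (fun n => fderiv ℂ (f n)) atTop (ball x (ρ / 2)) := by
    rw [Metric.uniformCauchySeqOn_iff]
    intro δ hδ
    have h1 : ∀ᶠ n in atTop, ε n < δ * (ρ / 2) / 2 := hε.eventually (gt_mem_nhds (by positivity))
    obtain ⟨N, hN⟩ := eventually_atTop.1 (hf.and h1)
    refine ⟨N, fun m hm n hn y hy => ?_⟩
    have hy' : dist y x < ρ / 2 := hy
    have s1 : ball y (ρ / 2) ⊆ ball x ρ := ball_subset_ball' (by linarith)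
    obtain ⟨⟨d1, b1⟩, c1⟩ := hN m hm
    obtain ⟨⟨d2, b2⟩, c2⟩ := hN n hn
    rw [dist_eq_norm, ← fderiv_fun_sub (d1.differentiableAt (isOpen_ball.mem_nhds (hsub hy)))
      (d2.differentiableAt (isOpen_ball.mem_nhds (hsub hy)))]
    refine (norm_fderiv_le_of_ball (C := ε m + ε n) hρ2 ((d1.mono s1).sub (d2.mono s1))
      fun z hz => ?_).trans_lt ?_
    · calc ‖f m z - f n z‖ = ‖(f m z - g z) - (f n z - g z)‖ := by congr 1; ring
        _ ≤ _ := (norm_sub_le _ _).trans (add_le_add (b1 z (s1 hz)) (b2 z (s1 hz)))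
    · rw [div_lt_iff₀ hρ2]; linarith
  have hlim : ∀ y ∈ ball x (ρ / 2), ∃ L, Tendsto (fun n => fderiv ℂ (f n) y) atTop (𝓝 L) :=
    fun y hy => cauchySeq_tendsto_of_complete (hcau.cauchySeq hy)
  choose! g' hg' using hlim
  have hu := hcau.tendstoUniformlyOn_of_tendsto hg'
  have hb : ball x (ρ / 2) ∈ 𝓝 x := ball_mem_nhds x hρ2
  refine (hasFDerivAt_of_tendstoUniformlyOnFilter (f := f)
    ((tendstoUniformlyOn_iff_tendstoUniformlyOnFilter.1 hu).mono_right (le_principal_iff.2 hb))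
    ?_ ?_).differentiableAt
  · filter_upwards [prod_mem_prod hf hb] with p hp
    exact (hp.1.1.differentiableAt (isOpen_ball.mem_nhds (hsub hp.2))).hasFDerivAt
  · filter_upwards [hb] with y hy
    rw [tendsto_iff_norm_sub_tendsto_zero]
    exact squeeze_zero' (Eventually.of_forall fun _ => norm_nonneg _)
      (hf.mono fun n hn => hn.2 y (hsub hy)) hε

end Vale.Agent.P218F
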