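import Vale.Agent.P218F.Spec

/-! Exponentials with real polar parts do not cancel along a generic ray. -/

open Complex Filter Polynomial Topology

namespace Vale.Agent.P218F

/-- A direction along which all powers have non zero real part. -/
theorem nc_exists_dir (σ : ℂ) (p : ℕ) (δ : ℝ) (hσ : ‖σ‖ = 1) (hp : 1 ≤ p) (hδ : 0 < δ) :
    ∃ θ : ℝ, |θ| ≤ δ ∧ ∀ n : ℕ, ((σ * exp ((θ * Complex.I) / p)) ^ n).re ≠ 0 := by
  have hp0 : (p : ℝ) ≠ 0 := by positivity
  have hσ0 : σ = exp (σ.arg * Complex.I) := by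
    have := Complex.norm_mul_exp_arg_mul_I σ
    rw [hσ] at this
    simpa using this.symm
  set α := σ.arg with hα
  let f : ℕ × ℤ → ℝ := fun q => p * ((2 * (q.2 : ℝ) + 1) * Real.pi / 2 / (q.1 : ℝ) - α)
  have hc : (Set.range f).Countable := Set.countable_range f
  have hd : Dense (Set.range f)ᶜ := hc.dense_compl ℝ
  obtain ⟨θ, hθ1, hθ2⟩ := hd.inter_open_nonempty (Set.Ioo (-δ) δ) isOpen_Ioo
    ⟨0, by constructor <;> linarith⟩
  refine ⟨θ, abs_le.2 ⟨hθ1.1.le, hθ1.2.le⟩, fun n hn => ?_⟩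
  have e1 : (σ * exp ((θ * Complex.I) / p)) ^ n
      = exp (((n * (α + θ / p) : ℝ) : ℂ) * Complex.I) := by
    rw [hσ0, ← Complex.exp_add, ← Complex.exp_nat_mul]
    congr 1
    push_cast
    ring
  rw [e1, Complex.exp_ofReal_mul_I_re, Real.cos_eq_zero_iff] at hn
  obtain ⟨k, hk⟩ := hn
  rcases Nat.eq_zero_or_pos n with h0 | h0
  · subst h0
    have h1 : (2 * (k : ℝ) + 1) * Real.pi / 2 = 0 := by rw [← hk]; simp
    have h2 : (2 * (k : ℝ) + 1) = 0 := by
      have := Real.pi_pos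
      have h3 : (2 * (k : ℝ) + 1) * Real.pi = 0 := by linarith
      rcases mul_eq_zero.1 h3 with h | h
      · exact h
      · linarith
    have h4 : (2 * k + 1 : ℤ) = 0 := by exact_mod_cast h2
    omega
  · apply hθ2
    refine ⟨(n, k), ?_⟩
    have hn0 : (n : ℝ) ≠ 0 := by positivity
    simp only [f]
    rw [← hk]
    field_simp
    ring

/-- The real part of a real polynomial along a ray is a real polynomial. -/
theorem nc_re_poly (τ : ℂ) (D : ℝ[X]) :
    ∃ R : ℝ[X], (∀ k, R.coeff k = D.coeff k * (τ ^ k).re) ∧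
      ∀ y : ℝ, R.eval y = (aeval (τ * y) D).re := by
  refine ⟨∑ k ∈ Finset.range (D.natDegree + 1), monomial k (D.coeff k * (τ ^ k).re), ?_, ?_⟩
  · intro k
    rw [finsetSum_coeff]
    simp only [coeff_monomial]
    rw [Finset.sum_ite_eq']
    split_ifs with h
    · rfl
    · rw [coeff_eq_zero_of_natDegree_lt (by simpa using h), zero_mul]
  · intro y
    rw [aeval_eq_sum_range, eval_finsetSum, Complex.re_sum]
    refine Finset.sum_congr rfl fun k _ => ?_
    rw [eval_monomial, mul_pow, ← Complex.ofReal_pow, Complex.real_smul, ← mul_assoc,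
      Complex.mul_re, Complex.ofReal_re, Complex.ofReal_im, mul_zero, sub_zero,
      Complex.re_ofReal_mul]

/-- Dichotomy along a generic ray. -/
theorem nc_limit (τ : ℂ) (hτ : ∀ n : ℕ, (τ ^ n).re ≠ 0) (D : ℝ[X]) (y : ℝ → ℝ)
    (hy : Tendsto y atTop atTop)
    (hfr : ∃ᶠ x in atTop, (aeval (τ * y x) D).re ≤ 0) :
    ∃ a : ℝ, 0 ≤ a ∧ (D = 0 → a = 1) ∧
      Tendsto (fun x => exp (aeval (τ * y x) D)) atTop (𝓝 (a : ℂ)) := by
  obtain ⟨R, hR1, hR2⟩ := nc_re_poly τ D
  by_cases hdeg : 0 < R.degree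
  · have hD : D ≠ 0 := by
      rintro rfl
      have : R = 0 := by
        ext k
        simp [hR1]
      simp [this] at hdeg
    refine ⟨0, le_rfl, fun h => absurd h hD, ?_⟩
    rcases le_total 0 R.leadingCoeff with hl | hl
    · exfalso
      have h1 := (R.tendsto_atTop_of_leadingCoeff_nonneg hdeg hl).comp hy
      have h2 := h1.eventually (eventually_gt_atTop 0)
      obtain ⟨x, hx1, hx2⟩ := (hfr.and_eventually h2).exists
      simp only [Function.comp, hR2] at hx2
      linarith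
    · have h1 := (R.tendsto_atBot_of_leadingCoeff_nonpos hdeg hl).comp hy
      have h2 := Real.tendsto_exp_atBot.comp h1
      rw [Complex.ofReal_zero, tendsto_zero_iff_norm_tendsto_zero]
      refine h2.congr fun x => ?_
      simp only [Function.comp, hR2, Complex.norm_exp]
  · have hD : D = C (D.coeff 0) := by
      apply eq_C_of_degree_le_zero
      rw [degree_le_iff_coeff_zero]
      intro m hm
      have h1 : R.coeff m = 0 := coeff_eq_zero_of_degree_lt (lt_of_le_of_lt (not_lt.1 hdeg) hm)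
      rw [hR1] at h1
      exact (mul_eq_zero.1 h1).resolve_right (hτ m)
    refine ⟨Real.exp (D.coeff 0), (Real.exp_pos _).le, fun h => by simp [h], ?_⟩
    refine tendsto_const_nhds.congr fun x => ?_
    conv_rhs => rw [hD]
    simp

theorem noCancel : NoCancel := by
  intro ι J w Q σ p δ hJ hw hσ hp hδ
  obtain ⟨θ, hθ, hτ⟩ := nc_exists_dir σ p δ hσ hp hδ
  refine ⟨θ, hθ, fun E hE hev => ?_⟩
  set τ := σ * exp ((θ * Complex.I) / p) with hτdef
  have hp0 : (0 : ℝ) < p := by exact_mod_cast hp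
  let y : ℝ → ℝ := fun x => Real.exp (x / p)
  have hy : Tendsto y atTop atTop :=
    Real.tendsto_exp_atTop.comp (tendsto_id.atTop_div_const hp0)
  have hs : ∀ x : ℝ, σ * exp (((x : ℂ) + θ * Complex.I) / p) = τ * y x := by
    intro x
    simp only [hτdef, y]
    rw [add_div, Complex.exp_add]
    push_cast
    ring
  simp only [hs] at hE
  obtain ⟨j, hj, hfr⟩ : ∃ j ∈ J, ∃ᶠ x in atTop,
      ∀ i ∈ J, (aeval (τ * y x) (Q i)).re ≤ (aeval (τ * y x) (Q j)).re := by
    by_contra hcon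
    push Not at hcon
    have h1 : ∀ᶠ x in atTop, ∀ j ∈ J,
        ¬ ∀ i ∈ J, (aeval (τ * y x) (Q i)).re ≤ (aeval (τ * y x) (Q j)).re := by
      rw [Filter.eventually_all_finset]
      intro j hj
      refine (hcon j hj).mono fun x hx h => ?_
      obtain ⟨i, hi, hlt⟩ := hx
      exact absurd (h i hi) (not_le.2 hlt)
    obtain ⟨x, hx⟩ := h1.exists
    obtain ⟨j, hj, hmax⟩ := J.exists_max_image (fun i => (aeval (τ * y x) (Q i)).re) hJ
    exact hx j hj hmax
  have hlim : ∀ i ∈ J, ∃ a : ℝ, 0 ≤ a ∧ (Q i - Q j = 0 → a = 1) ∧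
      Tendsto (fun x => exp (aeval (τ * y x) (Q i - Q j))) atTop (𝓝 (a : ℂ)) := by
    intro i hi
    refine nc_limit τ hτ _ y hy (hfr.mono fun x hx => ?_)
    rw [map_sub, Complex.sub_re]
    linarith [hx i hi]
  choose! a ha0 ha1 ha2 using hlim
  let F : ι → ℝ → ℂ := fun i x => exp (E i x) * exp (-aeval (τ * y x) (Q j))
  have hF : ∀ i ∈ J, Tendsto (F i) atTop (𝓝 (a i : ℂ)) := by
    intro i hi
    have h1 : Tendsto (fun x => exp (E i x - aeval (τ * y x) (Q i))) atTop (𝓝 1) := by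
      have := (Complex.continuous_exp.tendsto 0).comp (hE i hi)
      simpa [Function.comp_def] using this
    have h2 := h1.mul (ha2 i hi)
    rw [one_mul] at h2
    refine h2.congr fun x => ?_
    simp only [F]
    rw [← Complex.exp_add, ← Complex.exp_add, map_sub]
    congr 1
    ring
  have hL : Tendsto (fun x => ‖∑ i ∈ J, (w i : ℂ) * F i x‖) atTop (𝓝 (∑ i ∈ J, w i * a i)) := by
    have h1 : Tendsto (fun x => ∑ i ∈ J, (w i : ℂ) * F i x) atTop
        (𝓝 (∑ i ∈ J, (w i : ℂ) * (a i : ℂ))) :=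
      tendsto_finsetSum _ fun i hi => (hF i hi).const_mul _
    have h2 := h1.norm
    have h3 : ‖∑ i ∈ J, (w i : ℂ) * (a i : ℂ)‖ = ∑ i ∈ J, w i * a i := by
      have : ∑ i ∈ J, (w i : ℂ) * (a i : ℂ) = ((∑ i ∈ J, w i * a i : ℝ) : ℂ) := by
        push_cast
        rfl
      rw [this, Complex.norm_real, Real.norm_eq_abs, abs_of_nonneg]
      exact Finset.sum_nonneg fun i hi => mul_nonneg (hw i hi).le (ha0 i hi)
    rwa [h3] at h2
  have hR : Tendsto (fun x => 3 / 4 * ∑ i ∈ J, w i * ‖F i x‖) atTop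
      (𝓝 (3 / 4 * ∑ i ∈ J, w i * a i)) := by
    refine Tendsto.const_mul _ (tendsto_finsetSum _ fun i hi => Tendsto.const_mul _ ?_)
    have h1 := (hF i hi).norm
    rwa [Complex.norm_real, Real.norm_eq_abs, abs_of_nonneg (ha0 i hi)] at h1
  have hle : ∑ i ∈ J, w i * a i ≤ 3 / 4 * ∑ i ∈ J, w i * a i := by
    refine le_of_tendsto_of_tendsto hL hR (hev.mono fun x hx => ?_)
    have hn : 0 ≤ ‖exp (-aeval (τ * y x) (Q j))‖ := norm_nonneg _
    have h1 := mul_le_mul_of_nonneg_right hx hn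
    have e1 : ‖∑ i ∈ J, (w i : ℂ) * F i x‖
        = ‖∑ i ∈ J, (w i : ℂ) * exp (E i x)‖ * ‖exp (-aeval (τ * y x) (Q j))‖ := by
      rw [← norm_mul, Finset.sum_mul]
      simp only [F, mul_assoc]
    have e2 : 3 / 4 * ∑ i ∈ J, w i * ‖F i x‖
        = (3 / 4 * ∑ i ∈ J, w i * ‖exp (E i x)‖) * ‖exp (-aeval (τ * y x) (Q j))‖ := by
      rw [mul_assoc, Finset.sum_mul]
      simp only [F, norm_mul, mul_assoc]
    show ‖∑ i ∈ J, (w i : ℂ) * F i x‖ ≤ 3 / 4 * ∑ i ∈ J, w i * ‖F i x‖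
    rw [e1, e2]
    exact h1
  have hpos : 0 < ∑ i ∈ J, w i * a i := by
    refine Finset.sum_pos' (fun i hi => mul_nonneg (hw i hi).le (ha0 i hi)) ⟨j, hj, ?_⟩
    rw [ha1 j hj (sub_self _), mul_one]
    exact hw j hj
  linarith

end Vale.Agent.P218F
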