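import Vale.Agent.P218F.Defs
import Vale.Agent.P274.Bdl.B5

/-! Admissible operators on holomorphic functions (differential polynomials). -/

open Complex Metric

namespace Vale.Agent.P218F

open Vale.Agent.P274.HolOs

set_option linter.unusedSectionVars false

variable {ι : Type} [Fintype ι] [DecidableEq ι]

/-- derivative in the direction of a coordinate -/
noncomputable def D (j : ι) (F : (ι → ℂ) → ℂ) : (ι → ℂ) → ℂ :=
  fun ξ => fderiv ℂ F ξ (Pi.single j 1)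

theorem fderiv_apply_eq_sum (F : (ι → ℂ) → ℂ) (ξ v : ι → ℂ) :
    fderiv ℂ F ξ v = ∑ j, v j * D j F ξ := by
  conv_lhs => rw [← Finset.univ_sum_single v]
  rw [map_sum]
  refine Finset.sum_congr rfl fun j _ => ?_
  have : (Pi.single j (v j) : ι → ℂ) = v j • (Pi.single j 1 : ι → ℂ) := by
    ext i
    by_cases h : i = j
    · subst h; simp
    · simp [h]
  rw [this, map_smul, smul_eq_mul, D]

theorem norm_D_le (j : ι) (F : (ι → ℂ) → ℂ) (ξ : ι → ℂ) : ‖D j F ξ‖ ≤ ‖fderiv ℂ F ξ‖ := by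
  have := (fderiv ℂ F ξ).le_opNorm (Pi.single j 1)
  rwa [Pi.norm_single, norm_one, mul_one] at this

theorem norm_fderiv_le_sum (F : (ι → ℂ) → ℂ) (ξ : ι → ℂ) :
    ‖fderiv ℂ F ξ‖ ≤ ∑ j, ‖D j F ξ‖ := by
  refine ContinuousLinearMap.opNorm_le_bound _ (Finset.sum_nonneg fun _ _ => norm_nonneg _)
    fun v => ?_
  rw [fderiv_apply_eq_sum, Finset.sum_mul]
  refine (norm_sum_le _ _).trans (Finset.sum_le_sum fun j _ => ?_)
  rw [norm_mul, mul_comm]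
  exact mul_le_mul_of_nonneg_left (norm_le_pi_norm v j) (norm_nonneg _)

theorem D_sub {F F' : (ι → ℂ) → ℂ} {ξ : ι → ℂ} (h : DifferentiableAt ℂ F ξ)
    (h' : DifferentiableAt ℂ F' ξ) (j : ι) :
    D j (fun y => F y - F' y) ξ = D j F ξ - D j F' ξ := by
  simp only [D]
  rw [fderiv_fun_sub h h']
  rfl

theorem norm_D_le_of_ball {F : (ι → ℂ) → ℂ} {ξ : ι → ℂ} {ρ C : ℝ} (hρ : 0 < ρ)
    (h : DifferentiableOn ℂ F (ball ξ ρ)) (hC : ∀ y ∈ ball ξ ρ, ‖F y‖ ≤ C) (j : ι) :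
    ‖D j F ξ‖ ≤ C / ρ :=
  (norm_D_le j F ξ).trans (norm_fderiv_le_of_ball hρ h hC)

/-- Two holomorphic functions on a ball, bounded by `M` and `η`-close. -/
structure Close (F F' : (ι → ℂ) → ℂ) (ξ : ι → ℂ) (ρ M η : ℝ) : Prop where
  d1 : DifferentiableOn ℂ F (ball ξ ρ)
  d2 : DifferentiableOn ℂ F' (ball ξ ρ)
  b1 : ∀ y ∈ ball ξ ρ, ‖F y‖ ≤ M
  b2 : ∀ y ∈ ball ξ ρ, ‖F' y‖ ≤ M
  cl : ∀ y ∈ ball ξ ρ, ‖F y - F' y‖ ≤ η

theorem Close.mono {F F' : (ι → ℂ) → ℂ} {ξ ξ' : ι → ℂ} {ρ ρ' M M' η η' : ℝ}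
    (h : Close F F' ξ ρ M η) (hb : ball ξ' ρ' ⊆ ball ξ ρ) (hM : M ≤ M') (hη : η ≤ η') :
    Close F F' ξ' ρ' M' η' :=
  ⟨h.d1.mono hb, h.d2.mono hb, fun y hy => (h.b1 y (hb hy)).trans hM,
    fun y hy => (h.b2 y (hb hy)).trans hM, fun y hy => (h.cl y (hb hy)).trans hη⟩

theorem Close.symm {F F' : (ι → ℂ) → ℂ} {ξ : ι → ℂ} {ρ M η : ℝ} (h : Close F F' ξ ρ M η) :
    Close F' F ξ ρ M η :=
  ⟨h.d2, h.d1, h.b2, h.b1, fun y hy => by rw [norm_sub_rev]; exact h.cl y hy⟩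

theorem Close.left {F F' : (ι → ℂ) → ℂ} {ξ : ι → ℂ} {ρ M η : ℝ} (h : Close F F' ξ ρ M η) :
    Close F F ξ ρ M 0 :=
  ⟨h.d1, h.d1, h.b1, h.b1, fun y _ => by simp⟩

theorem Close.eta_nonneg {F F' : (ι → ℂ) → ℂ} {ξ : ι → ℂ} {ρ M η : ℝ} (h : Close F F' ξ ρ M η)
    (hρ : 0 < ρ) : 0 ≤ η :=
  (norm_nonneg _).trans (h.cl ξ (mem_ball_self hρ))

/-- Admissible operators. -/
structure Adm (Op : ((ι → ℂ) → ℂ) → (ι → ℂ) → ℂ) : Prop where
  diff : ∀ (F : (ι → ℂ) → ℂ) (U : Set (ι → ℂ)), IsOpen U → DifferentiableOn ℂ F U →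
    DifferentiableOn ℂ (Op F) U
  est : ∃ k : ℕ, ∀ M : ℝ, ∃ C : ℝ, 0 ≤ C ∧ ∀ (F F' : (ι → ℂ) → ℂ) (ξ : ι → ℂ) (ρ η : ℝ),
    0 < ρ → ρ ≤ 1 → ‖ξ‖ ≤ M → Close F F' ξ ρ M η →
      ‖Op F ξ‖ ≤ C / ρ ^ k ∧ ‖Op F ξ - Op F' ξ‖ ≤ C * η / ρ ^ k

theorem Adm.id : Adm (ι := ι) fun F => F :=
  ⟨fun _ _ _ h => h, 0, fun M => ⟨|M| + 1, by positivity, fun F F' ξ ρ η hρ _ _ h => by
    have h1 := h.b1 ξ (mem_ball_self hρ)
    have h2 := h.cl ξ (mem_ball_self hρ)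
    have h3 := h.eta_nonneg hρ
    have h4 := le_abs_self M
    have h5 := abs_nonneg M
    simp only [pow_zero, div_one]
    constructor <;> nlinarith⟩⟩

theorem Adm.const (c : ℂ) : Adm (ι := ι) fun _ _ => c :=
  ⟨fun _ _ _ _ => differentiableOn_const c, 0, fun M => ⟨‖c‖, norm_nonneg _,
    fun F F' ξ ρ η hρ _ _ h => by
    have h3 := h.eta_nonneg hρ
    simp only [pow_zero, div_one, sub_self, norm_zero]
    exact ⟨le_rfl, by positivity⟩⟩⟩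

theorem Adm.coord (i : ι) : Adm (ι := ι) fun _ ξ => ξ i :=
  ⟨fun _ _ _ _ => (differentiable_apply i).differentiableOn, 0, fun M => ⟨|M|, abs_nonneg _,
    fun F F' ξ ρ η hρ _ hM h => by
    have h3 := h.eta_nonneg hρ
    simp only [pow_zero, div_one, sub_self, norm_zero]
    exact ⟨(norm_le_pi_norm ξ i).trans (hM.trans (le_abs_self M)), by positivity⟩⟩⟩

theorem div_pow_le_div_pow {C ρ : ℝ} {k l : ℕ} (hC : 0 ≤ C) (hρ : 0 < ρ) (h1 : ρ ≤ 1)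
    (h : k ≤ l) : C / ρ ^ k ≤ C / ρ ^ l :=
  div_le_div_of_nonneg_left hC (pow_pos hρ _) (pow_le_pow_of_le_one hρ.le h1 h)

theorem Adm.add {O O' : ((ι → ℂ) → ℂ) → (ι → ℂ) → ℂ} (h : Adm O) (h' : Adm O') :
    Adm fun F ξ => O F ξ + O' F ξ := by
  refine ⟨fun F U hU hF => (h.diff F U hU hF).add (h'.diff F U hU hF), ?_⟩
  obtain ⟨k, hk⟩ := h.est
  obtain ⟨l, hl⟩ := h'.est
  refine ⟨k + l, fun M => ?_⟩
  obtain ⟨C, hC, e1⟩ := hk M
  obtain ⟨C', hC', e2⟩ := hl M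
  refine ⟨C + C', by positivity, fun F F' ξ ρ η hρ h1 hM hc => ?_⟩
  obtain ⟨a1, a2⟩ := e1 F F' ξ ρ η hρ h1 hM hc
  obtain ⟨b1, b2⟩ := e2 F F' ξ ρ η hρ h1 hM hc
  have hη := hc.eta_nonneg hρ
  have c1 := div_pow_le_div_pow hC hρ h1 (Nat.le_add_right k l)
  have c2 := div_pow_le_div_pow hC' hρ h1 (Nat.le_add_left l k)
  have c3 := div_pow_le_div_pow (mul_nonneg hC hη) hρ h1 (Nat.le_add_right k l)
  have c4 := div_pow_le_div_pow (mul_nonneg hC' hη) hρ h1 (Nat.le_add_left l k)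
  constructor
  · rw [add_div]
    exact (norm_add_le _ _).trans (by linarith)
  · rw [add_mul, add_div, show O F ξ + O' F ξ - (O F' ξ + O' F' ξ) =
      (O F ξ - O F' ξ) + (O' F ξ - O' F' ξ) by ring]
    exact (norm_add_le _ _).trans (by linarith)

theorem Adm.mul {O O' : ((ι → ℂ) → ℂ) → (ι → ℂ) → ℂ} (h : Adm O) (h' : Adm O') :
    Adm fun F ξ => O F ξ * O' F ξ := by
  refine ⟨fun F U hU hF => (h.diff F U hU hF).mul (h'.diff F U hU hF), ?_⟩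
  obtain ⟨k, hk⟩ := h.est
  obtain ⟨l, hl⟩ := h'.est
  refine ⟨k + l, fun M => ?_⟩
  obtain ⟨C, hC, e1⟩ := hk M
  obtain ⟨C', hC', e2⟩ := hl M
  refine ⟨2 * (C * C'), by positivity, fun F F' ξ ρ η hρ h1 hM hc => ?_⟩
  obtain ⟨a1, a2⟩ := e1 F F' ξ ρ η hρ h1 hM hc
  obtain ⟨b1, b2⟩ := e2 F F' ξ ρ η hρ h1 hM hc
  obtain ⟨a3, -⟩ := e1 F' F ξ ρ η hρ h1 hM hc.symm
  have hη := hc.eta_nonneg hρ
  have hk0 := pow_pos hρ k
  have hl0 := pow_pos hρ l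
  constructor
  · rw [norm_mul]
    calc ‖O F ξ‖ * ‖O' F ξ‖ ≤ C / ρ ^ k * (C' / ρ ^ l) := by gcongr
      _ = C * C' / ρ ^ (k + l) := by rw [pow_add]; field_simp
      _ ≤ 2 * (C * C') / ρ ^ (k + l) :=
        div_le_div_of_nonneg_right (by nlinarith [mul_nonneg hC hC']) (by positivity)
  · rw [show O F ξ * O' F ξ - O F' ξ * O' F' ξ =
      (O F ξ - O F' ξ) * O' F ξ + O F' ξ * (O' F ξ - O' F' ξ) by ring]
    refine (norm_add_le _ _).trans ?_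
    rw [norm_mul, norm_mul]
    calc ‖O F ξ - O F' ξ‖ * ‖O' F ξ‖ + ‖O F' ξ‖ * ‖O' F ξ - O' F' ξ‖
        ≤ C * η / ρ ^ k * (C' / ρ ^ l) + C / ρ ^ k * (C' * η / ρ ^ l) := by gcongr
      _ = 2 * (C * C') * η / ρ ^ (k + l) := by rw [pow_add]; field_simp; ring

theorem Adm.neg {O : ((ι → ℂ) → ℂ) → (ι → ℂ) → ℂ} (h : Adm O) : Adm fun F ξ => -O F ξ := by
  have := (Adm.const (-1)).mul h
  simpa using this

theorem Adm.deriv {O : ((ι → ℂ) → ℂ) → (ι → ℂ) → ℂ} (h : Adm O) (j : ι) :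
    Adm fun F => D j (O F) := by
  refine ⟨fun F U hU hF => differentiableOn_fderiv_apply hU (h.diff F U hU hF) _, ?_⟩
  obtain ⟨k, hk⟩ := h.est
  refine ⟨k + 1, fun M => ?_⟩
  obtain ⟨C, hC, e1⟩ := hk (M + 1)
  refine ⟨2 ^ (k + 1) * C, by positivity, fun F F' ξ ρ η hρ h1 hM hc => ?_⟩
  have hρ2 : 0 < ρ / 2 := by positivity
  have hsub : ball ξ (ρ / 2) ⊆ ball ξ ρ := ball_subset_ball (by linarith)
  have key : ∀ y ∈ ball ξ (ρ / 2), ‖O F y‖ ≤ C / (ρ / 2) ^ k ∧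
      ‖O F y - O F' y‖ ≤ C * η / (ρ / 2) ^ k := by
    intro y hy
    have hy' : dist y ξ < ρ / 2 := hy
    refine e1 F F' y (ρ / 2) η hρ2 (by linarith) ?_ (hc.mono ?_ (by linarith) le_rfl)
    · have : ‖y‖ ≤ ‖ξ‖ + dist y ξ := by
        rw [dist_eq_norm]
        simpa using norm_add_le ξ (y - ξ)
      linarith
    · exact ball_subset_ball' (by linarith)
  have d1 := (h.diff F _ isOpen_ball hc.d1).mono hsub
  have d2 := (h.diff F' _ isOpen_ball hc.d2).mono hsub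
  have hk0 := pow_pos hρ k
  constructor
  · refine (norm_D_le_of_ball hρ2 d1 (fun y hy => (key y hy).1) j).trans (le_of_eq ?_)
    rw [div_pow, pow_succ, pow_succ]
    field_simp
  · rw [← D_sub (d1.differentiableAt (ball_mem_nhds ξ hρ2))
      (d2.differentiableAt (ball_mem_nhds ξ hρ2))]
    refine (norm_D_le_of_ball hρ2 (d1.sub d2) (fun y hy => (key y hy).2) j).trans (le_of_eq ?_)
    rw [div_pow, pow_succ, pow_succ]
    field_simp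

/-- Lipschitz bound for the values of an admissible operator at two points. -/
theorem Adm.lip {O : ((ι → ℂ) → ℂ) → (ι → ℂ) → ℂ} (h : Adm O) :
    ∃ k : ℕ, ∀ M : ℝ, ∃ C : ℝ, 0 ≤ C ∧ ∀ (F F' : (ι → ℂ) → ℂ) (ξ y y' : ι → ℂ) (ρ η : ℝ),
      0 < ρ → ρ ≤ 1 → ‖ξ‖ ≤ M → Close F F' ξ ρ M η → y ∈ ball ξ (ρ / 4) → y' ∈ ball ξ (ρ / 4) →
        ‖O F y - O F' y'‖ ≤ C * (η + ‖y - y'‖) / ρ ^ k := by
  obtain ⟨k, hk⟩ := h.est
  refine ⟨k + 1, fun M => ?_⟩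
  obtain ⟨C, hC, e1⟩ := hk (M + 1)
  refine ⟨4 * 2 ^ k * C, by positivity, fun F F' ξ y y' ρ η hρ h1 hM hc hy hy' => ?_⟩
  have hρ2 : 0 < ρ / 2 := by positivity
  have hη := hc.eta_nonneg hρ
  have key : ∀ z ∈ ball ξ (ρ / 2), ‖O F z‖ ≤ C / (ρ / 2) ^ k ∧
      ‖O F z - O F' z‖ ≤ C * η / (ρ / 2) ^ k := by
    intro z hz
    have hz' : dist z ξ < ρ / 2 := hz
    refine e1 F F' z (ρ / 2) η hρ2 (by linarith) ?_ (hc.mono ?_ (by linarith) le_rfl)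
    · have : ‖z‖ ≤ ‖ξ‖ + dist z ξ := by
        rw [dist_eq_norm]
        simpa using norm_add_le ξ (z - ξ)
      linarith
    · exact ball_subset_ball' (by linarith)
  have d1 := h.diff F _ isOpen_ball hc.d1
  have hsub : ball ξ (ρ / 4) ⊆ ball ξ ρ := ball_subset_ball (by linarith)
  have hder : ∀ z ∈ ball ξ (ρ / 4), ‖fderiv ℂ (O F) z‖ ≤ C / (ρ / 2) ^ k / (ρ / 4) := by
    intro z hz
    have hz' : dist z ξ < ρ / 4 := hz
    have s1 : ball z (ρ / 4) ⊆ ball ξ (ρ / 2) := ball_subset_ball' (by linarith)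
    exact norm_fderiv_le_of_ball (by positivity)
      (d1.mono (s1.trans (ball_subset_ball (by linarith)))) fun w hw => (key w (s1 hw)).1
  have m1 := (convex_ball ξ (ρ / 4)).norm_image_sub_le_of_norm_fderiv_le
    (fun z hz => d1.differentiableAt (isOpen_ball.mem_nhds (hsub hz))) hder hy' hy
  have m2 := (key y' (ball_subset_ball (by linarith) hy')).2
  have hk0 := pow_pos hρ k
  have t1 : C / (ρ / 2) ^ k / (ρ / 4) * ‖y - y'‖ = 4 * 2 ^ k * C * ‖y - y'‖ / ρ ^ (k + 1) := by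
    rw [div_pow, pow_succ]; field_simp
  have t2 : C * η / (ρ / 2) ^ k ≤ 4 * 2 ^ k * C * η / ρ ^ (k + 1) := by
    rw [div_pow, pow_succ, div_le_div_iff₀ (by positivity) (by positivity)]
    have : 4 * 2 ^ k * C * η * (ρ ^ k / 2 ^ k) = 4 * (C * η * ρ ^ k) := by field_simp
    rw [this]
    have h0 : 0 ≤ C * η * ρ ^ k := by positivity
    nlinarith
  calc ‖O F y - O F' y'‖ = ‖(O F y - O F y') + (O F y' - O F' y')‖ := by congr 1; ring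
    _ ≤ ‖O F y - O F y'‖ + ‖O F y' - O F' y'‖ := norm_add_le _ _
    _ ≤ 4 * 2 ^ k * C * ‖y - y'‖ / ρ ^ (k + 1) + 4 * 2 ^ k * C * η / ρ ^ (k + 1) := by
        rw [← t1]; linarith
    _ = 4 * 2 ^ k * C * (η + ‖y - y'‖) / ρ ^ (k + 1) := by ring

end Vale.Agent.P218F
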