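import Vale.Agent.P218F.Spec

/-! The maximum principle for families of holomorphic patches which almost agree. -/

open Complex Metric

namespace Vale.Agent.P218F

theorem norm_exp_sub_one_ge {z : ℂ} (hz : ‖z‖ ≤ 1 / 2) : ‖z‖ / 2 ≤ ‖exp z - 1‖ := by
  have h1 := norm_exp_sub_one_sub_id_le (x := z) (by linarith)
  have h2 : ‖z‖ ≤ ‖exp z - 1‖ + ‖exp z - 1 - z‖ := by
    have := norm_sub_le (exp z - 1) (exp z - 1 - z)
    rwa [sub_sub_cancel] at this
  nlinarith [norm_nonneg z]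

theorem weight_gap (L : ℝ) {u v : ℂ} {ρ : ℝ} (hρ : ρ ≤ 1 / 2) (hv : v ∈ sphere u ρ) :
    (2 * (starRingEnd ℂ) (exp (L - u)) * exp (L - v) - (‖exp (L - u)‖ ^ 2 : ℝ)).re ≤
      Real.exp (2 * (L - v.re)) - ρ ^ 2 / 4 * Real.exp (2 * (L - u.re)) := by
  have e1 : ∀ w : ℂ, Real.exp (2 * (L - w.re)) = ‖exp (L - w)‖ ^ 2 := fun w => by
    rw [norm_exp, ← Real.exp_nat_mul]
    simp
  have hn : ‖u - v‖ = ρ := by rw [← dist_eq_norm, dist_comm]; exact hv
  have h0 : 0 ≤ ρ := hn ▸ norm_nonneg _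
  have h1 : ρ / 2 * ‖exp (L - u)‖ ≤ ‖exp (L - v) - exp (L - u)‖ := by
    have e : exp (L - v) - exp (L - u) = (exp (u - v) - 1) * exp (L - u) := by
      rw [sub_mul, ← exp_add, one_mul]
      congr 2
      ring
    rw [e, norm_mul, ← hn]
    exact mul_le_mul_of_nonneg_right (norm_exp_sub_one_ge (hn ▸ hρ)) (norm_nonneg _)
  have h2 := pow_le_pow_left₀ (by positivity) h1 2
  rw [e1, e1]
  generalize exp (L - u) = a at *
  generalize exp (L - v) = b at *
  simp only [Complex.sq_norm, normSq_apply, mul_pow, sub_re, sub_im, mul_re, mul_im, ofReal_re,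
    conj_re, conj_im, re_ofNat, im_ofNat] at h2 ⊢
  nlinarith

/-- The patchwork maximum principle. -/
theorem patch_core {S : Set ℂ} {L ρ B X : ℝ} {G : ℂ → ℂ → ℂ} (hρ : 0 < ρ) (hρ' : ρ ≤ 1 / 2)
    (hB : 0 ≤ B) (hS : ∀ u ∈ S, L ≤ u.re) (hbd : ∃ M, ∀ u ∈ S, ‖G u u‖ ≤ M)
    (h : ∀ u ∈ S, ‖G u u‖ ≤ B ∨ (u.re ≤ X ∧ closedBall u ρ ⊆ S ∧
      DifferentiableOn ℂ (G u) (closedBall u ρ) ∧
      ∀ v ∈ sphere u ρ, ‖G u v - G v v‖ ≤ B * (ρ ^ 2 / 4 * Real.exp (2 * (L - u.re))))) :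
    ∀ u ∈ S, ‖G u u‖ ≤ 3 * B := by
  obtain ⟨M, hM⟩ := hbd
  set f : ℂ → ℝ := fun u => ‖G u u‖ * Real.exp (Real.exp (2 * (L - u.re))) with hf
  have hw : ∀ u ∈ S, Real.exp (Real.exp (2 * (L - u.re))) ≤ 3 := fun u hu => by
    have h1 : Real.exp (2 * (L - u.re)) ≤ 1 := Real.exp_le_one_iff.2 (by linarith [hS u hu])
    exact (Real.exp_le_exp.2 h1).trans (by linarith [Real.exp_one_lt_d9])
  have hbdd : BddAbove (f '' S) := ⟨M * 3, by
    rintro _ ⟨u, hu, rfl⟩
    exact mul_le_mul (hM u hu) (hw u hu) (Real.exp_pos _).le ((norm_nonneg _).trans (hM u hu))⟩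
  intro u0 hu0
  have hle : ∀ u ∈ S, f u ≤ sSup (f '' S) := fun u hu => le_csSup hbdd ⟨u, hu, rfl⟩
  suffices hm : sSup (f '' S) ≤ 3 * B by
    refine le_trans ?_ ((hle u0 hu0).trans hm)
    exact le_mul_of_one_le_right (norm_nonneg _) (Real.one_le_exp (Real.exp_pos _).le)
  by_contra hm
  push Not at hm
  obtain ⟨m, hmdef⟩ : ∃ m, m = sSup (f '' S) := ⟨_, rfl⟩
  obtain ⟨d0, hd0⟩ : ∃ d0, d0 = ρ ^ 2 / 4 * Real.exp (2 * (L - X)) := ⟨_, rfl⟩
  have hd0pos : 0 < d0 := by rw [hd0]; positivity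
  have key : sSup (f '' S) ≤ (m + 3 * B * d0) / (1 + d0) := by
    refine csSup_le ⟨_, u0, hu0, rfl⟩ ?_
    rw [← hmdef] at hle hm
    rintro _ ⟨u, hu, rfl⟩
    rcases h u hu with h1 | ⟨hX, hsub, hdiff, hgl⟩
    · have h2 : f u ≤ B * 3 := mul_le_mul h1 (hw u hu) (Real.exp_pos _).le hB
      refine h2.trans ?_
      rw [le_div_iff₀ (by linarith)]
      linarith
    · obtain ⟨d, hd⟩ : ∃ d, d = ρ ^ 2 / 4 * Real.exp (2 * (L - u.re)) := ⟨_, rfl⟩
      have hdd : d0 ≤ d := by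
        rw [hd0, hd]
        exact mul_le_mul_of_nonneg_left (Real.exp_le_exp.2 (by linarith)) (by positivity)
      set F : ℂ → ℂ := fun v => G u v *
        exp (2 * (starRingEnd ℂ) (exp (L - u)) * exp (L - v) - (‖exp (L - u)‖ ^ 2 : ℝ)) with hF
      have hFd : DifferentiableOn ℂ F (closedBall u ρ) := hdiff.mul (by fun_prop)
      have hFc : DiffContOnCl ℂ F (ball u ρ) :=
        DifferentiableOn.diffContOnCl (by rwa [closure_ball u hρ.ne'])
      have hFu : ‖F u‖ = f u := by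
        simp only [hF, hf, norm_mul, norm_exp]
        congr 2
        rw [← norm_exp, mul_assoc, ← normSq_eq_conj_mul_self, normSq_eq_norm_sq, norm_exp,
          ← Real.exp_nat_mul]
        simp only [sub_re, mul_re, re_ofNat, ofReal_re, im_ofNat, ofReal_im, Nat.cast_ofNat]
        ring
      rw [← hFu]
      refine norm_le_of_forall_mem_frontier_norm_le isBounded_ball hFc (fun v hv => ?_)
        (subset_closure (mem_ball_self hρ))
      rw [frontier_ball u hρ.ne'] at hv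
      have hvS : v ∈ S := hsub (sphere_subset_closedBall hv)
      have h1 := weight_gap L hρ' hv
      have h2 : ‖G u v‖ ≤ ‖G v v‖ + B * d := by
        have := norm_add_le (G v v) (G u v - G v v)
        rw [add_sub_cancel] at this
        linarith [hgl v hv, hd ▸ hgl v hv]
      rw [← hd] at h1
      have hdpos : 0 < d := hd0pos.trans_le hdd
      have h3 : ‖F v‖ ≤ (‖G v v‖ + B * d) * (Real.exp (Real.exp (2 * (L - v.re))) / Real.exp d) := by
        rw [hF, norm_mul, norm_exp, ← Real.exp_sub]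
        exact mul_le_mul h2 (Real.exp_le_exp.2 h1) (Real.exp_pos _).le (by positivity)
      have h4 : (‖G v v‖ + B * d) * Real.exp (Real.exp (2 * (L - v.re))) ≤ m + 3 * B * d := by
        have := mul_le_mul_of_nonneg_left (hw v hvS) (by positivity : 0 ≤ B * d)
        have h5 := hle v hvS
        simp only [hf] at h5
        linarith
      rw [← mul_div_assoc] at h3
      have h6 : 0 ≤ m + 3 * B * d := by
        have : 0 ≤ B * d := by positivity
        linarith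
      refine h3.trans ((div_le_div₀ h6 h4 (by linarith : 0 < 1 + d)
        (by linarith [Real.add_one_le_exp d])).trans ?_)
      rw [div_le_div_iff₀ (by linarith) (by linarith)]
      nlinarith [mul_nonneg (sub_pos.2 hm).le (sub_nonneg.2 hdd)]
  rw [← hmdef] at key hm
  rw [le_div_iff₀ (by linarith)] at key
  nlinarith

theorem two_mul_le_exp {κ : ℝ} (hκ : 0 < κ) (x : ℝ) :
    2 * x - κ * Real.exp x ≤ -2 * Real.log (κ / 2) := by
  have h := Real.add_one_le_exp (x + Real.log (κ / 2))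
  rw [Real.exp_add, Real.exp_log (by positivity)] at h
  linarith

/-- The patchwork maximum principle with a holomorphic multiplier and doubly exponentially small
errors. -/
theorem patch {κ ρ : ℝ} (L : ℝ) (hκ : 0 < κ) (hρ : 0 < ρ) (hρ' : ρ ≤ 1 / 2) :
    ∃ K : ℝ, 0 < K ∧ ∀ (S : Set ℂ) (V : ℂ → ℂ → ℂ) (H : ℂ → ℂ) (B X : ℝ), Differentiable ℂ H →
      0 ≤ B → (∀ u ∈ S, L ≤ u.re) → (∃ M, ∀ u ∈ S, ‖V u u‖ * Real.exp (H u).re ≤ M) →
      (∀ u ∈ S, ‖V u u‖ * Real.exp (H u).re ≤ B ∨ (u.re ≤ X ∧ closedBall u ρ ⊆ S ∧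
        DifferentiableOn ℂ (V u) (closedBall u ρ) ∧ ∀ v ∈ sphere u ρ,
          ‖V u v - V v v‖ * Real.exp (H v).re ≤ B * Real.exp (-(κ * Real.exp v.re)))) →
      ∀ u ∈ S, ‖V u u‖ * Real.exp (H u).re ≤ K * B := by
  obtain ⟨c, hc⟩ : ∃ c, c = 4 / ρ ^ 2 * Real.exp (1 - 2 * L - 2 * Real.log (κ / 2)) := ⟨_, rfl⟩
  have hc0 : 0 < c := by rw [hc]; positivity
  refine ⟨3 * (1 + c), by positivity, fun S V H B X hH hB hS hbd h u hu => ?_⟩
  have e : ∀ a b, ‖V a b * exp (H b)‖ = ‖V a b‖ * Real.exp (H b).re := fun a b => by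
    rw [norm_mul, norm_exp]
  have := patch_core (S := S) (L := L) (B := (1 + c) * B) (X := X)
    (G := fun a b => V a b * exp (H b)) hρ hρ' (by positivity) hS (by simpa only [e] using hbd)
    (fun a ha => ?_) u hu
  · rw [e] at this
    linarith
  rcases h a ha with h1 | ⟨h1, h2, h3, h4⟩
  · left
    rw [e]
    nlinarith
  · refine Or.inr ⟨h1, h2, h3.mul hH.cexp.differentiableOn, fun v hv => ?_⟩
    rw [← sub_mul, norm_mul, norm_exp]
    refine (h4 v hv).trans ?_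
    have h5 : a.re ≤ v.re + 1 / 2 := by
      have h6 : ‖a - v‖ = ρ := by rw [← dist_eq_norm, dist_comm]; exact hv
      have h7 := (le_abs_self _).trans (abs_re_le_norm (a - v))
      rw [sub_re] at h7
      linarith
    have h6 : Real.exp (-(κ * Real.exp v.re)) ≤ c * (ρ ^ 2 / 4 * Real.exp (2 * (L - a.re))) := by
      have e2 : c * (ρ ^ 2 / 4 * Real.exp (2 * (L - a.re))) =
          Real.exp (1 - 2 * L - 2 * Real.log (κ / 2) + 2 * (L - a.re)) := by
        rw [hc, Real.exp_add]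
        field_simp
      rw [e2]
      exact Real.exp_le_exp.2 (by linarith [two_mul_le_exp hκ v.re])
    have h7 : 0 ≤ B * (ρ ^ 2 / 4 * Real.exp (2 * (L - a.re))) := by positivity
    have h8 := mul_le_mul_of_nonneg_left h6 hB
    linarith

end Vale.Agent.P218F
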