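import Vale.Agent.P218F.Asym
import Vale.Agent.Lib.RealArc.Ana

/-! The ring of differential polynomials in a family, the ideal of a formal arc and a maximal
regular subsystem. -/

open Complex Metric Filter Topology

namespace Vale.Agent.P218F.NA

open Vale.Agent.Lib.RealArc

set_option linter.unusedSectionVars false

variable {ι : Type} [Fintype ι] [DecidableEq ι]

theorem exists_sys {A B : Type*} [CommRing A] [CommRing B] [IsDomain B] (G : A →+* B)
    (d : ι → A →+ B) (e : ι → A → A) (hl : ∀ j x y, d j (x * y) = G x * d j y + G y * d j x)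
    (he : ∀ j x, G (e j x) = d j x) :
    ∃ (S : Finset ι) (h : ι → A) (δ : A), G δ ≠ 0 ∧ (∀ i ∈ S, G (h i) = 0) ∧
      (∀ i ∈ S, ∀ l ∈ S, d l (h i) = if l = i then G δ else 0) ∧
      ∀ g, G g = 0 → ∀ j, G (δ * e j g - ∑ i ∈ S, e i g * e j (h i)) = 0 := by
  classical
  let Q : Finset ι → Prop := fun S => ∃ (h : ι → A) (δ : A), G δ ≠ 0 ∧ (∀ i ∈ S, G (h i) = 0) ∧
      (∀ i ∈ S, ∀ l ∈ S, d l (h i) = if l = i then G δ else 0)
  have hne : (Finset.univ.filter Q).Nonempty :=
    ⟨∅, Finset.mem_filter.2 ⟨Finset.mem_univ _, fun _ => 0, 1, by simp, by simp, by simp⟩⟩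
  obtain ⟨S, hS, hmax⟩ := Finset.exists_max_image _ Finset.card hne
  obtain ⟨h, δ, h1, h2, h3⟩ := (Finset.mem_filter.1 hS).2
  refine ⟨S, h, δ, h1, h2, h3, fun g hg j => ?_⟩
  set Y := δ * e j g - ∑ i ∈ S, e i g * e j (h i) with hY
  set k := δ * g - ∑ i ∈ S, e i g * h i with hk
  have k0 : G k = 0 := by
    rw [hk, map_sub, map_mul, hg, mul_zero, map_sum, Finset.sum_eq_zero, sub_zero]
    intro i hi
    rw [map_mul, h2 i hi, mul_zero]
  have k1 : ∀ l, d l k = G δ * d l g - ∑ i ∈ S, d i g * d l (h i) := by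
    intro l
    rw [hk, map_sub, hl, hg, zero_mul, add_zero, map_sum]
    congr 1
    refine Finset.sum_congr rfl fun i hi => ?_
    rw [hl, h2 i hi, zero_mul, add_zero, he]
  have k2 : ∀ l ∈ S, d l k = 0 := by
    intro l hl'
    rw [k1, Finset.sum_eq_single l, h3 l hl' l hl', if_pos rfl, mul_comm, sub_self]
    · intro i hi hil
      rw [h3 i hi l hl', if_neg (Ne.symm hil), mul_zero]
    · exact fun h => (h hl').elim
  have k3 : d j k = G Y := by
    rw [k1, hY, map_sub, map_mul, map_sum, he]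
    simp only [map_mul, he]
  by_cases hj : j ∈ S
  · rw [← k3, k2 j hj]
  by_contra hne'
  have hQ : Q (insert j S) := by
    refine ⟨fun i => if i = j then δ * k else Y * h i - e j (h i) * k, δ * Y, ?_, ?_, ?_⟩
    · rw [map_mul]
      exact mul_ne_zero h1 hne'
    · intro i hi
      by_cases hij : i = j
      · simp [hij, k0]
      · have hi' : i ∈ S := (Finset.mem_insert.1 hi).resolve_left hij
        simp [hij, k0, h2 i hi']
    · intro i hi l hl'
      by_cases hij : i = j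
      · simp only [hij, if_true, hl, k0, zero_mul, add_zero, map_mul]
        by_cases hlj : l = j
        · rw [hlj, k3, if_pos rfl]
        · rw [k2 l ((Finset.mem_insert.1 hl').resolve_left hlj), if_neg hlj, mul_zero]
      · have hi' : i ∈ S := (Finset.mem_insert.1 hi).resolve_left hij
        simp only [hij, if_false, map_sub, hl, k0, h2 i hi', zero_mul, add_zero, he, map_mul]
        by_cases hlj : l = j
        · rw [hlj, k3, if_neg (Ne.symm hij)]
          ring
        · have hl'' := (Finset.mem_insert.1 hl').resolve_left hlj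
          rw [k2 l hl'', h3 i hi' l hl'']
          split_ifs <;> ring
  have := hmax _ (Finset.mem_filter.2 ⟨Finset.mem_univ _, hQ⟩)
  rw [Finset.card_insert_of_notMem hj] at this
  omega

theorem order_sub_truncTotal (g : MvPowerSeries ι ℝ) (k : ℕ) :
    (k : ℕ∞) ≤ (g - (MvPowerSeries.truncTotal k g : MvPolynomial ι ℝ)).order :=
  MvPowerSeries.nat_le_order fun d hd => by
    rw [map_sub, MvPolynomial.coeff_coe, MvPowerSeries.coeff_truncTotal _ hd, sub_self]

theorem arcHom_coe {γ : ι → PowerSeries ℝ} (h0 : ∀ i, PowerSeries.constantCoeff (γ i) = 0)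
    (q : MvPolynomial ι ℝ) : arcHom h0 (q : MvPowerSeries ι ℝ) = MvPolynomial.aeval γ q :=
  MvPowerSeries.substAlgHom_coe _ _

theorem chain_poly (γ : ι → PowerSeries ℝ) (q : MvPolynomial ι ℝ) :
    PowerSeries.derivative ℝ (MvPolynomial.aeval γ q) =
      ∑ j, MvPolynomial.aeval γ (MvPolynomial.pderiv j q) * PowerSeries.derivative ℝ (γ j) := by
  induction q using MvPolynomial.induction_on with
  | C a => simp
  | add p q hp hq => simp [hp, hq, add_mul, Finset.sum_add_distrib]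
  | mul_X p i hp =>
    simp only [map_mul, MvPolynomial.aeval_X, Derivation.leibniz, hp, smul_eq_mul, map_add,
      add_mul, Finset.sum_add_distrib, Finset.mul_sum, MvPolynomial.pderiv_X]
    congr 1
    · rw [Finset.sum_eq_single i]
      · simp
      · intro j _ hj
        simp [Pi.single_eq_of_ne (Ne.symm hj)]
      · simp
    · exact Finset.sum_congr rfl fun j _ => by ring

/-- a series all of whose derivatives vanish on an arc is constant on the arc -/
theorem arcHom_eq_C {γ : ι → PowerSeries ℝ} (h0 : ∀ i, PowerSeries.constantCoeff (γ i) = 0)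
    (φ : MvPowerSeries ι ℝ) (h : ∀ j, arcHom h0 (MvPowerSeries.pderiv ℝ j φ) = 0) :
    arcHom h0 (φ - MvPowerSeries.C (MvPowerSeries.constantCoeff φ)) = 0 := by
  refine PowerSeries.derivative.ext ?_ ?_
  · rw [map_zero]
    ext n
    set q : MvPolynomial ι ℝ := MvPowerSeries.truncTotal (n + 2) φ with hq
    have a1 := X_pow_dvd_subst h0 (order_sub_truncTotal φ (n + 2))
    have a2 : ∀ j, (PowerSeries.X : PowerSeries ℝ) ^ (n + 1) ∣
        MvPolynomial.aeval γ (MvPolynomial.pderiv j q) := by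
      intro j
      have : ((n + 1 : ℕ) : ℕ∞) ≤ (MvPowerSeries.pderiv ℝ j (φ - (q : MvPowerSeries ι ℝ))).order :=
        MvPowerSeries.nat_le_order fun d hd => by
          rw [MvPowerSeries.coeff_pderiv, MvPowerSeries.coeff_of_lt_order, zero_mul]
          refine lt_of_lt_of_le ?_ (order_sub_truncTotal φ (n + 2))
          simp only [map_add, Finsupp.degree_single]
          exact_mod_cast (by omega)
      have a3 := X_pow_dvd_subst h0 this
      rw [map_sub, map_sub, h j, zero_sub, dvd_neg, MvPowerSeries.pderiv_coe, arcHom_coe] at a3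
      exact a3
    have a4 : (PowerSeries.X : PowerSeries ℝ) ^ (n + 1) ∣
        PowerSeries.derivative ℝ (MvPolynomial.aeval γ q) := by
      rw [chain_poly]
      exact Finset.dvd_sum fun j _ => (a2 j).mul_right _
    have a5 := PowerSeries.X_pow_dvd_iff.1 a4 n (by omega)
    have a6 := PowerSeries.X_pow_dvd_iff.1 a1 (n + 1) (by omega)
    rw [map_sub, map_sub, arcHom_coe, sub_eq_zero] at a6
    have a7 : arcHom h0 (MvPowerSeries.C (MvPowerSeries.constantCoeff φ)) =
        PowerSeries.C (MvPowerSeries.constantCoeff φ) := (arcHom h0).commutes _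
    rw [map_sub, a7, map_sub, PowerSeries.derivative_C, sub_zero, PowerSeries.coeff_derivative, a6,
      ← PowerSeries.coeff_derivative, a5, map_zero]
  · rw [map_zero]
    exact const_hom _ (by simp)

/-- A family, its formal series and a formal arc of critical points. -/
structure ArcD (ι : Type) [Fintype ι] [DecidableEq ι] where
  P : Par ι
  F : ℕ → (ι → ℂ) → ℂ
  φ : MvPowerSeries ι ℝ
  γ : ι → PowerSeries ℝ
  p : ℕ
  k1 : ℝ
  hA : AsymCalc
  hF : GFo P F
  hφ : Asym P F φ
  h0 : ∀ i, PowerSeries.constantCoeff (γ i) = 0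
  hc : ∀ j, arcHom h0 (MvPowerSeries.pderiv ℝ j φ) = 0
  hp : 1 ≤ p
  hI : ∀ i ∈ P.I, PowerSeries.X ^ p ∣ γ i
  hk : 0 < k1
  hkc : ∀ i ∈ P.I, 8 * k1 * (|PowerSeries.coeff p (γ i)| + 1) ≤ P.c

/-- operators on functions -/
abbrev Oper (ι : Type) := ((ι → ℂ) → ℂ) → (ι → ℂ) → ℂ

namespace ArcD

variable (A : ArcD ι)

/-- the ring of differential polynomials -/
def D0 : Subring (Oper ι × MvPowerSeries ι ℝ) where
  carrier := {z | Adm z.1 ∧ Asym A.P (fun R => z.1 (A.F R)) z.2}
  mul_mem' := fun hz hw => ⟨hz.1.mul hw.1, (A.hA ι A.P).2.2.2.2.2.1 _ _ _ _ hz.2 hw.2⟩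
  one_mem' := ⟨Adm.const 1, by
    have := (A.hA ι A.P).2.1 1
    rw [map_one, ofReal_one] at this
    exact this⟩
  add_mem' := fun hz hw => ⟨hz.1.add hw.1, (A.hA ι A.P).2.2.2.1 _ _ _ _ hz.2 hw.2⟩
  zero_mem' := ⟨Adm.const 0, by
    have := (A.hA ι A.P).2.1 0
    rw [map_zero, ofReal_zero] at this
    exact this⟩
  neg_mem' := fun hz => ⟨hz.1.neg, (A.hA ι A.P).2.2.2.2.1 _ _ hz.2⟩

variable {A}

theorem adm (z : A.D0) : Adm z.1.1 := z.2.1

theorem asym (z : A.D0) : Asym A.P (fun R => z.1.1 (A.F R)) z.1.2 := z.2.2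

/-- derivatives -/
noncomputable def der (j : ι) (z : A.D0) : A.D0 :=
  ⟨(fun H => D j (z.1.1 H), MvPowerSeries.pderiv ℝ j z.1.2), (adm z).deriv j,
    (A.hA ι A.P).2.2.2.2.2.2 _ _ j (A.hF.op (adm z)) (asym z)⟩

variable (A)

/-- restriction to the arc -/
noncomputable def G : A.D0 →+* PowerSeries ℝ :=
  ((arcHom A.h0 : MvPowerSeries ι ℝ →+* PowerSeries ℝ).comp (RingHom.snd _ _)).comp A.D0.subtype

theorem G_apply (z : A.D0) : A.G z = arcHom A.h0 z.1.2 := rfl

/-- evaluation -/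
noncomputable def ev (H : (ι → ℂ) → ℂ) (ξ : ι → ℂ) : A.D0 →+* ℂ :=
  (((Pi.evalRingHom _ ξ).comp (Pi.evalRingHom (fun _ : (ι → ℂ) → ℂ => (ι → ℂ) → ℂ) H)).comp
    (RingHom.fst _ _)).comp A.D0.subtype

theorem ev_apply (H : (ι → ℂ) → ℂ) (ξ : ι → ℂ) (z : A.D0) : A.ev H ξ z = z.1.1 H ξ := rfl

theorem ev_der (H : (ι → ℂ) → ℂ) (ξ : ι → ℂ) (j : ι) (z : A.D0) :
    A.ev H ξ (der j z) = D j (fun y => A.ev H y z) ξ := rfl

/-- the critical value -/
noncomputable def f0 : ℝ := MvPowerSeries.constantCoeff A.φ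

/-- the function itself -/
def idz : A.D0 := ⟨(fun H => H, A.φ), Adm.id, A.hφ⟩

/-- constants -/
noncomputable def cst (a : ℝ) : A.D0 :=
  ⟨(fun _ _ => (a : ℂ), MvPowerSeries.C a), Adm.const _, (A.hA ι A.P).2.1 a⟩

/-- the function minus the critical value -/
noncomputable def V : A.D0 := A.idz - A.cst A.f0

theorem ev_V (H : (ι → ℂ) → ℂ) (ξ : ι → ℂ) : A.ev H ξ A.V = H ξ - A.f0 := rfl

theorem G_V : A.G A.V = 0 := arcHom_eq_C A.h0 A.φ A.hc

theorem G_der_idz (j : ι) : A.G (der j A.idz) = 0 := A.hc j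

theorem ev_der_idz (H : (ι → ℂ) → ℂ) (ξ : ι → ℂ) (j : ι) :
    A.ev H ξ (der j A.idz) = D j H ξ := rfl

/-- a maximal regular subsystem -/
structure Sys where
  S : Finset ι
  h : ι → A.D0
  δ : A.D0
  d : ℕ
  μ : ℝ
  hμ : μ ≠ 0
  hδ : PowerSeries.X ^ (d + 1) ∣ A.G δ - PowerSeries.C μ * PowerSeries.X ^ d
  hh : ∀ i ∈ S, A.G (h i) = 0
  hd : ∀ i ∈ S, ∀ l ∈ S, A.G (der l (h i)) = if l = i then A.G δ else 0
  hY : ∀ g, A.G g = 0 → ∀ j, A.G (δ * der j g - ∑ i ∈ S, der i g * der j (h i)) = 0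

theorem nonempty_sys : Nonempty A.Sys := by
  let d : ι → A.D0 →+ PowerSeries ℝ := fun j =>
    { toFun := fun z => A.G (der j z)
      map_zero' := by simp [G_apply, der]
      map_add' := fun x y => by simp [G_apply, der] }
  obtain ⟨S, h, δ, h1, h2, h3, h4⟩ := exists_sys A.G d der
    (fun j x y => by simp [d, G_apply, der]) (fun _ _ => rfl)
  have ho : (A.G δ).order ≠ ⊤ := PowerSeries.order_eq_top.not.2 h1
  refine ⟨⟨S, h, δ, (A.G δ).order.toNat, PowerSeries.coeff (A.G δ).order.toNat (A.G δ),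
    PowerSeries.coeff_order h1, ?_, h2, h3, h4⟩⟩
  rw [PowerSeries.X_pow_dvd_iff]
  intro m hm
  rw [map_sub, PowerSeries.coeff_C_mul, PowerSeries.coeff_X_pow]
  split_ifs with h
  · rw [h, mul_one, sub_self]
  · rw [mul_zero, sub_zero]
    refine PowerSeries.coeff_of_lt_order _ ?_
    rw [← ENat.natCast_toNat ho]
    exact_mod_cast (by omega)

end ArcD

end Vale.Agent.P218F.NA
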