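import Mathlib

/-! Statements of the one-variable lemmas used in block F. -/

open Complex Metric

namespace Vale.Agent.P218F

/-- Patches on a half plane, flat at infinity, are exponentially small. -/
def FlatDecay : Prop :=
  ∀ (κ r L : ℝ) (V : ℂ → ℂ → ℂ), 0 < κ → 0 < r →
    (∀ u : ℂ, L ≤ u.re → DifferentiableOn ℂ (V u) (ball u r)) →
    (∃ C : ℝ, ∀ u v : ℂ, L ≤ u.re → L ≤ v.re → dist v u < r →
      ‖V u v - V v v‖ ≤ C * Real.exp (-(κ * Real.exp v.re))) →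
    (∀ n : ℕ, ∃ C : ℝ, ∀ u : ℂ, L ≤ u.re → ‖V u u‖ ≤ C * Real.exp (-(n * u.re))) →
    ∃ κ' C : ℝ, 0 < κ' ∧ ∀ u : ℂ, L ≤ u.re → ‖V u u‖ ≤ C * Real.exp (-(κ' * Real.exp u.re))

/-- The half strip. -/
def Strip (L a b : ℝ) : Set ℂ := {u | L ≤ u.re ∧ a ≤ u.im ∧ u.im ≤ b}

/-- Two families of patches on overlapping half strips decay faster than the jump exponent. -/
def StokesDecay : Prop :=
  ∀ (e κ β δ r L : ℝ) (Vp Vm : ℂ → ℂ → ℂ), 0 < e → 0 < κ → 0 < β → β < Real.pi / 2 → 0 < δ →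
    δ ≤ β → 0 < r →
    (∀ u ∈ Strip L (-β) δ, DifferentiableOn ℂ (Vp u) (ball u r)) →
    (∀ u ∈ Strip L (-δ) β, DifferentiableOn ℂ (Vm u) (ball u r)) →
    (∃ C : ℝ, ∀ u ∈ Strip L (-β) δ, ∀ v ∈ Strip L (-β) δ, dist v u < r →
      ‖Vp u v - Vp v v‖ ≤ C * Real.exp (-(e * (exp v).re + κ * Real.exp v.re))) →
    (∃ C : ℝ, ∀ u ∈ Strip L (-δ) β, ∀ v ∈ Strip L (-δ) β, dist v u < r →
      ‖Vm u v - Vm v v‖ ≤ C * Real.exp (-(e * (exp v).re + κ * Real.exp v.re))) →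
    (∀ ε : ℝ, 0 < ε → ∃ C : ℝ, ∀ u ∈ Strip L (-δ) δ,
      ‖Vp u u - Vm u u‖ ≤ C * Real.exp (-(e * (exp u).re) + ε * Real.exp u.re)) →
    (∃ C : ℝ, ∀ u ∈ Strip L (-β) δ, ‖Vp u u‖ ≤ C) →
    (∃ C : ℝ, ∀ u ∈ Strip L (-δ) β, ‖Vm u u‖ ≤ C) →
    (∃ C : ℝ, ∀ u ∈ Strip L (-β) (-β + r),
      ‖Vp u u‖ ≤ C * Real.exp (-(e * (exp u).re + κ * Real.exp u.re))) →
    (∃ C : ℝ, ∀ u ∈ Strip L (β - r) β,
      ‖Vm u u‖ ≤ C * Real.exp (-(e * (exp u).re + κ * Real.exp u.re))) →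
    ∃ κ' C : ℝ, 0 < κ' ∧ ∀ u ∈ Strip L (-(δ / 4)) (δ / 4),
      ‖Vp u u‖ ≤ C * Real.exp (-(e * (exp u).re + κ' * Real.exp u.re)) ∧
      ‖Vm u u‖ ≤ C * Real.exp (-(e * (exp u).re + κ' * Real.exp u.re))

/-- Exponentials with real polar parts do not cancel along a suitable ray. `s = σ e^{(x+iθ)/p}` is
the inverse of the arc parameter. -/
def NoCancel : Prop :=
  ∀ (ι : Type) (J : Finset ι) (w : ι → ℝ) (Q : ι → Polynomial ℝ) (σ : ℂ) (p : ℕ) (δ : ℝ),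
    J.Nonempty → (∀ i ∈ J, 0 < w i) → ‖σ‖ = 1 → 1 ≤ p → 0 < δ →
    ∃ θ : ℝ, |θ| ≤ δ ∧ ∀ E : ι → ℝ → ℂ,
      (∀ i ∈ J, Filter.Tendsto
        (fun x : ℝ => E i x - Polynomial.aeval (σ * exp (((x : ℂ) + θ * Complex.I) / p)) (Q i))
        Filter.atTop (nhds 0)) →
      ¬ ∀ᶠ x : ℝ in Filter.atTop,
        ‖∑ i ∈ J, (w i : ℂ) * exp (E i x)‖ ≤ 3 / 4 * ∑ i ∈ J, w i * ‖exp (E i x)‖

end Vale.Agent.P218F
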