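import Vale.Agent.P218F.Terms
import Vale.Agent.P218F.NoCancel
import Vale.Agent.P218F.DefsV

/-! A Stokes jump of the values excludes formal arcs of critical points. -/

open Complex Metric Filter Topology Asymptotics

namespace Vale.Agent.P218F.NA

set_option linter.unusedSectionVars false

variable {ι : Type} [Fintype ι] [DecidableEq ι] {α : Type}

theorem poly_Ex (k : ℕ) {ε : ℝ} (hε : 0 < ε) :
    ∃ C : ℝ, 0 ≤ C ∧ ∀ u : ℂ, Real.exp u.re ^ k ≤ C * Ex ε u := by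
  obtain ⟨C, hC, h⟩ := pow_mul_exp_le k hε
  refine ⟨C, hC, fun u => ?_⟩
  have h0 := Real.exp_pos u.re
  have h1 := h _ h0.le
  rw [Real.exp_neg, ← div_eq_mul_inv, div_le_iff₀ (Real.exp_pos _)] at h1
  exact le_trans (by gcongr; linarith) h1

theorem Ex_O {a b : ℝ} (h : a ≤ b) (l : Filter ℂ) : Ex a =O[l] Ex b :=
  le_O (Eventually.of_forall fun u => ⟨(Ex_pos _ _).le, Ex_mono h u⟩)

theorem exists_unif {l : Filter ℂ} {f : ι → ℂ → ℂ} (h : ∀ j, ∃ c : ℝ, 0 < c ∧ f j =O[l] Ex (-c)) :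
    ∃ c : ℝ, 0 < c ∧ ∀ j, f j =O[l] Ex (-c) := by
  choose c hc h using h
  have h1 : ∀ᶠ x in 𝓝[>] (0 : ℝ), ∀ j, x ∈ Set.Ioc 0 (c j) :=
    eventually_all.2 fun j => Ioc_mem_nhdsGT (hc j)
  obtain ⟨x, hx, hx0⟩ := (h1.and self_mem_nhdsWithin).exists
  exact ⟨x, hx0, fun j => (h j).trans (Ex_O (by linarith [(hx j).2]) l)⟩

/-- smaller than the Stokes term -/
def Small (e : ℝ) (l : Filter ℂ) (f : ℂ → ℂ) : Prop :=
  ∃ c : ℝ, 0 < c ∧ f =O[l] fun u => Ej e u * Ex (-c) u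

theorem Small.sub {e : ℝ} {l : Filter ℂ} {f g : ℂ → ℂ} (hf : Small e l f) (hg : Small e l g) :
    Small e l fun u => f u - g u := by
  obtain ⟨c, hc, h⟩ := hf
  obtain ⟨c', hc', h'⟩ := hg
  exact ⟨min c c', lt_min hc hc',
    (h.trans ((isBigO_refl _ l).mul (Ex_O (neg_le_neg (min_le_left _ _)) l))).sub
      (h'.trans ((isBigO_refl _ l).mul (Ex_O (neg_le_neg (min_le_right _ _)) l)))⟩

theorem norm_stokesSum_le {I : Finset ι} {a : ι → ℝ} (P D : ι → MvPolynomial ι ℝ) {w : ι → ℝ}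
    (hw : ∀ i ∈ I, a i < 0 → 0 < w i) (y : ι → ℂ) :
    ‖stokesSum I a P D w y‖ ≤ stokesAbs I a P D w y := by
  refine (norm_sum_le _ _).trans (Finset.sum_le_sum fun i hi => ?_)
  rw [norm_mul, Complex.norm_real,
    Real.norm_of_nonneg (hw i (Finset.mem_filter.1 hi).1 (Finset.mem_filter.1 hi).2).le]

namespace ArcD

variable {A : ArcD ι} {l : Filter α} {t : α → ℂ} {H : α → (ι → ℂ) → ℂ}

theorem taylor_O (h : A.Good l t H) {ξ ξ' : α → ι → ℂ} (hξ : ∀ᶠ a in l, ξ a ∈ A.Uq (t a))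
    (hξ' : ∀ᶠ a in l, ξ' a ∈ A.Uq (t a)) {g : α → ℝ}
    (hg : ∀ j, (fun a => D j (H a) (ξ' a)) =O[l] g) {ε : ℝ} (hε : 0 < ε) :
    (fun a => H a (ξ a) - H a (ξ' a)) =O[l]
      fun a => (‖g a‖ + ‖ξ a - ξ' a‖ * Real.exp (ε / ‖t a‖ ^ A.p)) * ‖ξ a - ξ' a‖ := by
  have h1 : ∀ j, ∃ C : ℝ, ∀ᶠ a in l, ∀ y ∈ A.Uq (t a), ‖y - ξ' a‖ ≤ ‖ξ a - ξ' a‖ →
      ‖D j (H a) y‖ ≤ C * (‖g a‖ + ‖ξ a - ξ' a‖ * Real.exp (ε / ‖t a‖ ^ A.p)) := by
    intro j
    obtain ⟨k, hk⟩ := lip_pair (der j A.idz)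
    obtain ⟨C1, hC1, e1⟩ := hk (μ := fun _ => 0) h h (Eventually.of_forall fun a y _ => by simp)
    obtain ⟨C2, hC2, e2⟩ := (h.inv_pow k hε).exists_nonneg
    obtain ⟨C3, hC3, e3⟩ := (hg j).exists_nonneg
    refine ⟨C3 + C1 * C2, ?_⟩
    filter_upwards [e1, e2.bound, e3.bound, hξ'] with a a1 a2 a3 a4 y hy hy'
    have b1 := a1 y hy _ a4
    rw [ev_der_idz, ev_der_idz, zero_add, div_eq_mul_inv] at b1
    rw [Real.norm_of_nonneg (by positivity), Real.norm_of_nonneg (by positivity)] at a2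
    have b2 : C1 * ‖y - ξ' a‖ * (‖t a‖ ^ k)⁻¹ ≤
        C1 * ‖ξ a - ξ' a‖ * (C2 * Real.exp (ε / ‖t a‖ ^ A.p)) := by gcongr
    have b3 := norm_add_le (D j (H a) y - D j (H a) (ξ' a)) (D j (H a) (ξ' a))
    rw [sub_add_cancel] at b3
    have b4 : 0 ≤ C3 * (‖ξ a - ξ' a‖ * Real.exp (ε / ‖t a‖ ^ A.p)) := by positivity
    have b5 : 0 ≤ C1 * C2 * ‖g a‖ := by positivity
    nlinarith
  choose C hC using h1
  refine IsBigO.of_bound (∑ j, C j) ?_
  filter_upwards [eventually_all.2 hC, h.diff, hξ, hξ'] with a a1 a2 a3 a4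
  rw [Real.norm_of_nonneg (by positivity), ← mul_assoc]
  refine ((convex_ball _ _).inter (convex_closedBall (ξ' a) ‖ξ a - ξ' a‖)
    ).norm_image_sub_le_of_norm_fderiv_le (𝕜 := ℂ) (fun y hy => a2.differentiableAt
      (isOpen_ball.mem_nhds (A.Uq_subset _ hy.1))) (fun y hy => ?_)
      ⟨a4, mem_closedBall_self (norm_nonneg _)⟩ ⟨a3, mem_closedBall_iff_norm.2 le_rfl⟩
  rw [Finset.sum_mul]
  exact (norm_fderiv_le_sum _ _).trans (Finset.sum_le_sum fun j _ =>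
    a1 j y hy.1 (mem_closedBall_iff_norm.1 hy.2))

variable {ω : ℂ} {e κ m r : ℝ} {S : Set ℂ} {K : ℂ → (ι → ℂ) → ℂ}

theorem Side.good1 (h : Side A ω e κ m r S K) (hω : ‖ω‖ = 1) (he : 0 < e) (hκ : 0 < κ)
    (hm : 0 < m) (hr : r ≤ 1) (hr0 : 0 < r) {l : Filter ℂ} (hl : l ≤ l1 S) :
    A.Good l (tu A.p ω) K :=
  (h.good2 hω he hκ hm hr).comp ((tendsto_diag S hr0).mono_left hl)

theorem Side.glue_W (Y : A.Sys) (h : Side A ω e κ m r S K) (hω : ‖ω‖ = 1) (he : 0 < e)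
    (hκ : 0 < κ) (hm : 0 < m) (hr : r ≤ 1) (hr0 : 0 < r) (z : A.D0) {κ' : ℝ} (hκ' : 2 * κ' ≤ κ) :
    (fun x : ℂ × ℂ => Y.W ω K z x.1 x.2 - Y.W ω K z x.2 x.2) =O[l2 S r ⊓ 𝓟 {x | x.2 ∈ S}]
      fun x => Ej e x.2 * Ex (-κ') x.2 := by
  obtain ⟨C, hC⟩ := h.glue
  have t1 : Tendsto Prod.snd (l2 S r ⊓ 𝓟 {x | x.2 ∈ S}) (l1 S) :=
    tendsto_inf.2 ⟨tendsto_inf_left ((tendsto_snd_l2 S r).mono_right inf_le_left),
      tendsto_inf_right (tendsto_principal_principal.2 fun _ hx => hx)⟩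
  have h1 := (Y.pair_Ex (f := Prod.snd) hω ((h.good2 hω he hκ hm hr).comp
    (tendsto_id.mono_left inf_le_left)) ((h.good1 hω he hκ hm hr hr0 le_rfl).comp t1)
    (eventually_inf_principal.2 hC) (half_pos hκ)).2 z
  refine h1.trans (le_O (Eventually.of_forall fun x => ⟨?_, ?_⟩))
  · exact (mul_pos (mul_pos (Ej_pos _ _) (Ex_pos _ _)) (Ex_pos _ _)).le
  · rw [mul_assoc, Ex_add]
    exact mul_le_mul_of_nonneg_left (Ex_mono (by linarith) _) (Ej_pos _ _).le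

theorem Side.near_W (Y : A.Sys) (h : Side A ω e κ m r S K) (hω : ‖ω‖ = 1) (he : 0 < e)
    (hκ : 0 < κ) (hm : 0 < m) (hr : r ≤ 1) (hr0 : 0 < r) (z : A.D0) {l : Filter ℂ}
    (hl : l ≤ l1 S) {ε : ℝ} (hε : 0 < ε) :
    (fun u => Y.W ω K z u u - Y.W ω (A.HF ω) z u u) =O[l]
      fun u => Ex (ε - min m (e * Real.cos u.im + κ)) u := by
  obtain ⟨C, -, hC⟩ := h.near1 hr0
  refine ((Y.pair_Ex (f := id) hω (h.good1 hω he hκ hm hr hr0 hl)
    ((good1_F hω S).comp (tendsto_id.mono_left hl)) (hl hC) hε).2 z).congr_right fun u => ?_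
  rw [id, Ex_add]; congr 1; ring

theorem Side.edge_W (Y : A.Sys) (h : Side A ω e κ m r S K) (hω : ‖ω‖ = 1) (he : 0 < e)
    (hκ : 0 < κ) (hm : 0 < m) (hr : r ≤ 1) (hr0 : 0 < r) (z : A.D0) {c : ℝ}
    (hc : (fun u => Y.W ω (A.HF ω) z u u) =O[l1 Set.univ] Ex (-c)) {κ' : ℝ} (h0 : 0 < κ')
    (hκ' : 2 * κ' ≤ κ) {S' : Set ℂ} (hS : ∀ u ∈ S', e * Real.cos u.im + 2 * κ' ≤ min m c) :
    (fun u => Y.W ω K z u u) =O[l1 S' ⊓ 𝓟 S] fun u => Ej e u * Ex (-κ') u := by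
  have hl : l1 S' ⊓ 𝓟 S ≤ l1 S := inf_le_inf_right _ inf_le_left
  have hl' : ∀ᶠ u in l1 S' ⊓ 𝓟 S, u ∈ S' := mem_inf_of_left (l1_mem S')
  have h1 := (h.near_W Y hω he hκ hm hr hr0 z hl h0).trans
    (le_O (g := fun u => Ej e u * Ex (-κ') u) (hl'.mono fun u hu => ⟨(Ex_pos _ _).le, by
      rw [Ej_eq, Ex_add]
      refine Ex_mono ?_ _
      have := (hS u hu).trans (min_le_left _ _)
      have : e * Real.cos u.im + 2 * κ' ≤ min m (e * Real.cos u.im + κ) :=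
        le_min this (by linarith)
      linarith⟩))
  have h2 := (hc.mono (hl.trans (l1_mono (Set.subset_univ S)))).trans
    (le_O (g := fun u => Ej e u * Ex (-κ') u) (hl'.mono fun u hu => ⟨(Ex_pos _ _).le, by
      rw [Ej_eq, Ex_add]
      refine Ex_mono ?_ _
      have := (hS u hu).trans (min_le_right _ _)
      linarith⟩))
  exact (h1.add h2).congr_left fun u => by ring

theorem contra (Y : A.Sys) (hP : A.Pair1) (hω : ‖ω‖ = 1) {a : ι → ℝ}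
    (ha : ∀ i ∈ A.P.I, (PowerSeries.coeff A.p (A.γ i) : ℝ) * ω ^ A.p = a i)
    {mm : ι → ι → MvPolynomial ι ℝ}
    (hmm : ∀ i ∈ A.P.I, ∀ j ∈ A.P.I, MvPolynomial.constantCoeff (mm i j) = 0)
    {P : ι → MvPolynomial ι ℝ}
    (hle : IsLeast {x | ∃ i ∈ A.P.I, a i < 0 ∧ x = MvPolynomial.constantCoeff (P i) / |a i|} e)
    (he : 0 < e) (hκ : 0 < κ) (hm : 0 < m) (hr : r ≤ 1) (hr0 : 0 < r) {β δ c : ℝ}
    (hβ : β < Real.pi / 2) (hrβ : r ≤ β) (hδ : 0 < δ) (hδr : δ ≤ r) (hc0 : 0 < c)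
    (hc : (fun u => Y.W ω (A.HF ω) A.V u u) =O[l1 Set.univ] Ex (-c))
    (hE : e * (Real.cos β + r) ≤ 3 / 4 * min m c) {Kp Km : ℂ → (ι → ℂ) → ℂ}
    (hp : Side A ω e κ m r (T (-β) δ) Kp) (hn : Side A ω e κ m r (T (-δ) β) Km)
    {w : ι → ℝ} (hw : ∀ i ∈ A.P.I, a i < 0 → 0 < w i) {k : ℕ} {B : ℂ → ℂ} {C : ℝ}
    (hJ : ∀ᶠ u in l1 (T (-δ) δ), 1 ≤ C * ‖B u‖ * Real.exp u.re ^ k ∧
      ‖B u‖ ≤ C * Real.exp u.re ^ k ∧ ∀ y ∈ A.U (tu A.p ω u),
      ‖Kp u y - Km u y - B u * stokesSum A.P.I a P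
        (fun i => MvPolynomial.X i + ∑ j ∈ A.P.I, mm i j * MvPolynomial.X j) w y‖ ≤
        1 / 2 * ‖B u‖ * stokesAbs A.P.I a P
          (fun i => MvPolynomial.X i + ∑ j ∈ A.P.I, mm i j * MvPolynomial.X j) w y +
          C * (Ej e u * Ex (-κ) u)) : False := by
  set Dn := fun i => MvPolynomial.X i + ∑ j ∈ A.P.I, mm i j * MvPolynomial.X j with hDn
  have s1 : T (-δ) δ ⊆ T (-β) δ := fun u hu => ⟨by linarith [hu.1], hu.2⟩
  have s2 : T (-δ) δ ⊆ T (-δ) β := fun u hu => ⟨hu.1, by linarith [hu.2]⟩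
  have s3 : T (-(δ / 4)) (δ / 4) ⊆ T (-δ) δ := fun u hu =>
    ⟨by linarith [hu.1], by linarith [hu.2]⟩
  obtain ⟨c0, C0, hc0', hC0, hab⟩ := abs_bounds hω ha hmm hle hw
    (S := T (-δ) δ) fun u hu => hp.cos u (s1 hu)
  rw [← hDn] at hab
  have gp := hp.good1 hω he hκ hm hr hr0 (l1_mono s1)
  have gn := hn.good1 hω he hκ hm hr hr0 (l1_mono s2)
  have hj : ∀ ε : ℝ, 0 < ε → ∃ C' : ℝ, ∀ᶠ u in l1 (T (-δ) δ), ∀ y ∈ A.U (tu A.p ω u),
      ‖Kp u y - Km u y‖ ≤ C' * (Ej e u * Ex ε u) := by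
    intro ε hε
    obtain ⟨C1, hC1, h1⟩ := poly_Ex k (half_pos hε)
    refine ⟨2 * (|C| * C1 * C0) + |C|, ?_⟩
    filter_upwards [hJ, hab _ (half_pos hε)] with u a1 a2 y hy
    have b1 := a1.2.2 y hy
    have b2 := (a2 y hy).2
    have b3 := norm_stokesSum_le P Dn hw y
    have b4 := norm_add_le (Kp u y - Km u y - B u * stokesSum A.P.I a P Dn w y)
      (B u * stokesSum A.P.I a P Dn w y)
    rw [sub_add_cancel, norm_mul] at b4
    have b5 : ‖B u‖ ≤ |C| * (C1 * Ex (ε / 2) u) :=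
      a1.2.1.trans (mul_le_mul (le_abs_self C) (h1 u) (by positivity) (abs_nonneg C))
    have b6 := Ej_pos e u
    have b7 := Ex_pos (ε / 2) u
    have b8 : ‖B u‖ * stokesAbs A.P.I a P Dn w y ≤
        |C| * (C1 * Ex (ε / 2) u) * (C0 * (Ej e u * Ex (ε / 2) u)) :=
      mul_le_mul b5 b2 ((norm_nonneg _).trans b3) (by positivity)
    have b9 : |C| * (C1 * Ex (ε / 2) u) * (C0 * (Ej e u * Ex (ε / 2) u)) =
        |C| * C1 * C0 * (Ej e u * Ex ε u) := by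
      rw [← add_halves ε, ← Ex_add, add_halves]; ring
    have b10 : C * (Ej e u * Ex (-κ) u) ≤ |C| * (Ej e u * Ex ε u) :=
      mul_le_mul (le_abs_self C) (mul_le_mul_of_nonneg_left (Ex_mono (by linarith) _) b6.le)
        (mul_pos b6 (Ex_pos _ _)).le (abs_nonneg C)
    have b11 := mul_le_mul_of_nonneg_left b3 (norm_nonneg (B u))
    have b12 := mul_nonneg (norm_nonneg (B u)) ((norm_nonneg _).trans b3)
    nlinarith
  have hs : ∀ ε : ℝ, 0 < ε → ((fun u => Y.sol (tu A.p ω u) (Kp u) - Y.sol (tu A.p ω u) (Km u))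
      =O[l1 (T (-δ) δ)] fun u => Ej e u * Ex ε u) ∧
      (fun u => Y.W ω Kp A.V u u - Y.W ω Km A.V u u) =O[l1 (T (-δ) δ)]
        fun u => Ej e u * Ex ε u := by
    intro ε hε
    obtain ⟨C', h1⟩ := hj _ (half_pos hε)
    have h2 := Y.pair_Ex (f := id) hω gp gn h1 (half_pos hε)
    simp only [id, mul_assoc, Ex_add, add_halves] at h2
    exact ⟨h2.1, h2.2 _⟩
  have hmc := lt_min hm hc0
  set κ' := min (κ / 2) (min m c / 8) with hκ'
  have k0 : 0 < κ' := lt_min (half_pos hκ) (by positivity)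
  have k1 : 2 * κ' ≤ κ := by linarith [min_le_left (κ / 2) (min m c / 8)]
  have k2 : ∀ x : ℝ, |x - β| ≤ r → e * Real.cos x + 2 * κ' ≤ min m c := fun x hx => by
    have a1 := (abs_le.1 ((Real.abs_cos_sub_cos_le x β).trans hx)).2
    have a2 := mul_le_mul_of_nonneg_left a1 he.le
    linarith [min_le_right (κ / 2) (min m c / 8)]
  obtain ⟨κ3, hκ3, v1, v2⟩ := stokes_filter (Vp := Y.W ω Kp A.V) (Vm := Y.W ω Km A.V) he k0
    (hr0.trans_le hrβ) hβ hδ (hδr.trans hrβ) hr0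
    (Y.patch_diff (hp.good2 hω he hκ hm hr) _) (Y.patch_diff (hn.good2 hω he hκ hm hr) _)
    (hp.glue_W Y hω he hκ hm hr hr0 _ k1) (hn.glue_W Y hω he hκ hm hr hr0 _ k1)
    (fun ε hε => (hs ε hε).2)
    ((Y.flat (hp.good1 hω he hκ hm hr hr0 le_rfl) _ A.G_V 0).congr_right fun _ => pow_zero _)
    ((Y.flat (hn.good1 hω he hκ hm hr hr0 le_rfl) _ A.G_V 0).congr_right fun _ => pow_zero _)
    (hp.edge_W Y hω he hκ hm hr hr0 _ hc k0 k1 fun u hu => by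
      rw [← Real.cos_neg]
      exact k2 _ (abs_le.2 ⟨by linarith [hu.2], by linarith [hu.1]⟩))
    (hn.edge_W Y hω he hκ hm hr hr0 _ hc k0 k1 fun u hu =>
      k2 _ (abs_le.2 ⟨by linarith [hu.1], by linarith [hu.2]⟩)) hrβ
  obtain ⟨m2, hm2, hD⟩ := exists_unif (l := l1 (T (-δ) δ))
    (f := fun j u => D j (Km u) (Y.sol (tu A.p ω u) (Km u))) fun j => by
    obtain ⟨c', hc', h1⟩ := Y.exp_F hP hω _ (A.G_der_idz j)
    have hmκ := lt_min hm hκ
    have h2 := (hn.near_W Y hω he hκ hm hr hr0 (der j A.idz) (l1_mono s2) (half_pos hmκ)).trans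
      (le_O (g := Ex (-min c' (min m κ / 2))) ((l1_mem _).mono fun u hu => ⟨(Ex_pos _ _).le, by
        refine Ex_mono ?_ _
        have : min m κ ≤ min m (e * Real.cos u.im + κ) :=
          min_le_min_left _ (by linarith [mul_nonneg he.le (hn.cos _ (s2 hu))])
        linarith [min_le_right c' (min m κ / 2)]⟩))
    have h3 := (h1.mono (l1_mono (Set.subset_univ (T (-δ) δ)))).trans
      (Ex_O (neg_le_neg (min_le_left c' (min m κ / 2))) _)
    exact ⟨_, lt_min hc' (half_pos hmκ), (h2.add h3).congr_left fun u => sub_add_cancel _ _⟩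
  have v3 : Small e (l1 (T (-δ) δ)) fun u =>
      Km u (Y.sol (tu A.p ω u) (Kp u)) - Km u (Y.sol (tu A.p ω u) (Km u)) := by
    have hm3 := lt_min hm2 (half_pos he)
    set m3 := min m2 (e / 2) with hm3'
    have h1 := taylor_O gn (Y.sol_memq gp) (Y.sol_memq gn) hD (ε := m3 / 4) (by positivity)
    have h2 := (hs (m3 / 4) (by positivity)).1.norm_left
    have h3 : (fun u => ‖Ex (-m2) u‖) =O[l1 (T (-δ) δ)] Ex (-(m3 / 2)) :=
      (Ex_O (by linarith [min_le_left m2 (e / 2)]) _).norm_left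
    have h4 : (fun u => Ej e u * Ex (m3 / 4) u * Real.exp (m3 / 4 / ‖tu A.p ω u‖ ^ A.p))
        =O[l1 (T (-δ) δ)] Ex (-(m3 / 2)) := by
      refine le_O ((l1_mem _).mono fun u hu => ⟨(mul_pos (mul_pos (Ej_pos _ _) (Ex_pos _ _))
        (Real.exp_pos _)).le, ?_⟩)
      rw [div_tu A.hp hω, ← Ex, Ej_eq, Ex_add, Ex_add]
      refine Ex_mono ?_ _
      have a1 := Real.one_sub_sq_div_two_le_cos (x := u.im)
      have a2 : u.im ^ 2 ≤ 1 := by nlinarith [hu.1, hu.2]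
      have a3 := mul_le_mul_of_nonneg_left (show 1 / 2 ≤ Real.cos u.im by linarith) he.le
      linarith [min_le_right m2 (e / 2)]
    refine ⟨m3 / 4, by positivity, (h1.trans ((h3.add ((h2.mul (isBigO_refl _ _)).trans h4)).mul
      h2)).congr_right fun u => ?_⟩
    rw [mul_left_comm, Ex_add]; congr 2; ring
  obtain ⟨c1, hc1, v4⟩ := ((Small.sub ⟨κ3, hκ3, v1⟩ ⟨κ3, hκ3, v2⟩).sub
    (v3.imp fun _ h => ⟨h.1, h.2.mono (l1_mono s3)⟩))
  obtain ⟨C5, hC5, v5⟩ := v4.exists_nonneg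
  choose Q hQ using fun i => Y.exists_laurent (P i) (Dn i)
  obtain ⟨i0, hi0, hai0, -⟩ := hle.1
  obtain ⟨θ, hθ, hnc⟩ := noCancel ι (A.P.I.filter fun i => a i < 0) w Q ω⁻¹ A.p (δ / 4)
    ⟨i0, Finset.mem_filter.2 ⟨hi0, hai0⟩⟩
    (fun i hi => hw i (Finset.mem_filter.1 hi).1 (Finset.mem_filter.1 hi).2)
    (by rw [norm_inv, hω, inv_one]) A.hp (by positivity)
  have ray : Tendsto (fun x : ℝ => (x : ℂ) + θ * I) atTop (l1 (T (-(δ / 4)) (δ / 4))) :=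
    tendsto_ray fun x => by simpa [T] using abs_le.1 hθ
  have ray' := ray.mono_right (l1_mono s3)
  refine hnc (fun i x => MvPolynomial.aeval (Y.sol (tu A.p ω (x + θ * I)) (Kp (x + θ * I))) (P i) /
    MvPolynomial.aeval (Y.sol (tu A.p ω (x + θ * I)) (Kp (x + θ * I))) (Dn i)) (fun i hi => ?_) ?_
  · have h0 : PowerSeries.coeff A.p (A.γ i) ≠ 0 := fun h => by
      have := ha i (Finset.mem_filter.1 hi).1
      rw [h, ofReal_zero, zero_mul, eq_comm, ofReal_eq_zero] at this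
      exact (Finset.mem_filter.1 hi).2.ne this
    refine (Y.term_laurent (gp.comp ray').lim (Finset.mem_filter.1 hi).1 h0
      (hmm i (Finset.mem_filter.1 hi).1) (P i) (hQ i) (Y.sol_mem (gp.comp ray'))).congr fun x => ?_
    rw [tu, mul_inv, ← exp_neg, neg_div, neg_neg]
  · set c2 := min c1 κ / 3 with hc2
    have hc2' : 0 < c2 := by have := lt_min hc1 hκ; positivity
    obtain ⟨C1, hC1, h1⟩ := poly_Ex k hc2'
    have h2 : ∀ᶠ u in l1 (T (-δ) δ), (C5 + |C|) * (|C| * C1) * Ex (-c2) u < c0 / 4 := by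
      have := (tendsto_Ex hc2' (T (-δ) δ)).const_mul ((C5 + |C|) * (|C| * C1))
      exact this.eventually (gt_mem_nhds (by rw [mul_zero]; positivity))
    filter_upwards [ray.eventually v5.bound, ray'.eventually hJ, ray'.eventually (hab _ hc2'),
      ray'.eventually h2, ray'.eventually (Y.sol_memq gp)] with x a1 a2 a3 a4 a5
    generalize (x : ℂ) + θ * I = u at *
    set y := Y.sol (tu A.p ω u) (Kp u) with hy
    have b0 := A.Uq_subset _ a5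
    have b1 := a2.2.2 y b0
    have b2 := (a3 y b0).1
    have b3 := Ej_pos e u
    have b4 := Ex_pos (-c2) u
    have b5 : ‖Kp u y - Km u y‖ ≤ C5 * (Ej e u * Ex (-(3 * c2)) u) := by
      rw [Real.norm_of_nonneg (mul_pos b3 (Ex_pos _ _)).le] at a1
      refine le_trans (le_of_eq ?_) (a1.trans (mul_le_mul_of_nonneg_left
        (mul_le_mul_of_nonneg_left (Ex_mono ?_ _) b3.le) hC5))
      · congr 1
        simp only [Sys.W, ev_V, ← hy]
        ring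
      · linarith [min_le_left c1 κ]
    have b6 : C * (Ej e u * Ex (-κ) u) ≤ |C| * (Ej e u * Ex (-(3 * c2)) u) :=
      mul_le_mul (le_abs_self C) (mul_le_mul_of_nonneg_left
        (Ex_mono (by linarith [min_le_right c1 κ]) _) b3.le)
        (mul_pos b3 (Ex_pos _ _)).le (abs_nonneg C)
    have b7 : 1 ≤ |C| * ‖B u‖ * (C1 * Ex c2 u) :=
      a2.1.trans (mul_le_mul (mul_le_mul_of_nonneg_right (le_abs_self C) (norm_nonneg _)) (h1 u)
        (by positivity) (by positivity))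
    have b8 : 0 < ‖B u‖ := by
      rcases (norm_nonneg (B u)).eq_or_lt with h | h
      · rw [← h] at b7; norm_num at b7
      · exact h
    have b9 : (C5 + |C|) * (Ej e u * Ex (-(3 * c2)) u) ≤
        1 / 4 * ‖B u‖ * stokesAbs A.P.I a P Dn w y :=
      calc _ ≤ (C5 + |C|) * (Ej e u * Ex (-(3 * c2)) u) * (|C| * ‖B u‖ * (C1 * Ex c2 u)) :=
            le_mul_of_one_le_right (mul_nonneg (by positivity) (mul_pos b3 (Ex_pos _ _)).le) b7
        _ = (C5 + |C|) * (|C| * C1) * Ex (-c2) u * (‖B u‖ * (Ej e u * Ex (-c2) u)) := by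
            have : Ex (-(3 * c2)) u * Ex c2 u = Ex (-c2) u * Ex (-c2) u := by
              rw [Ex_add, Ex_add]; congr 1; ring
            linear_combination (C5 + |C|) * (|C| * C1) * ‖B u‖ * Ej e u * this
        _ ≤ c0 / 4 * (‖B u‖ * (Ej e u * Ex (-c2) u)) := by gcongr
        _ = 1 / 4 * ‖B u‖ * (c0 * (Ej e u * Ex (-c2) u)) := by ring
        _ ≤ _ := by gcongr
    have b10 := norm_sub_le (Kp u y - Km u y) (Kp u y - Km u y - B u * stokesSum A.P.I a P Dn w y)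
    rw [sub_sub_cancel, norm_mul] at b10
    refine le_of_mul_le_mul_left (?_ : ‖B u‖ * ‖stokesSum A.P.I a P Dn w y‖ ≤
      ‖B u‖ * (3 / 4 * stokesAbs A.P.I a P Dn w y)) b8
    linarith

end ArcD

theorem exists_omega {p : ℕ} (hp : 1 ≤ p) {σ : ℝ} (hσ : σ = 1 ∨ σ = -1) :
    ∃ ω : ℂ, ‖ω‖ = 1 ∧ ω ^ p = σ := by
  rcases hσ with rfl | rfl
  · exact ⟨1, by simp, by simp⟩
  · have : (p : ℂ) ≠ 0 := by exact_mod_cast (by omega : p ≠ 0)
    refine ⟨exp (((Real.pi / p : ℝ) : ℂ) * I), norm_exp_ofReal_mul_I _, ?_⟩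
    rw [← exp_nat_mul]
    push_cast
    rw [← exp_pi_mul_I]
    congr 1
    field_simp

theorem noArcV (hA : AsymCalc) {I : Finset ι} {c r κ : ℝ} {R0 : ℕ} {F : ℕ → (ι → ℂ) → ℂ}
    (h : IsGF I c r κ R0 F) {φ : MvPowerSeries ι ℝ} (hφ : Asym h.par F φ)
    (hS : StokesHypV I c r R0 F) : NoArc I φ := by
  intro γ h0 hc i1 hi1
  by_contra hne
  have hex : ∃ n, ∃ i ∈ I, PowerSeries.coeff n (γ i) ≠ 0 := by
    by_contra! h1
    exact hne (PowerSeries.ext fun n => by simpa using h1 n i1 hi1)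
  classical
  set p := Nat.find hex with hp
  obtain ⟨i2, hi2, hi2'⟩ : ∃ i ∈ I, PowerSeries.coeff p (γ i) ≠ 0 := Nat.find_spec hex
  have hlt : ∀ n, n < p → ∀ i ∈ I, PowerSeries.coeff n (γ i) = 0 := fun n hn i hi => by
    by_contra h1
    exact Nat.find_min hex hn ⟨i, hi, h1⟩
  have hp1 : 1 ≤ p := by
    by_contra h1
    have : p = 0 := by omega
    rw [this, PowerSeries.coeff_zero_eq_constantCoeff_apply] at hi2'
    exact hi2' (h0 i2)
  set a0 : ι → ℝ := fun i => PowerSeries.coeff p (γ i) with ha0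
  have hc0 := h.c_pos
  have hn0 : ∀ i, |a0 i| ≤ ‖a0‖ := fun i => norm_le_pi_norm a0 i
  let A : ArcD ι := ⟨h.par, F, φ, γ, p, c / (8 * (‖a0‖ + 1)), hA, h.gfo, hφ, h0,
    fun j => (Vale.Agent.Lib.RealArc.arcHom_apply h0 _).trans (hc j), hp1,
    fun i hi => PowerSeries.X_pow_dvd_iff.2 fun n hn => hlt n hn i hi, by positivity,
    fun i _ => by
      change 8 * (c / (8 * (‖a0‖ + 1))) * (|a0 i| + 1) ≤ c
      calc _ ≤ 8 * (c / (8 * (‖a0‖ + 1))) * (‖a0‖ + 1) := by gcongr; exact hn0 i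
        _ = c := by field_simp⟩
  have hP : A.Pair1 := IsGF.pair1 h
  obtain ⟨Y⟩ := A.nonempty_sys
  obtain ⟨P, mm, hP0, hmm, hS⟩ := hS (p + 1) (by omega)
  obtain ⟨i0, hi0, hmax⟩ := Finset.exists_max_image I
    (fun i => |a0 i| / MvPolynomial.constantCoeff (P i)) ⟨i1, hi1⟩
  have q0 := hP0 i0 hi0
  have q1 : 0 < |a0 i0| := by
    have a1 : 0 < |a0 i2| / MvPolynomial.constantCoeff (P i2) :=
      div_pos (abs_pos.2 hi2') (hP0 i2 hi2)
    exact (div_pos_iff_of_pos_right q0).1 (a1.trans_le (hmax i2 hi2))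
  obtain ⟨σ, hσ, hσ0⟩ : ∃ σ : ℝ, (σ = 1 ∨ σ = -1) ∧ a0 i0 * σ < 0 := by
    rcases lt_or_gt_of_ne (abs_pos.1 q1) with h1 | h1
    · exact ⟨1, Or.inl rfl, by linarith⟩
    · exact ⟨-1, Or.inr rfl, by linarith⟩
  obtain ⟨ω, hω, hωp⟩ := exists_omega hp1 hσ
  set a : ι → ℝ := fun i => a0 i * σ with ha'
  have habs : ∀ i, |a i| = |a0 i| := fun i => by
    rcases hσ with rfl | rfl <;> simp [ha']
  have ha : ∀ i ∈ A.P.I, (PowerSeries.coeff A.p (A.γ i) : ℝ) * ω ^ A.p = a i := fun i _ => by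
    change (a0 i : ℂ) * ω ^ p = _
    rw [hωp, ha', ofReal_mul]
  set e := MvPolynomial.constantCoeff (P i0) / |a i0| with he'
  have he : 0 < e := div_pos q0 (by rwa [habs])
  have q2 : ∀ i ∈ I, e * |a i| ≤ MvPolynomial.constantCoeff (P i) := fun i hi => by
    have a1 := hmax i hi
    rw [div_le_div_iff₀ (hP0 i hi) q0] at a1
    rw [he', habs, habs, div_mul_eq_mul_div, div_le_iff₀ q1]
    linarith
  have hle : IsLeast {x | ∃ i ∈ I, a i < 0 ∧ x = MvPolynomial.constantCoeff (P i) / |a i|} e := by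
    refine ⟨⟨i0, hi0, hσ0, rfl⟩, ?_⟩
    rintro x ⟨i, hi, hai, rfl⟩
    rw [le_div_iff₀ (abs_pos.2 hai.ne)]
    exact q2 i hi
  obtain ⟨κ0, hκ0, hS⟩ := hS a e hle q2
  obtain ⟨cF, hcF, hF⟩ := Y.exp_F hP hω _ A.G_V
  have hk := A.hk
  have hκ := A.P.hκ
  have hm : 0 < min κ0 (A.P.κ * min κ0 (A.k1 / 2)) :=
    lt_min hκ0 (mul_pos hκ (lt_min hκ0 (half_pos hk)))
  have hm1 := lt_min hm hcF
  set m1 := min (min κ0 (A.P.κ * min κ0 (A.k1 / 2))) cF with hm1'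
  have x0 : 0 < min (1 / 2) (m1 / (2 * e)) := lt_min (by norm_num) (by positivity)
  have x1 : min (1 / 2) (m1 / (2 * e)) < 1 := (min_le_left _ _).trans_lt (by norm_num)
  set β := Real.arccos (min (1 / 2) (m1 / (2 * e))) with hβ
  have β0 : 0 < β := Real.arccos_pos.2 x1
  have β1 : β < Real.pi / 2 := Real.arccos_lt_pi_div_two.2 x0
  have β2 : e * Real.cos β ≤ m1 / 2 := by
    rw [hβ, Real.cos_arccos (by linarith) x1.le]
    calc _ ≤ e * (m1 / (2 * e)) := by gcongr; exact min_le_right _ _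
      _ = _ := by field_simp
  obtain ⟨κs, δ, η, hκs, hδ, hη, Gp, Gm, hGp, hGm, w, k, B, C, hw, hB, hJ⟩ := hS β ⟨β0, β1⟩
  obtain ⟨r', r0, r1, r2, r3, r4, r5⟩ : ∃ r' : ℝ, 0 < r' ∧ r' ≤ 1 ∧ r' ≤ β ∧ r' ≤ η / 2 ∧
      r' ≤ η / (4 * (‖a0‖ + 1)) ∧ r' ≤ m1 / (4 * e) := by
    have : ∀ x : ℝ, 0 < x → ∀ᶠ y in 𝓝[>] (0 : ℝ), y ≤ x := fun x hx =>
      mem_of_superset (Ioc_mem_nhdsGT hx) fun y hy => hy.2
    have h1 : ∀ᶠ y in 𝓝[>] (0 : ℝ), 0 < y := self_mem_nhdsWithin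
    exact (h1.and ((this _ one_pos).and ((this _ β0).and
      ((this _ (by positivity)).and ((this _ (by positivity)).and
        (this _ (by positivity))))))).exists
  have r6 : ∀ i ∈ A.P.I, 4 * r' * |a i| ≤ η := fun i _ => by
    rw [le_div_iff₀ (by positivity)] at r4
    rw [habs]
    nlinarith [hn0 i]
  have d0 : 0 < min δ (r' / 2) := lt_min hδ (half_pos r0)
  have d1 := min_le_left δ (r' / 2)
  have d2 := min_le_right δ (r' / 2)
  set δ' := min δ (r' / 2) with hδ'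
  have hcos : ∀ x : ℝ, -β ≤ x → x ≤ β → 0 ≤ Real.cos x := fun x h1 h2 =>
    Real.cos_nonneg_of_mem_Icc ⟨by linarith, by linarith⟩
  have sp := ArcD.side_of_sec (S := T (-β) δ') hP hω ha (Or.inl rfl) he hκs hκ0 hη hGp r1 r6
    (by linarith) r0 fun u hu => ⟨⟨by linarith [hu.2], by linarith [hu.1]⟩,
      hcos _ hu.1 (by linarith [hu.2])⟩
  have sm := ArcD.side_of_sec (S := T (-δ') β) hP hω ha (Or.inr rfl) he hκs hκ0 hη hGm r1 r6
    (by linarith) r0 fun u hu => ⟨⟨by linarith [hu.1], by linarith [hu.2]⟩,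
      hcos _ (by linarith [hu.1]) hu.2⟩
  obtain ⟨C1, g1⟩ := sp.glue
  obtain ⟨C2, g2⟩ := sm.glue
  have him : ∀ u ∈ T (-δ') δ', |u.im| < r' := fun u hu =>
    abs_lt.2 ⟨by linarith [hu.1], by linarith [hu.2]⟩
  have t1 := tendsto_real (S := T (-β) δ') (fun x => by simp [T, β0.le, d0.le]) him
  have t2 := tendsto_real (S := T (-δ') β) (fun x => by simp [T, β0.le, d0.le]) him
  refine ArcD.contra Y hP hω ha hmm hle he hκs hm r1 r0 β1 r2 d0 (by linarith) hcF hF ?_ sp sm hw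
    (k := k) (B := fun u => B (Real.exp (-u.re))) (C := |C| + |C1| + |C2|) ?_
  · rw [le_div_iff₀ (by positivity)] at r5
    nlinarith
  filter_upwards [t1.eventually g1, t2.eventually g2, l1_mem _,
    t1.eventually (ArcD.U_box hω ha hη r1 r6 _),
    (Real.tendsto_exp_neg_atTop_nhds_zero.comp (tendsto_re_l1 _)).eventually (gt_mem_nhds hη)]
    with u a1 a2 a3 a4 a5
  have b0 : Real.exp (-u.re) ∈ Set.Ioo 0 η := ⟨Real.exp_pos _, a5⟩
  have b1 := hB _ b0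
  have b2 : Real.exp (-u.re) ^ k * Real.exp u.re ^ k = 1 := by
    rw [← mul_pow, ← Real.exp_add]; simp
  have b3 : 0 < Real.exp u.re ^ k := by positivity
  have b4 : C ≤ |C| + |C1| + |C2| := by
    linarith [le_abs_self C, abs_nonneg C1, abs_nonneg C2]
  refine ⟨?_, ?_, fun y hy => ?_⟩
  · rw [← b2]
    exact mul_le_mul_of_nonneg_right
      (b1.1.trans (mul_le_mul_of_nonneg_right b4 (norm_nonneg _))) b3.le
  · calc _ = ‖B (Real.exp (-u.re))‖ * Real.exp (-u.re) ^ k * Real.exp u.re ^ k := by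
          rw [mul_assoc, b2, mul_one]
      _ ≤ _ := mul_le_mul_of_nonneg_right (b1.2.trans b4) b3.le
  · have c1 := a1 ⟨by linarith [a3.1], a3.2⟩ y hy
    have c2 := a2 ⟨a3.1, by linarith [a3.2]⟩ y hy
    have c3 := hJ _ b0 y (by rw [ofReal_exp, ofReal_neg]; exact a4 hy)
    simp only [ofReal_re, ofReal_im, mul_zero] at c1 c2 c3
    have c4 : 0 < Ej e u * Ex (-κs) u := mul_pos (Ej_pos _ _) (Ex_pos _ _)
    have c5 : C * Real.exp (-((e + κs) / Real.exp (-u.re))) ≤ |C| * (Ej e u * Ex (-κs) u) := by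
      refine mul_le_mul (le_abs_self C) ?_ (Real.exp_pos _).le (abs_nonneg C)
      rw [Ej_mul', Real.exp_le_exp, Real.exp_neg, div_inv_eq_mul]
      nlinarith [(abs_le.1 (re_exp_le u)).2]
    have c6 := mul_le_mul_of_nonneg_right (le_abs_self C1) c4.le
    have c7 := mul_le_mul_of_nonneg_right (le_abs_self C2) c4.le
    have c8 : ∀ x1 x2 y1 y2 z : ℂ, ‖x2 - y2 - z‖ ≤ ‖x1 - y1 - z‖ + ‖x1 - x2‖ + ‖y1 - y2‖ := by
      intro x1 x2 y1 y2 z
      rw [show x2 - y2 - z = x1 - y1 - z - (x1 - x2) + (y1 - y2) by ring]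
      exact (norm_add_le _ _).trans (add_le_add_left (norm_sub_le _ _) _)
    refine (c8 _ _ _ _ _).trans ((add_le_add (add_le_add c3 c1) c2).trans ?_)
    change _ ≤ 1 / 2 * ‖B (Real.exp (-u.re))‖ * stokesAbs I a P
      (fun i => MvPolynomial.X i + ∑ j ∈ I, mm i j * MvPolynomial.X j) w y + _
    linarith

theorem blockFV_of (h0 : AsymCalc) (h1 : ConclOfNoArc) : BlockFV := by
  intro ι _ _ I c r κ R0 F h hr hs
  obtain ⟨φ, hφ⟩ := (h0 ι h.par).1 F h.gfo hr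
  exact h1 ι I c r κ R0 F h φ hr hφ (noArcV h0 h hφ hs)

end Vale.Agent.P218F.NA
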