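import Vale.Agent.P218F.Fam

/-! The Stokes terms near an arc. -/

open Complex Metric Filter Topology Asymptotics

namespace Vale.Agent.P218F.NA

set_option linter.unusedSectionVars false

variable {ι : Type} [Fintype ι] [DecidableEq ι] {α : Type}

theorem laurent_aux (U : Polynomial ℝ) (hU : U.coeff 0 ≠ 0) (n : ℕ) : ∀ N : Polynomial ℝ,
    ∃ Q : Polynomial ℝ, Tendsto (fun t : ℂ => Polynomial.aeval t N / (t ^ n * Polynomial.aeval t U)
      - Polynomial.aeval t⁻¹ Q) (𝓝[≠] 0) (𝓝 0) := by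
  have h0 : ∀ q : Polynomial ℝ, Tendsto (fun t : ℂ => Polynomial.aeval t q) (𝓝[≠] 0)
      (𝓝 (q.coeff 0 : ℝ)) := fun q => by
    have := (q.continuous_aeval.tendsto (0 : ℂ)).mono_left (nhdsWithin_le_nhds (s := {0}ᶜ))
    rwa [← Polynomial.coeff_zero_eq_aeval_zero'] at this
  have hU' : ((U.coeff 0 : ℝ) : ℂ) ≠ 0 := by exact_mod_cast hU
  induction n with
  | zero =>
    intro N
    refine ⟨Polynomial.C (N.coeff 0 / U.coeff 0), ?_⟩
    have := ((h0 N).div (h0 U) hU').sub_const ((N.coeff 0 : ℝ) / (U.coeff 0 : ℝ) : ℂ)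
    simpa using this
  | succ n ih =>
    intro N
    obtain ⟨N', hN'⟩ : Polynomial.X ∣ N - Polynomial.C (N.coeff 0 / U.coeff 0) * U := by
      rw [Polynomial.X_dvd_iff]
      simp [hU]
    obtain ⟨Q, hQ⟩ := ih N'
    refine ⟨Polynomial.C (N.coeff 0 / U.coeff 0) * Polynomial.X ^ (n + 1) + Q, hQ.congr' ?_⟩
    filter_upwards [self_mem_nhdsWithin, (h0 U).eventually_ne hU'] with t ht hu
    have h1 := congrArg (Polynomial.aeval t) hN'
    simp only [map_sub, map_mul, Polynomial.aeval_C, Polynomial.aeval_X] at h1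
    have ht' : t ≠ 0 := ht
    simp only [map_add, map_mul, Polynomial.aeval_C, map_pow, Polynomial.aeval_X]
    rw [eq_add_of_sub_eq h1, inv_pow]
    field_simp
    ring

theorem laurent (N D : Polynomial ℝ) : ∃ Q : Polynomial ℝ,
    Tendsto (fun t : ℂ => Polynomial.aeval t N / Polynomial.aeval t D - Polynomial.aeval t⁻¹ Q)
      (𝓝[≠] 0) (𝓝 0) := by
  rcases eq_or_ne D 0 with rfl | hD
  · exact ⟨0, by simp⟩
  obtain ⟨U, h1, h2⟩ := Polynomial.exists_eq_pow_rootMultiplicity_mul_and_not_dvd D hD 0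
  simp only [map_zero, sub_zero, Polynomial.X_dvd_iff] at h1 h2
  obtain ⟨Q, hQ⟩ := laurent_aux U h2 (D.rootMultiplicity 0) N
  refine ⟨Q, hQ.congr fun t => ?_⟩
  conv_rhs => rw [h1]
  simp

theorem mv_zero {l : Filter α} {x : α → ι → ℂ} (hx : x =O[l] fun _ => (1 : ℝ))
    (q : MvPolynomial ι ℝ) : (fun a => MvPolynomial.aeval (x a) q -
      (MvPolynomial.constantCoeff q : ℝ)) =O[l] fun a => ‖x a‖ := by
  have := mv_lip (y := fun _ => 0) hx (isBigO_zero _ _) q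
  simpa [MvPolynomial.aeval_zero] using this

theorem div_lim {l : Filter α} {t : α → ℂ} (ht : Tendsto t l (𝓝[≠] 0)) {f : α → ℂ} {n : ℕ}
    (h : f =O[l] fun a => ‖t a‖ ^ (n + 1)) : Tendsto (fun a => f a / t a ^ n) l (𝓝 0) := by
  obtain ⟨C, hC⟩ := h.bound
  have h1 : Tendsto (fun a => C * ‖t a‖) l (𝓝 0) := by
    simpa using (ht.mono_right nhdsWithin_le_nhds).norm.const_mul C
  refine squeeze_zero_norm' ?_ h1
  filter_upwards [hC, ht.eventually self_mem_nhdsWithin] with a a1 a2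
  have : 0 < ‖t a‖ := norm_pos_iff.2 a2
  rw [norm_div, norm_pow, div_le_iff₀ (by positivity)]
  rw [Real.norm_of_nonneg (by positivity), pow_succ] at a1
  linarith

namespace ArcD

variable {A : ArcD ι} {l : Filter α} {t : α → ℂ}

theorem den_lim (ht : Tendsto t l (𝓝[≠] 0)) {ξ : α → ι → ℂ} (hξ : ∀ᶠ a in l, ξ a ∈ A.U (t a))
    {i : ι} (hi : i ∈ A.P.I) {m : ι → MvPolynomial ι ℝ}
    (hm : ∀ j ∈ A.P.I, MvPolynomial.constantCoeff (m j) = 0) :
    Tendsto (fun a => MvPolynomial.aeval (ξ a) (MvPolynomial.X i + ∑ j ∈ A.P.I,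
      m j * MvPolynomial.X j) / t a ^ A.p) l (𝓝 (PowerSeries.coeff A.p (A.γ i) : ℝ)) := by
  have h := good_F (A := A) ht
  obtain ⟨C, -, h1⟩ := A.U_I
  have h2 : ∀ j ∈ A.P.I, (fun a => ξ a j - (PowerSeries.coeff A.p (A.γ j) : ℝ) * t a ^ A.p) =O[l]
      fun a => ‖t a‖ ^ (A.p + 1) := fun j hj => by
    refine IsBigO.of_bound C ?_
    filter_upwards [hξ, h.lim0.eventually h1] with a a1 a2
    simpa using a2 _ a1 j hj
  have h3 : ∀ j ∈ A.P.I, (fun a => ξ a j) =O[l] fun a => ‖t a‖ ^ A.p := fun j hj => by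
    have h4 : (fun a => ((PowerSeries.coeff A.p (A.γ j) : ℝ) : ℂ) * t a ^ A.p) =O[l]
        fun a => ‖t a‖ ^ A.p :=
      (IsBigO.of_bound 1 (Eventually.of_forall fun a => by simp)).const_mul_left _
    exact (((h2 j hj).trans (pow_O h.lim0 (Nat.le_succ _))).add h4).congr_left fun a => by ring
  have h5 : (fun a => ∑ j ∈ A.P.I, MvPolynomial.aeval (ξ a) (m j) * ξ a j) =O[l]
      fun a => ‖t a‖ ^ (A.p + 1) := by
    refine IsBigO.fun_sum fun j hj => ?_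
    have h6 := (mv_zero ((h.pt_O hξ).trans h.t_O) (m j)).trans (h.pt_O hξ).norm_left
    simp only [hm j hj, ofReal_zero, sub_zero] at h6
    exact (h6.mul (h3 j hj)).congr_right fun a => by ring
  have h7 := (div_lim ht ((h2 i hi).add h5)).add_const ((PowerSeries.coeff A.p (A.γ i) : ℝ) : ℂ)
  rw [zero_add] at h7
  refine h7.congr' ?_
  filter_upwards [ht.eventually self_mem_nhdsWithin] with a ha
  have : t a ≠ 0 := ha
  simp only [map_add, map_sum, map_mul, MvPolynomial.aeval_X]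
  field_simp
  ring

theorem term_bound {i : ι} (hi : i ∈ A.P.I) (h0 : PowerSeries.coeff A.p (A.γ i) ≠ 0)
    {m : ι → MvPolynomial ι ℝ} (hm : ∀ j ∈ A.P.I, MvPolynomial.constantCoeff (m j) = 0)
    (P : MvPolynomial ι ℝ) {ε : ℝ} (hε : 0 < ε) : ∀ᶠ t in 𝓝[≠] (0 : ℂ), ∀ y ∈ A.U t,
      ‖MvPolynomial.aeval y P / MvPolynomial.aeval y (MvPolynomial.X i + ∑ j ∈ A.P.I,
        m j * MvPolynomial.X j) - (MvPolynomial.constantCoeff P : ℝ) /
          ((PowerSeries.coeff A.p (A.γ i) : ℝ) * t ^ A.p)‖ ≤ ε / ‖t‖ ^ A.p := by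
  set l' : Filter (ℂ × (ι → ℂ)) := (𝓝[≠] 0).comap Prod.fst ⊓ 𝓟 {x | x.2 ∈ A.U x.1} with hl'
  have hf : Tendsto Prod.fst l' (𝓝[≠] 0) := tendsto_inf_left tendsto_comap
  have hU : ∀ᶠ x in l', x.2 ∈ A.U x.1 := mem_inf_of_right (mem_principal_self _)
  have h := good_F (A := A) hf
  have h1 := den_lim hf hU hi hm
  have h2 : Tendsto (fun x : ℂ × (ι → ℂ) => MvPolynomial.aeval x.2 P) l'
      (𝓝 (MvPolynomial.constantCoeff P : ℝ)) := by
    rw [← tendsto_sub_nhds_zero_iff]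
    exact ((mv_zero ((h.pt_O hU).trans h.t_O) P).trans (h.pt_O hU).norm_left).trans_tendsto
      (by simpa using h.lim0.norm)
  have h3 := (h2.div h1 (by exact_mod_cast h0)).eventually (closedBall_mem_nhds _ hε)
  have h4 := h3.and (hf.eventually self_mem_nhdsWithin)
  rw [hl', eventually_inf_principal, eventually_comap] at h4
  filter_upwards [h4] with t ht y hy
  obtain ⟨a1, a2⟩ := ht (t, y) rfl hy
  have a3 : t ≠ 0 := a2
  rw [dist_eq_norm] at a1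
  simp only [Pi.div_apply] at a1
  rw [le_div_iff₀ (by positivity), ← norm_pow, ← norm_mul]
  refine le_trans (le_of_eq ?_) a1
  congr 1
  rw [div_div_eq_mul_div]
  field_simp

theorem Sys.term_laurent (Y : A.Sys) (ht : Tendsto t l (𝓝[≠] 0)) {i : ι} (hi : i ∈ A.P.I)
    (h0 : PowerSeries.coeff A.p (A.γ i) ≠ 0)
    {m : ι → MvPolynomial ι ℝ} (hm : ∀ j ∈ A.P.I, MvPolynomial.constantCoeff (m j) = 0)
    (P : MvPolynomial ι ℝ) {Q : Polynomial ℝ} (hQ : Tendsto (fun s : ℂ =>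
      MvPolynomial.aeval (Y.g0 s) P / MvPolynomial.aeval (Y.g0 s) (MvPolynomial.X i +
        ∑ j ∈ A.P.I, m j * MvPolynomial.X j) - Polynomial.aeval s⁻¹ Q) (𝓝[≠] 0) (𝓝 0))
    {ξ : α → ι → ℂ} (hξ : ∀ᶠ a in l, ξ a ∈ Y.B (t a)) :
    Tendsto (fun a => MvPolynomial.aeval (ξ a) P / MvPolynomial.aeval (ξ a) (MvPolynomial.X i +
      ∑ j ∈ A.P.I, m j * MvPolynomial.X j) - Polynomial.aeval (t a)⁻¹ Q) l (𝓝 0) := by
  have h := good_F (A := A) ht
  have hU : ∀ {x : α → ι → ℂ}, (∀ᶠ a in l, x a ∈ Y.B (t a)) → ∀ᶠ a in l, x a ∈ A.U (t a) := by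
    intro x hx
    filter_upwards [hx, h.lim.eventually Y.B_subset] with a a1 a2 using A.Uq_subset _ (a2 a1)
  set D : MvPolynomial ι ℝ := MvPolynomial.X i + ∑ j ∈ A.P.I, m j * MvPolynomial.X j with hD
  have u1 := hU hξ
  have u2 := hU (Y.g0_mem h)
  have b1 := (h.pt_O u1).trans h.t_O
  have b2 := (h.pt_O u2).trans h.t_O
  have d1 := den_lim ht u1 hi hm
  have d2 := den_lim ht u2 hi hm
  rw [← hD] at d1 d2
  have h1 : (fun a => ‖ξ a - Y.g0 (t a)‖) =O[l] fun a => ‖t a‖ ^ (2 * A.p + 1) :=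
    (IsBigO.of_bound 1 (hξ.mono fun a ha => by simpa using (mem_ball_iff_norm.1 ha).le)).trans
      (pow_O h.lim0 (m := Y.e) (by unfold Sys.e; omega))
  have h2 := ((mv_lip b1 b2 P).trans h1).mul (mv_bdd b2 D)
  have h3 := (mv_bdd b2 P).mul ((mv_lip b1 b2 D).trans h1)
  simp only [mul_one, one_mul] at h2 h3
  have h0' : ((PowerSeries.coeff A.p (A.γ i) : ℝ) : ℂ) ≠ 0 := by exact_mod_cast h0
  have h4 := ((div_lim ht (h2.sub h3)).div (d1.mul d2) (mul_ne_zero h0' h0')).add (hQ.comp ht)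
  rw [zero_div, zero_add] at h4
  refine h4.congr' ?_
  filter_upwards [ht.eventually self_mem_nhdsWithin, d1.eventually_ne h0', d2.eventually_ne h0']
    with a a1 a2 a3
  have a4 : t a ≠ 0 := a1
  have a5 := (div_ne_zero_iff.1 a2).1
  have a6 := (div_ne_zero_iff.1 a3).1
  simp only [Pi.div_apply, Function.comp]
  field_simp
  ring

theorem Sys.exists_laurent (Y : A.Sys) (P D : MvPolynomial ι ℝ) : ∃ Q : Polynomial ℝ,
    Tendsto (fun s : ℂ => MvPolynomial.aeval (Y.g0 s) P / MvPolynomial.aeval (Y.g0 s) D -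
      Polynomial.aeval s⁻¹ Q) (𝓝[≠] 0) (𝓝 0) := by
  have e : ∀ (s : ℂ) (q : MvPolynomial ι ℝ), Polynomial.aeval s (MvPolynomial.aeval
      (fun i => PowerSeries.trunc (Y.e + Y.d + 2) (A.γ i)) q) = MvPolynomial.aeval (Y.g0 s) q := by
    intro s q
    rw [← AlgHom.comp_apply, MvPolynomial.comp_aeval]
    rfl
  obtain ⟨Q, hQ⟩ := laurent
    (MvPolynomial.aeval (fun i => PowerSeries.trunc (Y.e + Y.d + 2) (A.γ i)) P)
    (MvPolynomial.aeval (fun i => PowerSeries.trunc (Y.e + Y.d + 2) (A.γ i)) D)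
  exact ⟨Q, by simpa only [e] using hQ⟩

variable {ω : ℂ} {a : ι → ℝ}

theorem term_re (hω : ‖ω‖ = 1)
    (ha : ∀ i ∈ A.P.I, (PowerSeries.coeff A.p (A.γ i) : ℝ) * ω ^ A.p = a i) {i : ι}
    (hi : i ∈ A.P.I) (hai : a i < 0) {m : ι → MvPolynomial ι ℝ}
    (hm : ∀ j ∈ A.P.I, MvPolynomial.constantCoeff (m j) = 0) (P : MvPolynomial ι ℝ) {ε : ℝ}
    (hε : 0 < ε) (S : Set ℂ) : ∀ᶠ u in l1 S, ∀ y ∈ A.U (tu A.p ω u),
      |(MvPolynomial.aeval y P / MvPolynomial.aeval y (MvPolynomial.X i + ∑ j ∈ A.P.I,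
        m j * MvPolynomial.X j)).re + MvPolynomial.constantCoeff P / |a i| * (exp u).re| ≤
          ε * Real.exp u.re := by
  have h0 : PowerSeries.coeff A.p (A.γ i) ≠ 0 := fun h => by
    have := ha i hi
    rw [h, ofReal_zero, zero_mul, eq_comm, ofReal_eq_zero] at this
    exact hai.ne this
  filter_upwards [(tendsto_tu A.hp hω S).eventually (term_bound hi h0 hm P hε)] with u hu y hy
  have h1 := hu y hy
  rw [div_tu A.hp hω, tu_pow A.hp, ← mul_assoc, ha i hi] at h1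
  refine le_trans (le_of_eq ?_) ((abs_re_le_norm _).trans h1)
  have h2 : ((MvPolynomial.constantCoeff P : ℝ) : ℂ) / (a i * exp (-u)) =
      -(((MvPolynomial.constantCoeff P / |a i| : ℝ) : ℂ) * exp u) := by
    have : (a i : ℂ) ≠ 0 := by exact_mod_cast hai.ne
    rw [abs_of_neg hai, exp_neg]
    push_cast
    field_simp
  rw [h2, sub_neg_eq_add, add_re, re_ofReal_mul]

theorem abs_bounds (hω : ‖ω‖ = 1)
    (ha : ∀ i ∈ A.P.I, (PowerSeries.coeff A.p (A.γ i) : ℝ) * ω ^ A.p = a i)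
    {m : ι → ι → MvPolynomial ι ℝ}
    (hm : ∀ i ∈ A.P.I, ∀ j ∈ A.P.I, MvPolynomial.constantCoeff (m i j) = 0)
    {P : ι → MvPolynomial ι ℝ} {e : ℝ}
    (he : IsLeast {x | ∃ i ∈ A.P.I, a i < 0 ∧ x = MvPolynomial.constantCoeff (P i) / |a i|} e)
    {w : ι → ℝ} (hw : ∀ i ∈ A.P.I, a i < 0 → 0 < w i) {S : Set ℂ}
    (hS : ∀ u ∈ S, 0 ≤ Real.cos u.im) : ∃ c C : ℝ, 0 < c ∧ 0 ≤ C ∧ ∀ ε : ℝ, 0 < ε →
      ∀ᶠ u in l1 S, ∀ y ∈ A.U (tu A.p ω u),
        c * (Ej e u * Ex (-ε) u) ≤ stokesAbs A.P.I a P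
          (fun i => MvPolynomial.X i + ∑ j ∈ A.P.I, m i j * MvPolynomial.X j) w y ∧
        stokesAbs A.P.I a P (fun i => MvPolynomial.X i + ∑ j ∈ A.P.I, m i j * MvPolynomial.X j)
          w y ≤ C * (Ej e u * Ex ε u) := by
  obtain ⟨i0, hi0, ha0, he0⟩ := he.1
  have hw' : ∀ i ∈ A.P.I.filter fun i => a i < 0, 0 < w i := fun i hi =>
    hw i (Finset.mem_filter.1 hi).1 (Finset.mem_filter.1 hi).2
  refine ⟨w i0, ∑ i ∈ A.P.I.filter fun i => a i < 0, w i, hw i0 hi0 ha0,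
    Finset.sum_nonneg fun i hi => (hw' i hi).le, fun ε hε => ?_⟩
  filter_upwards [(eventually_all_finset (A.P.I.filter fun i => a i < 0)).2 fun i hi =>
    term_re hω ha (Finset.mem_filter.1 hi).1 (Finset.mem_filter.1 hi).2
      (hm i (Finset.mem_filter.1 hi).1) (P i) hε S, l1_mem S] with u h1 h2 y hy
  have hi0' : i0 ∈ A.P.I.filter fun i => a i < 0 := Finset.mem_filter.2 ⟨hi0, ha0⟩
  constructor
  · refine le_trans ?_ (Finset.single_le_sum (fun i hi => mul_nonneg (hw' i hi).le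
      (norm_nonneg _)) hi0')
    refine mul_le_mul_of_nonneg_left ?_ (hw' i0 hi0').le
    rw [Ej_mul, norm_exp, Real.exp_le_exp, he0]
    linarith [(abs_le.1 (h1 i0 hi0' y hy)).1]
  · rw [Finset.sum_mul]
    refine Finset.sum_le_sum fun i hi => mul_le_mul_of_nonneg_left ?_ (hw' i hi).le
    rw [Ej_mul, norm_exp, Real.exp_le_exp]
    have b1 := he.2 ⟨i, (Finset.mem_filter.1 hi).1, (Finset.mem_filter.1 hi).2, rfl⟩
    have b2 : 0 ≤ (exp u).re := by
      rw [exp_re]; exact mul_nonneg (Real.exp_pos _).le (hS u h2)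
    have b3 := mul_le_mul_of_nonneg_right b1 b2
    linarith [(abs_le.1 (h1 i hi y hy)).2]

end ArcD

end Vale.Agent.P218F.NA
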